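import Vale.Agent.P245.Local.Lsi

/-!
# P245: assembling the dimensional bound from the covariance window
-/

open MeasureTheory Real Set Filter
open scoped RealInnerProductSpace ENNReal Topology

noncomputable section

namespace Vale.Agent.P245.Local

/-- covariance window (proved in `Drift`) -/
def CovWindowProp : Prop :=
  ∃ c R : ℝ, 0 < c ∧ 0 < R ∧ ∀ n : ℕ, 1 ≤ n → ∀ B : Base n, B.Subg →
    ∀ T : ℝ, 0 < T → T ≤ c / (n : ℝ) ^ ((1 : ℝ) / 3) →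
    B.qmeas T {θ | ¬ B.CovLe T θ R} ≤ 1 / 4

/-- norm window (proved in `Window`) -/
def NormWindowProp : Prop :=
  ∀ n : ℕ, 1 ≤ n → ∀ B : Base n, B.Subg → ∀ T : ℝ, 0 < T → T ≤ 1 →
    B.qmeas T {θ | 16 * T * n < ‖θ‖ ^ 2} ≤ 1 / 4

/-- deterministic window (proved in `Window`) -/
def GoodOfCovProp : Prop :=
  ∀ ε R : ℝ, 0 < ε → 0 < R → ∃ c : ℝ, 0 < c ∧ ∀ n : ℕ, 1 ≤ n → ∀ B : Base n,
    B.Subg → B.Centred → ∀ T : ℝ, 0 < T → T ≤ c / (n : ℝ) ^ ((1 : ℝ) / 3) → ∀ g : E n,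
    B.CovLe T g R → ‖g‖ ^ 2 ≤ 16 * T * n → g ∈ B.Good T (ε / T)

theorem lsi_base (hP : ∀ n, PoincareStrongProp n) (hL : ∀ n, LsiStrongProp n)
    (hC : CovWindowProp) (hN : NormWindowProp) (hG : GoodOfCovProp) :
    ∃ C : ℝ, 0 < C ∧ ∀ n : ℕ, 1 ≤ n → ∀ B : Base n, B.Subg → B.Centred → ∀ h : E n → ℝ,
      ContDiff ℝ 1 h → ∀ η K : ℝ, 0 < η → (∀ x, η ≤ h x) → (∀ x, h x ≤ K) →
      (∀ x, ‖fderiv ℝ h x‖ ≤ K) →
      (∫ x, h x * log (h x) ∂B.μ) - (∫ x, h x ∂B.μ) * log (∫ x, h x ∂B.μ)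
        ≤ C * (n : ℝ) ^ ((1 : ℝ) / 3) * ∫ x, ‖fderiv ℝ h x‖ ^ 2 / h x ∂B.μ := by
  obtain ⟨c₁, R, hc₁, hR, hcov⟩ := hC
  obtain ⟨c₂, hc₂, hgood⟩ := hG Base.εcrit R Base.εcrit_pos hR
  set c := min (min c₁ c₂) 1 with hc
  have hcpos : 0 < c := lt_min (lt_min hc₁ hc₂) one_pos
  refine ⟨200 / c, by positivity, ?_⟩
  intro n hn B hS hCen h hh η K hη hlo hhi hD
  have hn0 : (1 : ℝ) ≤ (n : ℝ) ^ ((1 : ℝ) / 3) :=
    one_le_rpow (by exact_mod_cast hn) (by norm_num)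
  have hnpos : (0 : ℝ) < (n : ℝ) ^ ((1 : ℝ) / 3) := one_pos.trans_le hn0
  set T := c / (n : ℝ) ^ ((1 : ℝ) / 3) with hT
  have hTpos : 0 < T := by positivity
  have hT1 : T ≤ 1 := by
    rw [hT, div_le_one hnpos]; exact (min_le_right _ _).trans hn0
  have hle₁ : T ≤ c₁ / (n : ℝ) ^ ((1 : ℝ) / 3) :=
    div_le_div_of_nonneg_right ((min_le_left _ _).trans (min_le_left _ _)) hnpos.le
  have hle₂ : T ≤ c₂ / (n : ℝ) ^ ((1 : ℝ) / 3) :=
    div_le_div_of_nonneg_right ((min_le_left _ _).trans (min_le_right _ _)) hnpos.le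
  have h1 := hcov n hn B hS T hTpos hle₁
  have h2 := hN n hn B hS T hTpos hT1
  have hsub : (B.Good T (Base.εcrit / T))ᶜ ⊆
      {θ | ¬ B.CovLe T θ R} ∪ {θ | 16 * T * n < ‖θ‖ ^ 2} := by
    intro g hg
    by_contra hcon
    simp only [Set.mem_union, Set.mem_ofPred_eq, not_or, not_not, not_lt] at hcon
    exact hg (hgood n hn B hS hCen T hTpos hle₂ g hcon.1 hcon.2)
  have hbad : B.qmeas T (B.Good T (Base.εcrit / T))ᶜ ≤ 1 / 2 :=
    (measure_mono hsub).trans ((measure_union_le _ _).trans ((add_le_add h1 h2).trans_eq (by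
      rw [one_div, one_div, ← two_mul, show (4 : ℝ≥0∞) = 2 * 2 by norm_num,
        ENNReal.mul_inv (by norm_num) (by norm_num), ← mul_assoc,
        ENNReal.mul_inv_cancel two_ne_zero (by simp), one_mul])))
  have hreal : (B.qmeas T).real (B.Good T (Base.εcrit / T))ᶜ ≤ 1 / 2 := by
    rw [measureReal_def]
    have := ENNReal.toReal_mono (by simp) hbad
    simpa using this
  have hgoodmass : 1 / 2 ≤ (B.qmeas T).real (B.Good T (Base.εcrit / T)) := by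
    rw [probReal_compl_eq_one_sub (B.measurableSet_good hTpos.le)] at hreal
    linarith
  have hN' : Nice h η K := ⟨hh, hη, hlo, hhi, hD⟩
  have := B.lsi_of_good (hP n) (hL n) hTpos hgoodmass hN'
  rw [show 200 / c * (n : ℝ) ^ ((1 : ℝ) / 3) = 200 / T by rw [hT, div_div_eq_mul_div]; ring]
  exact this

end Vale.Agent.P245.Local
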