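import Vale.Agent.P245.Local.Defs

/-!
# P245: basic lemmas on the Gaussian localisation
-/

open MeasureTheory Real Set Filter
open scoped RealInnerProductSpace ENNReal Topology

noncomputable section

namespace Vale.Agent.P245.Local

variable {n : ℕ}

/-! ### Gaussian -/

theorem gdens_pos (z : E n) : 0 < gdens z := by unfold gdens; positivity

@[fun_prop]
theorem continuous_gdens : Continuous (gdens : E n → ℝ) := by unfold gdens; fun_prop

theorem integral_gam (F : E n → ℝ) : ∫ z, F z ∂gam n = ∫ z, gdens z * F z := by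
  rw [gam, integral_withDensity_eq_integral_toReal_smul (by fun_prop)
    (.of_forall fun _ => ENNReal.ofReal_lt_top)]
  simp [ENNReal.toReal_ofReal (gdens_pos _).le, smul_eq_mul]

theorem lintegral_gam (F : E n → ℝ≥0∞) :
    ∫⁻ z, F z ∂gam n = ∫⁻ z, ENNReal.ofReal (gdens z) * F z :=
  lintegral_withDensity_eq_lintegral_mul_non_measurable _ (by fun_prop)
    (.of_forall fun _ => ENNReal.ofReal_lt_top) F

theorem integrable_exp_neg_sq {b : ℝ} (hb : 0 < b) :
    Integrable fun z : E n => exp (-b * ‖z‖ ^ 2) := by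
  by_contra h
  have h1 := GaussianFourier.integral_rexp_neg_mul_sq_norm (V := E n) hb
  rw [integral_undef h] at h1
  exact absurd h1.symm (ne_of_gt (by positivity))

theorem integral_gdens : ∫ z : E n, gdens z = 1 := by
  have h1 := GaussianFourier.integral_rexp_neg_mul_sq_norm (V := E n) (b := 1 / 2) (by norm_num)
  rw [finrank_euclideanSpace_fin] at h1
  have h2 : ∀ z : E n, gdens z = (√(2 * π) ^ n)⁻¹ * exp (-(1 / 2) * ‖z‖ ^ 2) := fun z => by
    unfold gdens; ring_nf
  simp only [h2, integral_const_mul, h1]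
  have h3 : (π / (1 / 2)) ^ ((n : ℝ) / 2) = √(2 * π) ^ n := by
    rw [sqrt_eq_rpow, ← rpow_natCast, ← rpow_mul (by positivity)]
    congr 1 <;> ring
  rw [h3, inv_mul_cancel₀ (by positivity)]

theorem integrable_gdens : Integrable (gdens : E n → ℝ) := by
  by_contra h; simpa [integral_undef h] using integral_gdens (n := n)

instance isProbabilityMeasure_gam : IsProbabilityMeasure (gam n) :=
  ⟨by rw [gam, withDensity_apply _ .univ, setLIntegral_univ,
    ← ofReal_integral_eq_lintegral_ofReal integrable_gdens (.of_forall fun z => (gdens_pos z).le),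
    integral_gdens, ENNReal.ofReal_one]⟩

theorem integrable_gam_iff {F : E n → ℝ} :
    Integrable F (gam n) ↔ Integrable fun z => gdens z * F z := by
  rw [gam, integrable_withDensity_iff_integrable_smul' (by fun_prop)
    (.of_forall fun _ => ENNReal.ofReal_lt_top)]
  simp [ENNReal.toReal_ofReal (gdens_pos _).le, smul_eq_mul]

theorem exp_norm_le_sq {ε : ℝ} (hε : 0 < ε) (k : ℝ) (x : E n) :
    k * ‖x‖ ≤ ε * ‖x‖ ^ 2 + k ^ 2 / (4 * ε) := by
  have h : ε * ‖x‖ ^ 2 + k ^ 2 / (4 * ε) - k * ‖x‖ = (2 * ε * ‖x‖ - k) ^ 2 / (4 * ε) := by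
    field_simp; ring
  have : 0 ≤ (2 * ε * ‖x‖ - k) ^ 2 / (4 * ε) := by positivity
  linarith

theorem integrable_gam_exp {c : ℝ} (hc : c < 1 / 2) (k : ℝ) :
    Integrable (fun z : E n => exp (c * ‖z‖ ^ 2 + k * ‖z‖)) (gam n) := by
  rw [integrable_gam_iff]
  set ε := (1 / 2 - c) / 2 with hεdef
  have hε : 0 < ε := by linarith
  refine ((integrable_exp_neg_sq (n := n) hε).const_mul
    ((√(2 * π) ^ n)⁻¹ * exp (k ^ 2 / (4 * ε)))).mono' (by fun_prop) (.of_forall fun z => ?_)
  rw [Real.norm_eq_abs, abs_of_pos (mul_pos (gdens_pos z) (exp_pos _)), gdens,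
    mul_assoc, mul_assoc, ← exp_add, ← exp_add]
  refine mul_le_mul_of_nonneg_left (exp_le_exp.2 ?_) (by positivity)
  have := exp_norm_le_sq hε k z
  nlinarith

/-! ### exponential growth -/

theorem ExpGrowth.norm_le {F : E n → ℝ} (hF : ExpGrowth F) :
    ∃ K k : ℝ, 0 ≤ K ∧ 0 ≤ k ∧ ∀ x, |F x| ≤ K * exp (k * ‖x‖) := by
  obtain ⟨K, k, h⟩ := hF
  refine ⟨|K|, |k|, abs_nonneg _, abs_nonneg _, fun x => (h x).trans ?_⟩
  exact mul_le_mul (le_abs_self K) (exp_le_exp.2 (mul_le_mul_of_nonneg_right (le_abs_self k)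
    (norm_nonneg x))) (exp_pos _).le (abs_nonneg K)

theorem expGrowth_bounded {F : E n → ℝ} {C : ℝ} (h : ∀ x, |F x| ≤ C) : ExpGrowth F :=
  ⟨C, 0, fun x => by simpa using h x⟩

theorem expGrowth_const (c : ℝ) : ExpGrowth fun _ : E n => c :=
  expGrowth_bounded fun _ => le_rfl

theorem expGrowth_norm : ExpGrowth fun x : E n => ‖x‖ :=
  ⟨1, 1, fun x => by rw [abs_norm, one_mul, one_mul]; linarith [add_one_le_exp ‖x‖]⟩

theorem ExpGrowth.of_abs_le {F G : E n → ℝ} (hG : ExpGrowth G) (h : ∀ x, |F x| ≤ |G x|) :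
    ExpGrowth F := by
  obtain ⟨K, k, hK⟩ := hG; exact ⟨K, k, fun x => (h x).trans (hK x)⟩

theorem ExpGrowth.mul {F G : E n → ℝ} (hF : ExpGrowth F) (hG : ExpGrowth G) :
    ExpGrowth fun x => F x * G x := by
  obtain ⟨K, k, hK, -, h⟩ := hF.norm_le
  obtain ⟨L, l, -, -, h'⟩ := hG.norm_le
  refine ⟨K * L, k + l, fun x => ?_⟩
  rw [abs_mul, add_mul, exp_add]
  calc |F x| * |G x| ≤ (K * exp (k * ‖x‖)) * (L * exp (l * ‖x‖)) :=
        mul_le_mul (h x) (h' x) (abs_nonneg _) (by positivity)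
    _ = _ := by ring

theorem ExpGrowth.add {F G : E n → ℝ} (hF : ExpGrowth F) (hG : ExpGrowth G) :
    ExpGrowth fun x => F x + G x := by
  obtain ⟨K, k, hK, hk, h⟩ := hF.norm_le
  obtain ⟨L, l, hL, hl, h'⟩ := hG.norm_le
  refine ⟨K + L, k + l, fun x => ?_⟩
  calc |F x + G x| ≤ |F x| + |G x| := abs_add_le _ _
    _ ≤ K * exp (k * ‖x‖) + L * exp (l * ‖x‖) := add_le_add (h x) (h' x)
    _ ≤ K * exp ((k + l) * ‖x‖) + L * exp ((k + l) * ‖x‖) := by gcongr <;> linarith
    _ = _ := by ring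

theorem ExpGrowth.const_mul {F : E n → ℝ} (hF : ExpGrowth F) (c : ℝ) :
    ExpGrowth fun x => c * F x := (expGrowth_const c).mul hF

theorem ExpGrowth.sub {F G : E n → ℝ} (hF : ExpGrowth F) (hG : ExpGrowth G) :
    ExpGrowth fun x => F x - G x := by
  simpa [sub_eq_add_neg] using hF.add (hG.const_mul (-1))

theorem ExpGrowth.sq {F : E n → ℝ} (hF : ExpGrowth F) : ExpGrowth fun x => F x ^ 2 := by
  simpa [pow_two] using hF.mul hF

theorem expGrowth_inner (v : E n) : ExpGrowth fun x : E n => ⟪v, x⟫ :=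
  (expGrowth_norm.const_mul ‖v‖).of_abs_le fun x => by
    rw [abs_mul, abs_norm, abs_norm]; exact abs_real_inner_le_norm v x

theorem expGrowth_exp_inner (v : E n) : ExpGrowth fun x : E n => exp ⟪v, x⟫ :=
  ⟨1, ‖v‖, fun x => by
    rw [abs_exp, one_mul]; exact exp_le_exp.2 (real_inner_le_norm v x)⟩

namespace Base

variable (B : Base n)

theorem continuous_V : Continuous B.V := B.smooth.continuous

theorem rho_pos (x : E n) : 0 < B.rho x := exp_pos _

@[fun_prop]
theorem continuous_rho : Continuous B.rho := continuous_exp.comp B.continuous_V.neg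

theorem integral_μ (F : E n → ℝ) : ∫ x, F x ∂B.μ = ∫ x, B.rho x * F x := by
  rw [μ, integral_withDensity_eq_integral_toReal_smul (by fun_prop)
    (.of_forall fun _ => ENNReal.ofReal_lt_top)]
  simp [ENNReal.toReal_ofReal (B.rho_pos _).le, smul_eq_mul]

theorem lintegral_μ (F : E n → ℝ≥0∞) :
    ∫⁻ x, F x ∂B.μ = ∫⁻ x, ENNReal.ofReal (B.rho x) * F x :=
  lintegral_withDensity_eq_lintegral_mul_non_measurable _ (by fun_prop)
    (.of_forall fun _ => ENNReal.ofReal_lt_top) F

theorem integrable_μ_iff {F : E n → ℝ} :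
    Integrable F B.μ ↔ Integrable fun x => B.rho x * F x := by
  rw [μ, integrable_withDensity_iff_integrable_smul' (by fun_prop)
    (.of_forall fun _ => ENNReal.ofReal_lt_top)]
  simp [ENNReal.toReal_ofReal (B.rho_pos _).le, smul_eq_mul]

theorem integrable_rho : Integrable B.rho := by
  by_contra h
  have h1 := B.mass
  rw [show (fun x => exp (-B.V x)) = B.rho from rfl, integral_undef h] at h1
  simp at h1

instance isProbabilityMeasure_μ : IsProbabilityMeasure B.μ :=
  ⟨by rw [μ, withDensity_apply _ .univ, setLIntegral_univ,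
    ← ofReal_integral_eq_lintegral_ofReal B.integrable_rho
      (.of_forall fun x => (B.rho_pos x).le)]
      rw [show (∫ x, B.rho x) = 1 from B.mass, ENNReal.ofReal_one]⟩

theorem W_pos (t : ℝ) (θ x : E n) : 0 < W t θ x := exp_pos _

theorem W_zero (x : E n) : W 0 0 x = 1 := by simp [W]

theorem W_le {t r : ℝ} (ht : 0 ≤ t) {θ : E n} (hθ : ‖θ‖ ≤ r) (x : E n) :
    W t θ x ≤ exp (r * ‖x‖) := by
  refine exp_le_exp.2 ?_
  have h1 := real_inner_le_norm θ x
  have h2 : ‖θ‖ * ‖x‖ ≤ r * ‖x‖ := mul_le_mul_of_nonneg_right hθ (norm_nonneg x)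
  have h3 : 0 ≤ t / 2 * ‖x‖ ^ 2 := by positivity
  linarith

theorem integrable_exp_norm (k : ℝ) : Integrable (fun x => exp (k * ‖x‖)) B.μ := by
  obtain ⟨α, hα, hint⟩ := B.tail
  rw [integrable_μ_iff]
  refine (hint.const_mul (exp (k ^ 2 / (4 * α)))).mono' (by fun_prop) (.of_forall fun x => ?_)
  rw [Real.norm_eq_abs, abs_of_pos (mul_pos (B.rho_pos x) (exp_pos _)), rho, ← exp_add, ← exp_add]
  exact exp_le_exp.2 (by linarith [exp_norm_le_sq hα k x])

theorem integrable_W_mul {t : ℝ} (ht : 0 ≤ t) (θ : E n) {F : E n → ℝ}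
    (hF : AEStronglyMeasurable F B.μ) (hg : ExpGrowth F) :
    Integrable (fun x => W t θ x * F x) B.μ := by
  obtain ⟨K, k, hK, -, h⟩ := hg.norm_le
  refine ((B.integrable_exp_norm (‖θ‖ + k)).const_mul K).mono'
    ((by unfold W; fun_prop : Continuous fun x => W t θ x).aestronglyMeasurable.mul hF)
    (.of_forall fun x => ?_)
  rw [Real.norm_eq_abs, abs_mul, abs_of_pos (W_pos t θ x), add_mul, exp_add]
  calc W t θ x * |F x| ≤ exp (‖θ‖ * ‖x‖) * (K * exp (k * ‖x‖)) :=
        mul_le_mul (W_le ht le_rfl x) (h x) (abs_nonneg _) (exp_pos _).le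
    _ = _ := by ring

theorem integrable_of_growth {F : E n → ℝ} (hF : AEStronglyMeasurable F B.μ) (hg : ExpGrowth F) :
    Integrable F B.μ := by
  simpa [W_zero] using B.integrable_W_mul le_rfl 0 hF hg

theorem integrable_W {t : ℝ} (ht : 0 ≤ t) (θ : E n) : Integrable (fun x => W t θ x) B.μ := by
  simpa using B.integrable_W_mul ht θ (F := fun _ => (1 : ℝ)) (by fun_prop) (expGrowth_const 1)

theorem Z_pos {t : ℝ} (ht : 0 ≤ t) (θ : E n) : 0 < B.Z t θ := by
  refine (integral_pos_iff_support_of_nonneg (fun x => (W_pos t θ x).le) (B.integrable_W ht θ)).2 ?_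
  simp [Function.support, (W_pos t θ _).ne']

theorem num_eq_zero_F : ∀ F, B.num 0 0 F = ∫ x, F x ∂B.μ := fun F => by simp [num, W_zero]

theorem Z_zero : B.Z 0 0 = 1 := by simp [Z, W_zero]

theorem avg_zero (F : E n → ℝ) : B.avg 0 0 F = ∫ x, F x ∂B.μ := by
  simp [avg, num_eq_zero_F, Z_zero]

theorem continuousOn_num {F : E n → ℝ} (hF : AEStronglyMeasurable F B.μ) (hg : ExpGrowth F) :
    ContinuousOn (fun p : ℝ × E n => B.num p.1 p.2 F) (Ici 0 ×ˢ univ) := by
  intro p hp
  obtain ⟨K, k, hK, -, h⟩ := hg.norm_le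
  refine continuousWithinAt_of_dominated (bound := fun x => K * exp ((‖p.2‖ + 1 + k) * ‖x‖))
    ?_ ?_ ((B.integrable_exp_norm _).const_mul K) ?_
  · filter_upwards with q
    exact (by unfold W; fun_prop : Continuous fun x => W q.1 q.2 x).aestronglyMeasurable.mul hF
  · have h1 : ∀ᶠ q : ℝ × E n in 𝓝[Ici 0 ×ˢ univ] p, ‖q.2‖ ≤ ‖p.2‖ + 1 := by
      refine nhdsWithin_le_nhds ?_
      have : ContinuousAt (fun q : ℝ × E n => ‖q.2‖) p := by fun_prop
      exact this.eventually_le_const (by linarith)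
    filter_upwards [h1, self_mem_nhdsWithin] with q hq hq'
    filter_upwards with x
    rw [Real.norm_eq_abs, abs_mul, abs_of_pos (W_pos _ _ x), add_mul (‖p.2‖ + 1), exp_add]
    calc W q.1 q.2 x * |F x| ≤ exp ((‖p.2‖ + 1) * ‖x‖) * (K * exp (k * ‖x‖)) :=
          mul_le_mul (W_le hq'.1 hq x) (h x) (abs_nonneg _) (exp_pos _).le
      _ = _ := by ring
  · filter_upwards with x
    exact (by unfold W; fun_prop : Continuous fun q : ℝ × E n => W q.1 q.2 x * F x).continuousWithinAt

theorem continuous_num {t : ℝ} (ht : 0 ≤ t) {F : E n → ℝ} (hF : AEStronglyMeasurable F B.μ)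
    (hg : ExpGrowth F) : Continuous fun θ => B.num t θ F :=
  (B.continuousOn_num hF hg).comp_continuous (by fun_prop : Continuous fun θ : E n => (t, θ))
    fun θ => ⟨ht, mem_univ θ⟩

theorem num_one (t : ℝ) (θ : E n) : B.num t θ (fun _ => 1) = B.Z t θ := by simp [num, Z]

theorem continuous_Z {t : ℝ} (ht : 0 ≤ t) : Continuous (B.Z t) := by
  simpa [num_one] using B.continuous_num ht (F := fun _ => (1 : ℝ)) (by fun_prop) (expGrowth_const 1)

theorem continuous_Lam {t : ℝ} (ht : 0 ≤ t) : Continuous (B.Lam t) :=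
  (B.continuous_Z ht).log fun θ => (B.Z_pos ht θ).ne'

theorem continuous_avg {t : ℝ} (ht : 0 ≤ t) {F : E n → ℝ} (hF : AEStronglyMeasurable F B.μ)
    (hg : ExpGrowth F) : Continuous fun θ => B.avg t θ F :=
  (B.continuous_num ht hF hg).div (B.continuous_Z ht) fun θ => (B.Z_pos ht θ).ne'

theorem inner_mean {t : ℝ} (ht : 0 ≤ t) (θ u : E n) :
    ⟪B.mean t θ, u⟫ = B.avg t θ fun x => ⟪u, x⟫ := by
  have hi : Integrable (fun x => W t θ x • x) B.μ := by
    refine (B.integrable_W_mul ht θ (F := fun x => ‖x‖) (by fun_prop) expGrowth_norm).mono'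
      (by unfold W; fun_prop) (.of_forall fun x => ?_)
    rw [norm_smul, Real.norm_eq_abs, abs_of_pos (W_pos t θ x)]
  rw [mean, real_inner_smul_left, real_inner_comm, ← integral_inner hi, avg, num, div_eq_inv_mul]
  simp [real_inner_smul_right]

theorem avg_add {t : ℝ} (ht : 0 ≤ t) (θ : E n) {F G : E n → ℝ}
    (hF : AEStronglyMeasurable F B.μ) (hgF : ExpGrowth F) (hG : AEStronglyMeasurable G B.μ)
    (hgG : ExpGrowth G) :
    B.avg t θ (fun x => F x + G x) = B.avg t θ F + B.avg t θ G := by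
  simp only [avg, num, mul_add]
  rw [integral_add (B.integrable_W_mul ht θ hF hgF) (B.integrable_W_mul ht θ hG hgG), add_div]

theorem avg_const_mul (t : ℝ) (θ : E n) (c : ℝ) (F : E n → ℝ) :
    B.avg t θ (fun x => c * F x) = c * B.avg t θ F := by
  simp only [avg, num, mul_left_comm _ c, integral_const_mul, mul_div_assoc]

theorem avg_const {t : ℝ} (ht : 0 ≤ t) (θ : E n) (c : ℝ) : B.avg t θ (fun _ => c) = c := by
  simp only [avg, num, integral_mul_const]
  rw [show (∫ x, W t θ x ∂B.μ) = B.Z t θ from rfl, mul_comm, mul_div_assoc,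
    div_self (B.Z_pos ht θ).ne', mul_one]

/-! ### convexity -/

theorem hess_nonneg (x v : E n) : 0 ≤ hess B.V x v v := by
  have hd : ∀ s : ℝ, HasDerivAt (fun s : ℝ => B.V (x + s • v)) (fderiv ℝ B.V (x + s • v) v) s := by
    intro s
    have h1 : HasDerivAt (fun s : ℝ => x + s • v) v s := by
      simpa using ((hasDerivAt_id s).smul_const v).const_add x
    exact (B.smooth.differentiable (by norm_num) _).hasFDerivAt.comp_hasDerivAt s h1
  have hconv : ConvexOn ℝ univ fun s : ℝ => B.V (x + s • v) :=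
    ⟨convex_univ, fun a _ b _ p q hp hq hpq => by
      have h := B.convex.2 (mem_univ (x + a • v)) (mem_univ (x + b • v)) hp hq hpq
      refine le_of_eq_of_le ?_ h
      simp only [smul_eq_mul]
      congr 1
      calc x + (p * a + q * b) • v = (p + q) • x + (p * a + q * b) • v := by rw [hpq, one_smul]
        _ = _ := by module⟩
  have hmono : Monotone fun s : ℝ => fderiv ℝ B.V (x + s • v) v := by
    have := hconv.monotoneOn_deriv (fun s _ => (hd s).differentiableAt)
    intro a b hab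
    simpa [(hd a).deriv, (hd b).deriv] using this (mem_univ a) (mem_univ b) hab
  have hd2 : HasDerivAt (fun s : ℝ => fderiv ℝ B.V (x + s • v) v) (hess B.V x v v) 0 := by
    have h1 : HasDerivAt (fun s : ℝ => x + s • v) v (0 : ℝ) := by
      simpa using ((hasDerivAt_id (0:ℝ)).smul_const v).const_add x
    have h2 := ((B.smooth.fderiv_right (m := 1) le_rfl).differentiable (by norm_num)
      (x + (0:ℝ) • v)).hasFDerivAt.comp_hasDerivAt (0:ℝ) h1
    have h3 := h2.clm_apply (hasDerivAt_const (0:ℝ) v)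
    simpa [hess] using h3
  rw [← hd2.deriv]; exact hmono.deriv_nonneg

/-! ### tilting -/

theorem hessBound_nonneg : ∃ M : ℝ, 0 ≤ M ∧ ∀ x v, hess B.V x v v ≤ M * ‖v‖ ^ 2 := by
  obtain ⟨M, hM⟩ := B.hessBound
  exact ⟨max M 0, le_max_right _ _, fun x v => (hM x v).trans
    (mul_le_mul_of_nonneg_right (le_max_left _ _) (sq_nonneg _))⟩

theorem hasFDerivAt_innerSL (x : E n) :
    ∃ L : E n →L[ℝ] E n →L[ℝ] ℝ, (∀ v w, L v w = ⟪v, w⟫) ∧
      HasFDerivAt (fun y : E n => (innerSL ℝ y : E n →L[ℝ] ℝ)) L x := by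
  refine ⟨LinearMap.mkContinuous
    { toFun := fun y => innerSL ℝ y, map_add' := fun a b => by simp,
      map_smul' := fun r a => by simp } 1 fun y => by simp, fun v w => rfl, ?_⟩
  exact ContinuousLinearMap.hasFDerivAt (LinearMap.mkContinuous _ _ _)

theorem hess_tilt (t : ℝ) (θ : E n) (c : ℝ) (x v w : E n) :
    hess (fun y => B.V y + (t / 2 * ‖y‖ ^ 2 - ⟪θ, y⟫) + c) x v w =
      hess B.V x v w + t * ⟪v, w⟫ := by
  have h1 : ∀ y : E n, fderiv ℝ (fun y => B.V y + (t / 2 * ‖y‖ ^ 2 - ⟪θ, y⟫) + c) y =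
      fderiv ℝ B.V y + (t • innerSL ℝ y - innerSL ℝ θ) := by
    intro y
    have a := (B.smooth.differentiable (by norm_num) y).hasFDerivAt
    have b := (hasStrictFDerivAt_norm_sq y).hasFDerivAt.const_mul (t / 2)
    have c' := (innerSL ℝ θ).hasFDerivAt (x := y)
    have := ((a.add (b.sub c')).add_const c).fderiv
    simp only [innerSL_apply_apply, Pi.add_apply, Pi.sub_apply] at this ⊢
    refine Eq.trans ?_ (this.trans ?_)
    · rfl
    ext u; simp; ring
  obtain ⟨L, hL, hL'⟩ := hasFDerivAt_innerSL x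
  have h2 : HasFDerivAt (fun y => fderiv ℝ B.V y + (t • innerSL ℝ y - innerSL ℝ θ))
      (fderiv ℝ (fderiv ℝ B.V) x + t • L) x := by
    have a := ((B.smooth.fderiv_right (m := 1) le_rfl).differentiable (by norm_num) x).hasFDerivAt
    exact a.add ((hL'.const_smul t).sub_const _)
  unfold hess
  rw [show fderiv ℝ (fun y => B.V y + (t / 2 * ‖y‖ ^ 2 - ⟪θ, y⟫) + c) =
    fun y => fderiv ℝ B.V y + (t • innerSL ℝ y - innerSL ℝ θ) from funext h1, h2.fderiv]
  simp [hL]

theorem tilt_density (t : ℝ) (ht : 0 ≤ t) (θ x : E n) :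
    exp (-(B.V x + (t / 2 * ‖x‖ ^ 2 - ⟪θ, x⟫) + B.Lam t θ)) = B.rho x * W t θ x / B.Z t θ := by
  rw [rho, W, Lam, ← exp_add, eq_div_iff (B.Z_pos ht θ).ne']
  nth_rewrite 2 [← exp_log (B.Z_pos ht θ)]
  rw [← exp_add]
  congr 1; ring

/-- the tilted measure `μ_{θ,t}` as a `Base` -/
def tilt (t : ℝ) (ht : 0 ≤ t) (θ : E n) : Base n where
  V x := B.V x + (t / 2 * ‖x‖ ^ 2 - ⟪θ, x⟫) + B.Lam t θ
  smooth := (B.smooth.add ((contDiff_const.mul (contDiff_norm_sq ℝ)).sub
    (innerSL ℝ θ).contDiff)).add contDiff_const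
  convex := by
    refine ⟨convex_univ, fun x _ y _ p q hp hq hpq => ?_⟩
    have h := B.convex.2 (mem_univ x) (mem_univ y) hp hq hpq
    simp only [smul_eq_mul] at h ⊢
    rw [inner_add_right, real_inner_smul_right, real_inner_smul_right]
    have hn : ‖p • x + q • y‖ ^ 2 ≤ p * ‖x‖ ^ 2 + q * ‖y‖ ^ 2 := by
      have h1 : ‖p • x + q • y‖ ≤ p * ‖x‖ + q * ‖y‖ := (norm_add_le _ _).trans_eq (by
        rw [norm_smul, norm_smul, Real.norm_eq_abs, Real.norm_eq_abs, abs_of_nonneg hp,
          abs_of_nonneg hq])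
      have hq' : q = 1 - p := by linarith
      subst hq'
      calc _ ≤ (p * ‖x‖ + (1 - p) * ‖y‖) ^ 2 := by gcongr
        _ ≤ _ := by nlinarith [mul_nonneg (mul_nonneg hp hq) (sq_nonneg (‖x‖ - ‖y‖))]
    have := mul_le_mul_of_nonneg_left hn (by linarith : (0:ℝ) ≤ t / 2)
    obtain rfl : q = 1 - p := by linarith
    linarith
  hessBound := by
    obtain ⟨M, hM⟩ := B.hessBound
    refine ⟨M + t, fun x v => ?_⟩
    rw [hess_tilt, real_inner_self_eq_norm_sq, add_mul]
    linarith [hM x v]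
  mass := by
    simp only [B.tilt_density t ht θ, integral_div, ← B.integral_μ (W t θ)]
    exact div_self (B.Z_pos ht θ).ne'
  tail := by
    obtain ⟨α, hα, hint⟩ := B.tail
    refine ⟨α / 2, by linarith, (hint.const_mul (exp (‖θ‖ ^ 2 / (2 * α) - B.Lam t θ))).mono'
      ((continuous_exp.comp ((by fun_prop : Continuous fun x : E n => α / 2 * ‖x‖ ^ 2).sub
        ((B.continuous_V.add (by fun_prop)).add continuous_const))).aestronglyMeasurable)
      (.of_forall fun x => ?_)⟩
    rw [Real.norm_eq_abs, abs_exp, ← exp_add]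
    refine exp_le_exp.2 ?_
    have h1 := exp_norm_le_sq (half_pos hα) ‖θ‖ x
    have h2 := real_inner_le_norm θ x
    have h3 : 0 ≤ t / 2 * ‖x‖ ^ 2 := by positivity
    rw [show ‖θ‖ ^ 2 / (2 * α) = ‖θ‖ ^ 2 / (4 * (α / 2)) by ring]
    linarith

theorem tilt_rho (t : ℝ) (ht : 0 ≤ t) (θ x : E n) :
    (B.tilt t ht θ).rho x = B.rho x * W t θ x / B.Z t θ :=
  B.tilt_density t ht θ x

theorem integral_tilt (t : ℝ) (ht : 0 ≤ t) (θ : E n) (F : E n → ℝ) :
    ∫ x, F x ∂(B.tilt t ht θ).μ = B.avg t θ F := by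
  rw [integral_μ, avg, num, integral_μ B, ← integral_div]
  congr 1; funext x
  rw [tilt_rho]; ring

theorem strong_tilt {c : ℝ} (hc : B.Strong c) (t : ℝ) (ht : 0 ≤ t) (θ : E n) :
    (B.tilt t ht θ).Strong (c + t) := fun x v => by
  show _ ≤ hess (fun y => B.V y + (t / 2 * ‖y‖ ^ 2 - ⟪θ, y⟫) + B.Lam t θ) x v v
  rw [hess_tilt, real_inner_self_eq_norm_sq, add_mul]
  linarith [hc x v]

theorem strong_zero : B.Strong 0 := fun x v => by simpa using B.hess_nonneg x v

theorem W_mul_W (s t : ℝ) (η θ x : E n) : W t θ x * W s η x = W (t + s) (θ + η) x := by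
  rw [W, W, W, ← exp_add, inner_add_left]; congr 1; ring

theorem num_tilt (t : ℝ) (ht : 0 ≤ t) (θ : E n) (s : ℝ) (η : E n) (F : E n → ℝ) :
    (B.tilt t ht θ).num s η F = B.num (t + s) (θ + η) F / B.Z t θ := by
  rw [num, integral_tilt, avg, num, num]
  congr 1; congr 1; funext x
  rw [← W_mul_W]; ring

theorem Z_tilt (t : ℝ) (ht : 0 ≤ t) (θ : E n) (s : ℝ) (η : E n) :
    (B.tilt t ht θ).Z s η = B.Z (t + s) (θ + η) / B.Z t θ := by
  rw [← num_one, num_tilt, num_one]

theorem avg_tilt (t : ℝ) (ht : 0 ≤ t) (θ : E n) (s : ℝ) (η : E n) (F : E n → ℝ) :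
    (B.tilt t ht θ).avg s η F = B.avg (t + s) (θ + η) F := by
  rw [avg, avg, num_tilt, Z_tilt, div_div_div_cancel_right₀ (B.Z_pos ht θ).ne']

/-! ### the two representations of the law of `θ` -/

theorem measurable_locMap (t : ℝ) : Measurable (locMap (n := n) t) := by unfold locMap; fun_prop

theorem gdens_shift {t : ℝ} (ht : 0 ≤ t) (x z : E n) :
    gdens (z - √t • x) = gdens z * W t (√t • z) x := by
  rw [gdens, gdens, W, mul_assoc, ← exp_add, norm_sub_sq_real, real_inner_smul_right,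
    real_inner_smul_left, norm_smul, mul_pow, Real.norm_eq_abs, sq_abs, sq_sqrt ht]
  congr 2; ring

theorem lintegral_shift {t : ℝ} (ht : 0 ≤ t) (x : E n) (H : E n → ℝ≥0∞) :
    ∫⁻ z, H (locMap t (x, z)) ∂gam n =
      ∫⁻ z, ENNReal.ofReal (W t (√t • z) x) * H (√t • z) ∂gam n := by
  rw [lintegral_gam, lintegral_gam,
    ← lintegral_sub_right_eq_self (μ := (volume : Measure (E n)))
      (fun z => ENNReal.ofReal (gdens z) * H (locMap t (x, z))) (√t • x)]
  congr 1; funext z
  rw [gdens_shift ht, ENNReal.ofReal_mul (gdens_pos z).le, mul_assoc]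
  congr 3
  simp only [locMap, smul_sub, smul_smul, mul_self_sqrt ht]
  abel

theorem lintegral_qmeas {t : ℝ} (ht : 0 ≤ t) {F : E n → ℝ≥0∞} (hF : Measurable F) :
    ∫⁻ θ, F θ ∂B.qmeas t = ∫⁻ z, ENNReal.ofReal (B.Z t (√t • z)) * F (√t • z) ∂gam n := by
  rw [qmeas, lintegral_map hF (measurable_locMap t),
    lintegral_prod (fun p => F (locMap t p)) (hF.comp (measurable_locMap t)).aemeasurable]
  simp only [lintegral_shift ht _ F]
  rw [lintegral_lintegral_swap
    (((by unfold W; fun_prop : Continuous fun p : E n × E n =>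
      W t (√t • p.2) p.1).measurable.ennreal_ofReal.mul
        (hF.comp (by fun_prop))).aemeasurable)]
  congr 1; funext z
  rw [lintegral_mul_const _ (by unfold W; fun_prop), Z,
    ofReal_integral_eq_lintegral_ofReal (B.integrable_W ht _) (.of_forall fun x => (W_pos _ _ x).le)]

instance isProbabilityMeasure_qmeas (t : ℝ) : IsProbabilityMeasure (B.qmeas t) :=
  Measure.isProbabilityMeasure_map (measurable_locMap t).aemeasurable

theorem qmeas_eq_map {t : ℝ} (ht : 0 ≤ t) :
    B.qmeas t = ((gam n).withDensity fun z => ENNReal.ofReal (B.Z t (√t • z))).map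
      fun z => √t • z := by
  have hm : Measurable fun z : E n => ENNReal.ofReal (B.Z t (√t • z)) :=
    ((B.continuous_Z ht).comp (by fun_prop)).measurable.ennreal_ofReal
  have hs : Measurable fun z : E n => √t • z := by fun_prop
  ext s hs'
  rw [← lintegral_indicator_one hs', B.lintegral_qmeas ht (measurable_one.indicator hs'),
    Measure.map_apply hs hs', withDensity_apply _ (hs hs'), ← lintegral_indicator (hs hs')]
  congr 1; funext z
  by_cases h : √t • z ∈ s <;> simp [h]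

theorem qavg_eq {t : ℝ} (ht : 0 ≤ t) {F : E n → ℝ} (hF : Measurable F) :
    B.qavg t F = ∫ z, B.Z t (√t • z) * F (√t • z) ∂gam n := by
  have hm : Measurable fun z : E n => ENNReal.ofReal (B.Z t (√t • z)) :=
    ((B.continuous_Z ht).comp (by fun_prop)).measurable.ennreal_ofReal
  rw [qavg, qmeas_eq_map B ht, integral_map (by fun_prop) hF.aestronglyMeasurable,
    integral_withDensity_eq_integral_toReal_smul hm
      (.of_forall fun _ => ENNReal.ofReal_lt_top)]
  simp [ENNReal.toReal_ofReal (B.Z_pos ht _).le, smul_eq_mul]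

theorem integrable_qmeas_iff {t : ℝ} (ht : 0 ≤ t) {F : E n → ℝ} (hF : Measurable F) :
    Integrable F (B.qmeas t) ↔ Integrable (fun z => B.Z t (√t • z) * F (√t • z)) (gam n) := by
  have hm : Measurable fun z : E n => ENNReal.ofReal (B.Z t (√t • z)) :=
    ((B.continuous_Z ht).comp (by fun_prop)).measurable.ennreal_ofReal
  rw [qmeas_eq_map B ht, integrable_map_measure hF.aestronglyMeasurable (by fun_prop),
    integrable_withDensity_iff_integrable_smul' hm
      (.of_forall fun _ => ENNReal.ofReal_lt_top)]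
  simp [ENNReal.toReal_ofReal (B.Z_pos ht _).le, smul_eq_mul]

theorem qavg_avg {t : ℝ} (ht : 0 ≤ t) {F : E n → ℝ} (hF : Continuous F) (hg : ExpGrowth F) :
    B.qavg t (fun θ => B.avg t θ F) = ∫ x, F x ∂B.μ := by
  rw [B.qavg_eq ht (B.continuous_avg ht hF.aestronglyMeasurable hg).measurable]
  have h1 : ∀ z : E n, B.Z t (√t • z) * B.avg t (√t • z) F = B.num t (√t • z) F := fun z =>
    mul_div_cancel₀ _ (B.Z_pos ht _).ne'
  simp only [h1, num]
  have hgi : ∀ x : E n, (∫⁻ z, ENNReal.ofReal (W t (√t • z) x) ∂gam n) = 1 := fun x => by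
    simpa using (lintegral_shift ht x (fun _ => 1)).symm
  have hgr : ∀ x : E n, ∫ z, W t (√t • z) x ∂gam n = 1 := fun x => by
    rw [integral_eq_lintegral_of_nonneg_ae (.of_forall fun z => (W_pos _ _ x).le)
      (by unfold W; fun_prop : Continuous fun z : E n => W t (√t • z) x).aestronglyMeasurable, hgi x]
    rfl
  rw [integral_integral_swap]
  · simp only [integral_mul_const, hgr, one_mul]
  · refine ⟨Continuous.aestronglyMeasurable (by unfold W Function.uncurry; fun_prop), ?_⟩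
    rw [HasFiniteIntegral, lintegral_prod_symm' _ (by unfold W Function.uncurry; fun_prop)]
    have h2 : ∀ x : E n, ∫⁻ z, ‖Function.uncurry (fun z x => W t (√t • z) x * F x) (z, x)‖ₑ ∂gam n
        = ‖F x‖ₑ := by
      intro x
      simp only [Function.uncurry, enorm_mul, Real.enorm_of_nonneg (W_pos _ _ _).le]
      rw [lintegral_mul_const _ (by unfold W; fun_prop), hgi x, one_mul]
    simp only [h2]
    exact (B.integrable_of_growth hF.aestronglyMeasurable hg).2

end Base

end Vale.Agent.P245.Local
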