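import Vale.Agent.P245.Local.Basics

/-!
# P245: calculus along the Gaussian localisation

Derivatives of `num t θ F` along curves, Gaussian integration by parts, and the heat identity
`d/dt ∫ G t (√t z) dγ = ∫ (∂ₜG + ΔG / 2) t (√t z) dγ` for dominated `G`.
-/

open MeasureTheory Real Set Filter
open scoped RealInnerProductSpace ENNReal Topology

noncomputable section

namespace Vale.Agent.P245.Local

variable {n : ℕ}

/-! ### powers and growth -/

theorem expGrowth_norm_pow (m : ℕ) : ExpGrowth fun x : E n => ‖x‖ ^ m := by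
  induction m with
  | zero => simpa using expGrowth_const (n := n) 1
  | succ m ih => simpa only [pow_succ] using ih.mul expGrowth_norm

theorem ExpGrowth.abs {F : E n → ℝ} (hF : ExpGrowth F) : ExpGrowth fun x => |F x| :=
  hF.of_abs_le fun x => by rw [abs_abs]

/-! ### Gaussian domination -/

/-- `G t (√t z)` is dominated by a `γ`-integrable function, uniformly for `t` in bounded sets. -/
def GBound (G : ℝ → E n → ℝ) : Prop :=
  ∀ T : ℝ, ∃ c K k : ℝ, c < 1 / 2 ∧ ∀ t, 0 ≤ t → t ≤ T → ∀ z : E n,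
    |G t (√t • z)| ≤ K * exp (c * ‖z‖ ^ 2 + k * ‖z‖)

theorem GBound.add {G H : ℝ → E n → ℝ} (hG : GBound G) (hH : GBound H) :
    GBound fun t θ => G t θ + H t θ := by
  intro T
  obtain ⟨c, K, k, hc, h⟩ := hG T
  obtain ⟨c', K', k', hc', h'⟩ := hH T
  refine ⟨max c c', |K| + |K'|, max k k', max_lt hc hc', fun t h0 h1 z => ?_⟩
  refine (abs_add_le _ _).trans ((add_le_add (h t h0 h1 z) (h' t h0 h1 z)).trans ?_)
  rw [add_mul]
  refine add_le_add ?_ ?_ <;>
    refine mul_le_mul (le_abs_self _) (exp_le_exp.2 ?_) (exp_pos _).le (abs_nonneg _)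
  · gcongr
    · exact le_max_left _ _
    · exact le_max_left _ _
  · gcongr
    · exact le_max_right _ _
    · exact le_max_right _ _

theorem GBound.of_le {G H : ℝ → E n → ℝ} (hH : GBound H) (C : ℝ)
    (h : ∀ t, 0 ≤ t → ∀ θ, |G t θ| ≤ C * |H t θ|) : GBound G := by
  intro T
  obtain ⟨c, K, k, hc, hb⟩ := hH T
  refine ⟨c, |C| * K, k, hc, fun t h0 h1 z => ?_⟩
  rw [mul_assoc]
  exact (h t h0 _).trans (mul_le_mul (le_abs_self C) (hb t h0 h1 z) (abs_nonneg _) (abs_nonneg _))

theorem GBound.const_mul {G : ℝ → E n → ℝ} (hG : GBound G) (C : ℝ) :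
    GBound fun t θ => C * G t θ :=
  hG.of_le |C| fun t _ θ => by rw [abs_mul]

theorem gBound_zero : GBound fun (_ : ℝ) (_ : E n) => (0 : ℝ) :=
  fun _ => ⟨0, 0, 0, by norm_num, by simp⟩

theorem GBound.sum {ι : Type*} (s : Finset ι) {G : ι → ℝ → E n → ℝ}
    (h : ∀ i ∈ s, GBound (G i)) : GBound fun t θ => ∑ i ∈ s, G i t θ := by
  classical
  induction s using Finset.induction with
  | empty => simpa using gBound_zero
  | insert a s ha ih =>
    simp only [Finset.sum_insert ha]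
    exact (h a (Finset.mem_insert_self a s)).add
      (ih fun i hi => h i (Finset.mem_insert_of_mem hi))

theorem GBound.integrable {G : ℝ → E n → ℝ} (hG : GBound G) {t : ℝ} (ht : 0 ≤ t)
    (hc : Continuous (G t)) : Integrable (fun z => G t (√t • z)) (gam n) := by
  obtain ⟨c, K, k, hc', h⟩ := hG t
  exact ((integrable_gam_exp hc' k).const_mul K).mono'
    (hc.comp (by fun_prop)).aestronglyMeasurable
    (.of_forall fun z => h t ht le_rfl z)

theorem GBound.continuousOn_integral {G : ℝ → E n → ℝ} (hG : GBound G)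
    (hc : ContinuousOn (fun p : ℝ × E n => G p.1 p.2) (Ici 0 ×ˢ univ)) :
    ContinuousOn (fun t => ∫ z, G t (√t • z) ∂gam n) (Ici 0) := by
  intro t ht
  obtain ⟨c, K, k, hc', h⟩ := hG (t + 1)
  refine continuousWithinAt_of_dominated (bound := fun z => K * exp (c * ‖z‖ ^ 2 + k * ‖z‖))
    ?_ ?_ ((integrable_gam_exp hc' k).const_mul K) ?_
  · filter_upwards [self_mem_nhdsWithin] with s hs
    exact (hc.comp_continuous (by fun_prop : Continuous fun z : E n => (s, √s • z))
      fun z => ⟨hs, mem_univ _⟩).aestronglyMeasurable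
  · filter_upwards [self_mem_nhdsWithin,
      nhdsWithin_le_nhds (eventually_le_nhds (lt_add_one t))] with s hs hs'
    exact .of_forall fun z => h s hs hs' z
  · filter_upwards with z
    exact ContinuousWithinAt.comp (f := fun s : ℝ => (s, √s • z)) (x := t)
      (hc (t, √t • z) ⟨ht, mem_univ _⟩)
      ((by fun_prop : Continuous fun s : ℝ => (s, √s • z)).continuousWithinAt)
      fun s hs => ⟨hs, mem_univ _⟩

/-! ### integration by parts -/

theorem hasLineDerivAt_gdens (z v : E n) :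
    HasLineDerivAt ℝ gdens (-⟪z, v⟫ * gdens z) z v := by
  have hd : HasDerivAt (fun r : ℝ => z + r • v) v (0 : ℝ) := by
    simpa using ((hasDerivAt_id (0 : ℝ)).smul_const v).const_add z
  have h := ((hd.norm_sq.div_const 2).neg.exp).const_mul (√(2 * π) ^ n)⁻¹
  show HasDerivAt (fun r : ℝ => gdens (z + r • v)) _ 0
  refine h.congr_deriv ?_
  simp [gdens]
  ring

theorem gam_ibp {g g' : E n → ℝ} (v : E n) (hg : ∀ z, HasLineDerivAt ℝ g (g' z) z v)
    (hi : Integrable g (gam n)) (hi' : Integrable g' (gam n))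
    (hiv : Integrable (fun z => ⟪z, v⟫ * g z) (gam n)) :
    ∫ z, g' z ∂gam n = ∫ z, ⟪z, v⟫ * g z ∂gam n := by
  rw [integrable_gam_iff] at hi hi' hiv
  have h := integral_bilinear_hasLineDerivAt_right_eq_neg_left_of_integrable
    (μ := (volume : Measure (E n))) (f := gdens) (f' := fun z => -⟪z, v⟫ * gdens z) (g := g)
    (g' := g') (v := v) (B := ContinuousLinearMap.mul ℝ ℝ)
    (by refine hiv.neg.congr (.of_forall fun z => ?_); simp; ring)
    (by simpa using hi') (by simpa using hi)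
    (fun z _ => hasLineDerivAt_gdens z v) (fun z _ => hg z)
  simp only [ContinuousLinearMap.mul_apply'] at h
  rw [integral_gam, integral_gam, h, ← integral_neg]
  congr 1; funext z; ring

/-- the coordinate vectors -/
def eb (k : Fin n) : E n := EuclideanSpace.single k 1

theorem inner_eb (x : E n) (k : Fin n) : ⟪x, eb k⟫ = x k := by
  simp [eb, EuclideanSpace.inner_single_right]

/-- The heat identity. -/
theorem hasDerivAt_gam_integral {G Gt : ℝ → E n → ℝ} {G1 G2 : Fin n → ℝ → E n → ℝ}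
    (hB : GBound G) (hBt : GBound Gt) (hB1 : ∀ k, GBound (G1 k)) (hB2 : ∀ k, GBound (G2 k))
    (hcont : ∀ t, 0 < t → Continuous (G t) ∧ Continuous (Gt t) ∧
      ∀ k, Continuous (G1 k t) ∧ Continuous (G2 k t))
    (hd : ∀ (τ : ℝ → ℝ) (θ : ℝ → E n) (s τ' : ℝ) (θ' : E n), HasDerivAt τ τ' s →
      HasDerivAt θ θ' s → 0 < τ s → HasDerivAt (fun r => G (τ r) (θ r))
        (τ' * Gt (τ s) (θ s) + ∑ k, θ' k * G1 k (τ s) (θ s)) s)
    (hd2 : ∀ t, 0 < t → ∀ (θ : E n) k, HasLineDerivAt ℝ (G1 k t) (G2 k t θ) θ (eb k))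
    {t : ℝ} (ht : 0 < t) :
    HasDerivAt (fun s => ∫ z, G s (√s • z) ∂gam n)
      (∫ z, (Gt t (√t • z) + 1 / 2 * ∑ k, G2 k t (√t • z)) ∂gam n) t := by
  set D : ℝ → E n → ℝ := fun s z =>
    Gt s (√s • z) + ∑ k, z k / (2 * √s) * G1 k s (√s • z) with hD
  have hder : ∀ s, 0 < s → ∀ z : E n, HasDerivAt (fun r => G r (√r • z)) (D s z) s := by
    intro s hs z
    refine (hd id (fun r => √r • z) s 1 _ (hasDerivAt_id s)
      ((hasDerivAt_sqrt hs.ne').smul_const z) hs).congr_deriv ?_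
    simp only [hD, id_eq, one_mul, PiLp.smul_apply, smul_eq_mul]
    congr 1
    exact Finset.sum_congr rfl fun k _ => by ring
  have hcoord : ∀ (z : E n) k, |z k| ≤ exp ‖z‖ := fun z k => by
    have h1 := PiLp.norm_apply_le z k
    rw [Real.norm_eq_abs] at h1
    linarith [add_one_le_exp ‖z‖]
  obtain ⟨c₀, K₀, k₀, hc₀, hb₀⟩ := hBt (2 * t)
  choose c₁ K₁ k₁ hc₁ hb₁ using fun k => hB1 k (2 * t)
  set bd : E n → ℝ := fun z => |K₀| * exp (c₀ * ‖z‖ ^ 2 + k₀ * ‖z‖) +
    ∑ k, (2 * √(t / 2))⁻¹ * |K₁ k| * exp (c₁ k * ‖z‖ ^ 2 + (k₁ k + 1) * ‖z‖) with hbd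
  have hbdi : Integrable bd (gam n) :=
    ((integrable_gam_exp hc₀ k₀).const_mul _).add
      (integrable_finset_sum _ fun k _ => (integrable_gam_exp (hc₁ k) _).const_mul _)
  have hbound : ∀ z : E n, ∀ s ∈ Ioo (t / 2) (2 * t), ‖D s z‖ ≤ bd z := by
    intro z s hs
    have hs0 : 0 < s := by linarith [hs.1]
    refine (norm_add_le _ _).trans (add_le_add ?_ ((norm_sum_le _ _).trans
      (Finset.sum_le_sum fun k _ => ?_)))
    · exact (hb₀ s hs0.le hs.2.le z).trans
        (mul_le_mul_of_nonneg_right (le_abs_self _) (exp_pos _).le)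
    · have h1 := (hb₁ k s hs0.le hs.2.le z).trans
        (mul_le_mul_of_nonneg_right (le_abs_self (K₁ k)) (exp_pos _).le)
      have h2 : (2 * √s)⁻¹ ≤ (2 * √(t / 2))⁻¹ :=
        inv_anti₀ (by positivity) (by gcongr; exact hs.1.le)
      rw [Real.norm_eq_abs, abs_mul, abs_div, abs_of_pos (by positivity : (0 : ℝ) < 2 * √s),
        add_mul, one_mul, ← add_assoc, exp_add _ ‖z‖, div_eq_mul_inv]
      calc |z k| * (2 * √s)⁻¹ * |G1 k s (√s • z)|
          ≤ exp ‖z‖ * (2 * √(t / 2))⁻¹ * (|K₁ k| * exp (c₁ k * ‖z‖ ^ 2 + k₁ k * ‖z‖)) := by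
            refine mul_le_mul (mul_le_mul (hcoord z k) h2 (by positivity) (exp_pos _).le) h1
              (abs_nonneg _) (by positivity)
        _ = _ := by ring
  have hmem : Ioo (t / 2) (2 * t) ∈ 𝓝 t := Ioo_mem_nhds (by linarith) (by linarith)
  have hDc : Continuous (D t) := by
    refine ((hcont t ht).2.1.comp (by fun_prop)).add (continuous_finset_sum _ fun k _ => ?_)
    exact ((by fun_prop : Continuous fun z : E n => z k / (2 * √t))).mul
      (((hcont t ht).2.2 k).1.comp (by fun_prop))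
  have hmain := hasDerivAt_integral_of_dominated_loc_of_deriv_le (μ := gam n)
    (F := fun s z => G s (√s • z)) (F' := D) hmem
    (by
      filter_upwards [Ioi_mem_nhds ht] with s hs
      exact ((hcont s hs).1.comp (by fun_prop)).aestronglyMeasurable)
    (hB.integrable ht.le (hcont t ht).1) hDc.aestronglyMeasurable
    (.of_forall hbound) hbdi (.of_forall fun z s hs => hder s (by linarith [hs.1]) z)
  refine hmain.2.congr_deriv ?_
  have i1 : ∀ k, Integrable (fun z => G1 k t (√t • z)) (gam n) := fun k =>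
    (hB1 k).integrable ht.le ((hcont t ht).2.2 k).1
  have i2 : ∀ k, Integrable (fun z => G2 k t (√t • z)) (gam n) := fun k =>
    (hB2 k).integrable ht.le ((hcont t ht).2.2 k).2
  have i3 : ∀ k, Integrable (fun z => ⟪z, eb k⟫ * G1 k t (√t • z)) (gam n) := fun k => by
    obtain ⟨c, K, k', hc, hb⟩ := hB1 k t
    refine ((integrable_gam_exp hc (k' + 1)).const_mul |K|).mono'
      ((by fun_prop : Continuous fun z : E n => ⟪z, eb k⟫).mul
        (((hcont t ht).2.2 k).1.comp (by fun_prop))).aestronglyMeasurable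
      (.of_forall fun z => ?_)
    rw [Real.norm_eq_abs, abs_mul, inner_eb, add_mul k', one_mul, ← add_assoc, exp_add _ ‖z‖]
    calc |z k| * |G1 k t (√t • z)| ≤ exp ‖z‖ * (|K| * exp (c * ‖z‖ ^ 2 + k' * ‖z‖)) :=
          mul_le_mul (hcoord z k) ((hb t ht.le le_rfl z).trans
            (mul_le_mul_of_nonneg_right (le_abs_self K) (exp_pos _).le)) (abs_nonneg _)
            (exp_pos _).le
      _ = _ := by ring
  have hibp : ∀ k, ∫ z, z k / (2 * √t) * G1 k t (√t • z) ∂gam n =
      ∫ z, 1 / 2 * G2 k t (√t • z) ∂gam n := by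
    intro k
    have hl : ∀ z : E n, HasLineDerivAt ℝ (fun y => G1 k t (√t • y))
        (√t * G2 k t (√t • z)) z (eb k) := fun z => by
      have h1 : HasDerivAt (fun r : ℝ => √t * r) √t 0 := by
        simpa using (hasDerivAt_id (0 : ℝ)).const_mul √t
      have h2 : HasDerivAt (fun r : ℝ => G1 k t (√t • z + r • eb k))
          (G2 k t (√t • z)) (√t * 0) := by
        rw [mul_zero]; exact hd2 t ht (√t • z) k
      have h3 := h2.comp (0 : ℝ) h1
      show HasDerivAt (fun r : ℝ => G1 k t (√t • (z + r • eb k))) _ 0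
      simp only [Function.comp_def] at h3
      simp only [smul_add, smul_smul]
      exact h3.congr_deriv (by ring)
    have h := gam_ibp (eb k) hl (i1 k) ((i2 k).const_mul _) (i3 k)
    rw [integral_const_mul] at h
    rw [integral_const_mul]
    have e : ∀ z : E n, z k / (2 * √t) * G1 k t (√t • z) =
        (2 * √t)⁻¹ * (⟪z, eb k⟫ * G1 k t (√t • z)) := fun z => by rw [inner_eb]; ring
    simp only [e]
    rw [integral_const_mul, ← h]
    field_simp
  have i4 : ∀ k, Integrable (fun z => z k / (2 * √t) * G1 k t (√t • z)) (gam n) := fun k => by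
    refine ((i3 k).const_mul (2 * √t)⁻¹).congr (.of_forall fun z => ?_)
    simp only [inner_eb]; ring
  simp only [hD]
  rw [integral_add (hBt.integrable ht.le (hcont t ht).2.1) (integrable_finset_sum _ fun k _ => i4 k),
    integral_add (hBt.integrable ht.le (hcont t ht).2.1)
      ((integrable_finset_sum _ fun k _ => i2 k).const_mul _),
    integral_finset_sum _ (fun k _ => i4 k)]
  simp only [hibp, integral_const_mul]
  rw [integral_finset_sum _ (fun k _ => i2 k), Finset.mul_sum]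

namespace Base

variable (B : Base n)

/-! ### bounds on the tilted integrals -/

theorem num_nonneg (t : ℝ) (θ : E n) {F : E n → ℝ} (h : ∀ x, 0 ≤ F x) : 0 ≤ B.num t θ F :=
  integral_nonneg fun x => mul_nonneg (W_pos t θ x).le (h x)

theorem gBound_num {F : E n → ℝ} (hF : AEStronglyMeasurable F B.μ) (hg : ExpGrowth F) :
    GBound fun t θ => B.num t θ F := by
  obtain ⟨α, hα, hint⟩ := B.tail
  obtain ⟨K, k, hK, hk, h⟩ := hg.norm_le
  intro T
  set T' := max T 0
  have hT' : 0 ≤ T' := le_max_right _ _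
  have hc : T' / (2 * (T' + 2 * α)) < 1 / 2 := by
    rw [div_lt_iff₀ (by positivity)]; linarith
  set I : ℝ := ∫ x, exp (α * ‖x‖ ^ 2) ∂B.μ
  have hI : Integrable (fun x => exp (α * ‖x‖ ^ 2)) B.μ := by
    rw [integrable_μ_iff]
    refine hint.congr (.of_forall fun x => ?_)
    simp only [Base.rho]; rw [← exp_add]; ring_nf
  refine ⟨_, K * exp (k ^ 2 / (4 * α)) * I, k * √T' / (2 * α), hc, fun t ht htT z => ?_⟩
  have htT' : t ≤ T' := htT.trans (le_max_left _ _)
  set r := √t * ‖z‖ + k with hr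
  set β := t / 2 + α with hβ
  have hβ0 : 0 < β := by positivity
  have hpt : ∀ x, |W t (√t • z) x * F x| ≤
      K * exp (r ^ 2 / (4 * β)) * exp (α * ‖x‖ ^ 2) := by
    intro x
    rw [abs_mul, abs_of_pos (W_pos _ _ x)]
    refine (mul_le_mul_of_nonneg_left (h x) (W_pos _ _ x).le).trans ?_
    rw [mul_left_comm, mul_assoc, W, ← exp_add, ← exp_add]
    refine mul_le_mul_of_nonneg_left (exp_le_exp.2 ?_) hK
    have h1 := exp_norm_le_sq hβ0 r x
    have h2 := real_inner_le_norm (√t • z) x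
    rw [norm_smul, Real.norm_eq_abs, abs_of_nonneg (sqrt_nonneg t)] at h2
    have h3 : r * ‖x‖ = √t * ‖z‖ * ‖x‖ + k * ‖x‖ := by rw [hr]; ring
    have h4 : β * ‖x‖ ^ 2 = t / 2 * ‖x‖ ^ 2 + α * ‖x‖ ^ 2 := by rw [hβ]; ring
    linarith
  calc |B.num t (√t • z) F| ≤ ∫ x, |W t (√t • z) x * F x| ∂B.μ := abs_integral_le_integral_abs
    _ ≤ ∫ x, K * exp (r ^ 2 / (4 * β)) * exp (α * ‖x‖ ^ 2) ∂B.μ :=
        integral_mono_of_nonneg (.of_forall fun x => abs_nonneg _) (hI.const_mul _)
          (.of_forall hpt)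
    _ = K * exp (r ^ 2 / (4 * β)) * I := integral_const_mul _ _
    _ ≤ _ := by
        rw [mul_right_comm _ (exp _) I, mul_right_comm K _ I, mul_assoc _ (exp _) (exp _),
          ← exp_add]
        refine mul_le_mul_of_nonneg_left (exp_le_exp.2 ?_)
          (mul_nonneg hK (integral_nonneg fun x => (exp_pos _).le))
        have e : r ^ 2 / (4 * β) = t / (2 * (t + 2 * α)) * ‖z‖ ^ 2 +
            2 * (√t * ‖z‖) * k / (4 * β) + k ^ 2 / (4 * β) := by
          rw [hr, hβ]
          field_simp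
          rw [add_sq, mul_pow, sq_sqrt ht]
          ring
        have e1 : t / (2 * (t + 2 * α)) ≤ T' / (2 * (T' + 2 * α)) := by
          rw [div_le_div_iff₀ (by positivity) (by positivity)]
          nlinarith
        have e2 : 2 * (√t * ‖z‖) * k / (4 * β) ≤ k * √T' / (2 * α) * ‖z‖ := by
          have hs : √t ≤ √T' := Real.sqrt_le_sqrt htT'
          have : 2 * (√t * ‖z‖) * k / (4 * β) ≤ 2 * (√T' * ‖z‖) * k / (4 * α) := by
            gcongr
            rw [hβ]; linarith
          refine this.trans (le_of_eq ?_)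
          field_simp
          ring
        have e3 : k ^ 2 / (4 * β) ≤ k ^ 2 / (4 * α) := by
          gcongr
          rw [hβ]; linarith
        have e4 := mul_le_mul_of_nonneg_right e1 (sq_nonneg ‖z‖)
        linarith

theorem gBound_of_le_num {G : ℝ → E n → ℝ} {F : E n → ℝ} (hF : AEStronglyMeasurable F B.μ)
    (hg : ExpGrowth F) (C : ℝ) (hC : 0 ≤ C)
    (h : ∀ t, 0 ≤ t → ∀ θ, |G t θ| ≤ C * B.num t θ F) : GBound G :=
  (B.gBound_num hF hg).of_le C fun t ht θ =>
    (h t ht θ).trans (mul_le_mul_of_nonneg_left (le_abs_self _) hC)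

/-! ### derivatives -/

theorem hasDerivAt_num {F : E n → ℝ} (hF : Continuous F) (hg : ExpGrowth F) {τ : ℝ → ℝ}
    {θ : ℝ → E n} {s τ' : ℝ} {θ' : E n} (hτ : HasDerivAt τ τ' s) (hθ : HasDerivAt θ θ' s)
    (hs : 0 < τ s) :
    HasDerivAt (fun r => B.num (τ r) (θ r) F)
      (B.num (τ s) (θ s) (fun x => F x * ⟪θ', x⟫) -
        τ' / 2 * B.num (τ s) (θ s) (fun x => F x * ‖x‖ ^ 2)) s := by
  set D : E n → (ℝ × E n →L[ℝ] ℝ) := fun x =>
    (innerSL ℝ x).comp (ContinuousLinearMap.snd ℝ ℝ (E n)) -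
      (‖x‖ ^ 2 / 2) • ContinuousLinearMap.fst ℝ ℝ (E n) with hDdef
  set P : ℝ × E n → E n → (ℝ × E n →L[ℝ] ℝ) := fun p x => (W p.1 p.2 x * F x) • D x with hP
  have hDn : ∀ x, ‖D x‖ ≤ ‖x‖ + ‖x‖ ^ 2 / 2 := fun x => by
    refine ContinuousLinearMap.opNorm_le_bound _ (by positivity) fun p => ?_
    simp only [hDdef, ContinuousLinearMap.sub_apply, ContinuousLinearMap.comp_apply,
      ContinuousLinearMap.smul_apply, ContinuousLinearMap.coe_fst', ContinuousLinearMap.coe_snd',
      innerSL_apply_apply, smul_eq_mul, Real.norm_eq_abs, add_mul]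
    refine (abs_sub _ _).trans (add_le_add ?_ ?_)
    · exact (abs_real_inner_le_norm _ _).trans
        (mul_le_mul_of_nonneg_left (norm_snd_le p) (norm_nonneg x))
    · rw [abs_mul, abs_of_nonneg (by positivity : 0 ≤ ‖x‖ ^ 2 / 2)]
      exact mul_le_mul_of_nonneg_left (norm_fst_le p) (by positivity)
  set p₀ : ℝ × E n := (τ s, θ s)
  obtain ⟨K, k, hK, -, hb⟩ := hg.norm_le
  have hmem : Ioi 0 ×ˢ Metric.ball p₀.2 1 ∈ 𝓝 p₀ :=
    prod_mem_nhds (Ioi_mem_nhds hs) (Metric.ball_mem_nhds _ one_pos)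
  have hbound : ∀ x, ∀ p ∈ Ioi 0 ×ˢ Metric.ball p₀.2 1,
      ‖P p x‖ ≤ K * exp ((‖p₀.2‖ + 1 + k + 2) * ‖x‖) := by
    intro x p hp
    have hp2 : ‖p.2‖ ≤ ‖p₀.2‖ + 1 := by
      have := norm_sub_norm_le p.2 p₀.2
      have := mem_ball_iff_norm.1 hp.2
      linarith
    have h2 : ‖x‖ + ‖x‖ ^ 2 / 2 ≤ exp (2 * ‖x‖) := by
      have h3 := Real.quadratic_le_exp_of_nonneg (norm_nonneg x)
      have h4 : exp ‖x‖ ≤ exp (2 * ‖x‖) := exp_le_exp.2 (by linarith [norm_nonneg x])
      linarith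
    rw [hP, norm_smul, Real.norm_eq_abs, abs_mul, abs_of_pos (W_pos _ _ x)]
    calc W p.1 p.2 x * |F x| * ‖D x‖
        ≤ exp ((‖p₀.2‖ + 1) * ‖x‖) * (K * exp (k * ‖x‖)) * exp (2 * ‖x‖) := by
          refine mul_le_mul (mul_le_mul (W_le (mem_Ioi.1 hp.1).le hp2 x) (hb x) (abs_nonneg _)
            (exp_pos _).le) ((hDn x).trans h2) (norm_nonneg _) (by positivity)
      _ = _ := by rw [add_mul (‖p₀.2‖ + 1 + k), add_mul (‖p₀.2‖ + 1), exp_add, exp_add]; ring
  have hdiff : ∀ x, ∀ p : ℝ × E n, HasFDerivAt (fun q => W q.1 q.2 x * F x) (P p x) p := by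
    intro x p
    have h1 : HasFDerivAt (fun q : ℝ × E n => innerSL ℝ x q.2 - ‖x‖ ^ 2 / 2 * q.1) (D x) p :=
      ((innerSL ℝ x).comp (ContinuousLinearMap.snd ℝ ℝ (E n))).hasFDerivAt.sub
        ((ContinuousLinearMap.fst ℝ ℝ (E n)).hasFDerivAt.const_smul (‖x‖ ^ 2 / 2))
    have e : (fun q : ℝ × E n => W q.1 q.2 x * F x) =
        fun q => exp (innerSL ℝ x q.2 - ‖x‖ ^ 2 / 2 * q.1) * F x := by
      funext q
      simp only [W, innerSL_apply_apply, real_inner_comm x]
      ring_nf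
    rw [e]
    refine ((h1.exp).mul_const (F x)).congr_fderiv ?_
    simp only [hP, W, innerSL_apply_apply, real_inner_comm x, smul_smul]
    congr 1
    ring_nf
  have hPm : AEStronglyMeasurable (P p₀) B.μ := by
    refine Continuous.aestronglyMeasurable ?_
    simp only [hP, hDdef, W]
    fun_prop
  have hF1 : Integrable (P p₀) B.μ :=
    ((B.integrable_exp_norm _).const_mul K).mono' hPm
      (.of_forall fun x => hbound x p₀ (mem_of_mem_nhds hmem))
  have hmain := hasFDerivAt_integral_of_dominated_of_fderiv_le (μ := B.μ)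
    (F := fun (q : ℝ × E n) x => W q.1 q.2 x * F x) (F' := P) hmem
    (.of_forall fun q => ((by unfold W; fun_prop :
      Continuous fun x => W q.1 q.2 x).mul hF).aestronglyMeasurable)
    (B.integrable_W_mul hs.le _ hF.aestronglyMeasurable hg) hPm
    (.of_forall hbound) ((B.integrable_exp_norm _).const_mul K)
    (.of_forall fun x p _ => hdiff x p)
  have h := hmain.comp_hasDerivAt s (hτ.prodMk hθ)
  refine h.congr_deriv ?_
  rw [ContinuousLinearMap.integral_apply hF1]
  have i1 : Integrable (fun x => W (τ s) (θ s) x * (F x * ⟪θ', x⟫)) B.μ :=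
    B.integrable_W_mul hs.le (θ s) (hF.mul (innerSL ℝ θ').continuous).aestronglyMeasurable
      (hg.mul (expGrowth_inner θ'))
  have i2 : Integrable (fun x => W (τ s) (θ s) x * (F x * ‖x‖ ^ 2)) B.μ :=
    B.integrable_W_mul hs.le (θ s) (hF.mul (by fun_prop : Continuous fun x : E n =>
      ‖x‖ ^ 2)).aestronglyMeasurable (hg.mul (expGrowth_norm_pow 2))
  rw [num, num, ← integral_const_mul, ← integral_sub i1 (i2.const_mul _)]
  congr 1; funext x
  simp [hP, hDdef, p₀, real_inner_comm x]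
  ring

theorem hasDerivAt_Z {τ : ℝ → ℝ} {θ : ℝ → E n} {s τ' : ℝ} {θ' : E n} (hτ : HasDerivAt τ τ' s)
    (hθ : HasDerivAt θ θ' s) (hs : 0 < τ s) :
    HasDerivAt (fun r => B.Z (τ r) (θ r))
      (B.num (τ s) (θ s) (fun x => ⟪θ', x⟫) -
        τ' / 2 * B.num (τ s) (θ s) (fun x => ‖x‖ ^ 2)) s := by
  simpa [num_one] using B.hasDerivAt_num (F := fun _ => (1 : ℝ)) continuous_const
    (expGrowth_const 1) hτ hθ hs

theorem num_eq_avg_mul {t : ℝ} (ht : 0 ≤ t) (θ : E n) (F : E n → ℝ) :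
    B.num t θ F = B.avg t θ F * B.Z t θ :=
  (div_mul_cancel₀ _ (B.Z_pos ht θ).ne').symm

theorem hasDerivAt_avg {F : E n → ℝ} (hF : Continuous F) (hg : ExpGrowth F) {τ : ℝ → ℝ}
    {θ : ℝ → E n} {s τ' : ℝ} {θ' : E n} (hτ : HasDerivAt τ τ' s) (hθ : HasDerivAt θ θ' s)
    (hs : 0 < τ s) :
    HasDerivAt (fun r => B.avg (τ r) (θ r) F)
      ((B.avg (τ s) (θ s) (fun x => F x * ⟪θ', x⟫) -
          B.avg (τ s) (θ s) F * B.avg (τ s) (θ s) (fun x => ⟪θ', x⟫)) -
        τ' / 2 * (B.avg (τ s) (θ s) (fun x => F x * ‖x‖ ^ 2) -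
          B.avg (τ s) (θ s) F * B.avg (τ s) (θ s) (fun x => ‖x‖ ^ 2))) s := by
  have hZ := (B.Z_pos hs.le (θ s)).ne'
  refine ((B.hasDerivAt_num hF hg hτ hθ hs).div (B.hasDerivAt_Z hτ hθ hs) hZ).congr_deriv ?_
  simp only [B.num_eq_avg_mul hs.le (θ s)]
  field_simp
  ring

/-! ### algebra of `num` and `avg` -/

end Base

/-- continuous with at most exponential growth -/
def Good (F : E n → ℝ) : Prop := Continuous F ∧ ExpGrowth F

namespace Good

variable {F G : E n → ℝ}

theorem const (c : ℝ) : Good fun _ : E n => c := ⟨continuous_const, expGrowth_const c⟩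

theorem bdd (hF : Continuous F) {C : ℝ} (h : ∀ x, |F x| ≤ C) : Good F :=
  ⟨hF, expGrowth_bounded h⟩

theorem inner (v : E n) : Good fun x : E n => ⟪v, x⟫ := ⟨by fun_prop, expGrowth_inner v⟩

theorem coord (k : Fin n) : Good fun x : E n => x k :=
  ⟨by fun_prop, expGrowth_norm.of_abs_le fun x => by
    rw [abs_norm]; simpa using PiLp.norm_apply_le x k⟩

theorem norm_sq : Good fun x : E n => ‖x‖ ^ 2 := ⟨by fun_prop, expGrowth_norm_pow 2⟩

theorem exp_inner (v : E n) : Good fun x : E n => exp ⟪v, x⟫ :=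
  ⟨by fun_prop, expGrowth_exp_inner v⟩

theorem add (hF : Good F) (hG : Good G) : Good fun x => F x + G x :=
  ⟨hF.1.add hG.1, hF.2.add hG.2⟩

theorem sub (hF : Good F) (hG : Good G) : Good fun x => F x - G x :=
  ⟨hF.1.sub hG.1, hF.2.sub hG.2⟩

theorem mul (hF : Good F) (hG : Good G) : Good fun x => F x * G x :=
  ⟨hF.1.mul hG.1, hF.2.mul hG.2⟩

theorem const_mul (hF : Good F) (c : ℝ) : Good fun x => c * F x := (const c).mul hF

theorem sq (hF : Good F) : Good fun x => F x ^ 2 := ⟨hF.1.pow 2, hF.2.sq⟩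

theorem abs (hF : Good F) : Good fun x => |F x| := ⟨hF.1.abs, hF.2.abs⟩

theorem sum {ι : Type*} (s : Finset ι) {H : ι → E n → ℝ} (h : ∀ i ∈ s, Good (H i)) :
    Good fun x => ∑ i ∈ s, H i x := by
  classical
  induction s using Finset.induction with
  | empty => simpa using const (n := n) 0
  | insert a s ha ih =>
    simp only [Finset.sum_insert ha]
    exact (h a (Finset.mem_insert_self a s)).add (ih fun i hi => h i (Finset.mem_insert_of_mem hi))

end Good

theorem inner_eq_sum (v x : E n) : ⟪v, x⟫ = ∑ k, v k * x k := by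
  rw [PiLp.inner_apply]
  exact Finset.sum_congr rfl fun k _ => by simp [mul_comm]

namespace Base

variable (B : Base n) {t : ℝ} {θ : E n} {F G : E n → ℝ}

theorem good_integrable (hF : Good F) : Integrable F B.μ :=
  B.integrable_of_growth hF.1.aestronglyMeasurable hF.2

theorem good_integrable_W (ht : 0 ≤ t) (θ : E n) (hF : Good F) :
    Integrable (fun x => W t θ x * F x) B.μ :=
  B.integrable_W_mul ht θ hF.1.aestronglyMeasurable hF.2

theorem num_add (ht : 0 ≤ t) (θ : E n) (hF : Good F) (hG : Good G) :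
    B.num t θ (fun x => F x + G x) = B.num t θ F + B.num t θ G := by
  simp only [num, mul_add]
  exact integral_add (B.good_integrable_W ht θ hF) (B.good_integrable_W ht θ hG)

theorem num_sub (ht : 0 ≤ t) (θ : E n) (hF : Good F) (hG : Good G) :
    B.num t θ (fun x => F x - G x) = B.num t θ F - B.num t θ G := by
  simp only [num, mul_sub]
  exact integral_sub (B.good_integrable_W ht θ hF) (B.good_integrable_W ht θ hG)

theorem num_const_mul (t : ℝ) (θ : E n) (c : ℝ) (F : E n → ℝ) :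
    B.num t θ (fun x => c * F x) = c * B.num t θ F := by
  simp only [num, mul_left_comm _ c, integral_const_mul]

theorem num_mono (ht : 0 ≤ t) (θ : E n) (hF : Good F) (hG : Good G) (h : ∀ x, F x ≤ G x) :
    B.num t θ F ≤ B.num t θ G :=
  integral_mono (B.good_integrable_W ht θ hF) (B.good_integrable_W ht θ hG)
    fun x => mul_le_mul_of_nonneg_left (h x) (W_pos t θ x).le

theorem num_sum {ι : Type*} (s : Finset ι) (ht : 0 ≤ t) (θ : E n) {H : ι → E n → ℝ}
    (h : ∀ i ∈ s, Good (H i)) :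
    B.num t θ (fun x => ∑ i ∈ s, H i x) = ∑ i ∈ s, B.num t θ (H i) := by
  simp only [num, Finset.mul_sum]
  exact integral_finset_sum _ fun i hi => B.good_integrable_W ht θ (h i hi)

theorem num_mul_inner (ht : 0 ≤ t) (θ : E n) (hF : Good F) (v : E n) :
    B.num t θ (fun x => F x * ⟪v, x⟫) = ∑ k, v k * B.num t θ (fun x => F x * x k) := by
  simp only [← B.num_const_mul]
  rw [← B.num_sum _ ht θ fun k _ => (hF.mul (Good.coord k)).const_mul _]
  congr 1; funext x
  rw [inner_eq_sum, Finset.mul_sum]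
  exact Finset.sum_congr rfl fun k _ => by ring

theorem num_mul_norm_sq (ht : 0 ≤ t) (θ : E n) (hF : Good F) :
    B.num t θ (fun x => F x * ‖x‖ ^ 2) = ∑ k, B.num t θ (fun x => F x * (x k * x k)) := by
  rw [← B.num_sum _ ht θ fun k _ => hF.mul ((Good.coord k).mul (Good.coord k))]
  congr 1; funext x
  rw [← real_inner_self_eq_norm_sq, inner_eq_sum, Finset.mul_sum]

theorem avg_sub (ht : 0 ≤ t) (θ : E n) (hF : Good F) (hG : Good G) :
    B.avg t θ (fun x => F x - G x) = B.avg t θ F - B.avg t θ G := by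
  simp only [avg, B.num_sub ht θ hF hG, sub_div]

theorem avg_mono (ht : 0 ≤ t) (θ : E n) (hF : Good F) (hG : Good G) (h : ∀ x, F x ≤ G x) :
    B.avg t θ F ≤ B.avg t θ G :=
  (div_le_div_iff_of_pos_right (B.Z_pos ht θ)).2 (B.num_mono ht θ hF hG h)

theorem avg_sum {ι : Type*} (s : Finset ι) (ht : 0 ≤ t) (θ : E n) {H : ι → E n → ℝ}
    (h : ∀ i ∈ s, Good (H i)) :
    B.avg t θ (fun x => ∑ i ∈ s, H i x) = ∑ i ∈ s, B.avg t θ (H i) := by
  simp only [avg, B.num_sum s ht θ h, Finset.sum_div]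

theorem avg_mul_inner (ht : 0 ≤ t) (θ : E n) (hF : Good F) (v : E n) :
    B.avg t θ (fun x => F x * ⟪v, x⟫) = ∑ k, v k * B.avg t θ (fun x => F x * x k) := by
  simp only [avg, B.num_mul_inner ht θ hF v, Finset.sum_div, mul_div_assoc]

theorem avg_inner (ht : 0 ≤ t) (θ v : E n) :
    B.avg t θ (fun x => ⟪v, x⟫) = ∑ k, v k * B.avg t θ (fun x => x k) := by
  simpa using B.avg_mul_inner ht θ (Good.const 1) v

theorem abs_avg_le (ht : 0 ≤ t) (θ : E n) (hF : Good F) :
    |B.avg t θ F| ≤ B.avg t θ fun x => |F x| := by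
  refine abs_le.2 ⟨?_, B.avg_mono ht θ hF hF.abs fun x => le_abs_self _⟩
  have h := B.avg_mono ht θ (hF.abs.const_mul (-1)) hF fun x => by
    linarith [neg_abs_le (F x)]
  rw [B.avg_const_mul] at h
  linarith

theorem sq_avg_le (ht : 0 ≤ t) (θ : E n) (hF : Good F) :
    B.avg t θ F ^ 2 ≤ B.avg t θ fun x => F x ^ 2 := by
  set a := B.avg t θ F
  have h := B.avg_mono ht θ (Good.const 0) (hF.sub (Good.const a)).sq fun x => sq_nonneg _
  have e : (fun x => (F x - a) ^ 2) = fun x => (F x ^ 2 - 2 * a * F x) - -(a ^ 2) := by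
    funext x; ring
  rw [B.avg_const ht, e, B.avg_sub ht θ (hF.sq.sub (hF.const_mul _)) (Good.const _),
    B.avg_sub ht θ hF.sq (hF.const_mul _), B.avg_const_mul, B.avg_const ht] at h
  linarith [show a * a = a ^ 2 by ring, show 2 * a * a = 2 * a ^ 2 by ring]

theorem integral_num_gam (ht : 0 ≤ t) (hF : Good F) :
    ∫ z, B.num t (√t • z) F ∂gam n = ∫ x, F x ∂B.μ := by
  rw [← B.qavg_avg ht hF.1 hF.2,
    B.qavg_eq ht (B.continuous_avg ht hF.1.aestronglyMeasurable hF.2).measurable]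
  congr 1; funext z
  rw [B.num_eq_avg_mul ht, mul_comm]

theorem gBound_good (hF : Good F) : GBound fun t θ => B.num t θ F :=
  B.gBound_num hF.1.aestronglyMeasurable hF.2

theorem continuous_num_good (ht : 0 ≤ t) (hF : Good F) : Continuous fun θ => B.num t θ F :=
  B.continuous_num ht hF.1.aestronglyMeasurable hF.2

theorem abs_num_le (ht : 0 ≤ t) (θ : E n) (hF : Good F) (hG : Good G) (h : ∀ x, |F x| ≤ G x) :
    |B.num t θ F| ≤ B.num t θ G := by
  refine abs_le.2 ⟨?_, B.num_mono ht θ hF hG fun x => (le_abs_self _).trans (h x)⟩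
  have h' := B.num_mono ht θ (hG.const_mul (-1)) hF fun x => by
    linarith [neg_abs_le (F x), h x]
  rw [B.num_const_mul] at h'
  linarith

theorem hasDerivAt_num_eb (ht : 0 < t) (θ : E n) (hF : Good F) (k : Fin n) :
    HasDerivAt (fun r : ℝ => B.num t (θ + r • eb k) F) (B.num t θ fun x => F x * x k) 0 := by
  have hc : HasDerivAt (fun r : ℝ => θ + r • eb k) (eb k) (0 : ℝ) := by
    simpa using ((hasDerivAt_id (0 : ℝ)).smul_const (eb k)).const_add θ
  refine (B.hasDerivAt_num hF.1 hF.2 (hasDerivAt_const (0 : ℝ) t) hc ht).congr_deriv ?_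
  simp [real_inner_comm _ (eb k), inner_eb]

end Base

end Vale.Agent.P245.Local
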