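import Vale.Agent.P245.Local.Tau

/-!
# P245: chaining through the good set gives a dimension-free infimal-convolution property
-/

open MeasureTheory Real Set Filter
open scoped RealInnerProductSpace ENNReal Topology

noncomputable section

namespace Vale.Agent.P245.Local

variable {n : ℕ}

/-- property (τ) with defect -/
def TauP (ν : Measure (E n)) (κ δ : ℝ) : Prop :=
  ∀ (h : E n → ℝ) (K : ℝ), BddM h K →
    (∫ x, exp (Qc κ h x) ∂ν) * (∫ x, exp (-h x) ∂ν) ≤ exp δ

theorem TauP.exp_le {ν : Measure (E n)} [IsProbabilityMeasure ν] {κ δ : ℝ} (hτ : TauP ν κ δ)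
    {h : E n → ℝ} {K : ℝ} (hh : BddM h K) :
    ∫ x, exp (Qc κ h x) ∂ν ≤ exp (∫ x, h x ∂ν + δ) := by
  have h2 : exp (-∫ x, h x ∂ν) ≤ ∫ x, exp (-h x) ∂ν := by
    rw [← integral_neg]; exact exp_integral_le hh.neg
  have h3 : 0 ≤ ∫ x, exp (Qc κ h x) ∂ν := integral_nonneg fun x => (exp_pos _).le
  have h4 := (mul_le_mul_of_nonneg_left h2 h3).trans (hτ h K hh)
  rw [exp_neg, ← div_eq_mul_inv, div_le_iff₀ (exp_pos _), ← exp_add] at h4
  rwa [add_comm]

theorem TauP.mono {ν : Measure (E n)} [IsFiniteMeasure ν] {κ κ' δ : ℝ} (hτ : TauP ν κ' δ)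
    (h0 : 0 ≤ κ) (hle : κ ≤ κ') : TauP ν κ δ := fun h K hh =>
  le_trans (mul_le_mul_of_nonneg_right
    (integral_mono (integrable_bdd_comp (bddM_Qc h0 hh).exp)
      (integrable_bdd_comp (bddM_Qc (h0.trans hle) hh).exp)
      fun x => exp_le_exp.2 (Qc_mono h0 hle hh x))
    (integral_nonneg fun _ => (exp_pos _).le)) (hτ h K hh)

namespace Base

variable (B : Base n)

/-- infimal-convolution inequality with defect -/
def DProp (c δ : ℝ) : Prop :=
  ∀ (h : E n → ℝ) (K : ℝ), BddM h K → ∫ x, exp (Qc c h x) ∂B.μ ≤ exp (∫ x, h x ∂B.μ + δ)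

theorem DProp.mono {c c' δ : ℝ} {B : Base n} (hD : B.DProp c' δ) (h0 : 0 ≤ c) (hle : c ≤ c') :
    B.DProp c δ := fun h K hh =>
  (integral_mono (integrable_bdd_comp (bddM_Qc h0 hh).exp)
    (integrable_bdd_comp (bddM_Qc (h0.trans hle) hh).exp)
    fun x => exp_le_exp.2 (Qc_mono h0 hle hh x)).trans (hD h K hh)

theorem DProp.scale {c δ : ℝ} {B : Base n} (hD : B.DProp c δ) (hc : 0 ≤ c) {s : ℝ} (hs : 0 < s)
    (hs1 : s ≤ 1) : B.DProp (s * c) (s * δ) := by
  intro h K hh
  have hg : BddM (fun x => s⁻¹ * h x) (|s⁻¹| * K) := hh.const_mul _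
  have h1 := hD _ _ hg
  have h2 : ∀ x, Qc (s * c) h x = s * Qc c (fun x => s⁻¹ * h x) x := fun x => by
    rw [← Qc_const_mul hs hc hg x]
    congr 1; funext y; field_simp
  rw [integral_const_mul] at h1
  set m := ∫ x, exp (Qc c (fun x => s⁻¹ * h x) x) ∂B.μ with hm
  have hq := bddM_Qc hc hg
  have hmpos : 0 < m := by
    rw [hm]; exact lt_of_lt_of_le (exp_pos _) (exp_integral_le hq)
  have h3 : ∀ x, exp (Qc (s * c) h x) * m ^ (1 - s) ≤
      s * exp (Qc c (fun x => s⁻¹ * h x) x) + (1 - s) * m := fun x => by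
    have := Real.geom_mean_le_arith_mean2_weighted hs.le (by linarith : 0 ≤ 1 - s)
      (exp_pos (Qc c (fun x => s⁻¹ * h x) x)).le hmpos.le (by ring)
    rwa [← exp_mul, mul_comm _ s, ← h2] at this
  have h4 : (∫ x, exp (Qc (s * c) h x) ∂B.μ) * m ^ (1 - s) ≤ m := by
    have := integral_mono (μ := B.μ)
      ((integrable_bdd_comp (bddM_Qc (mul_nonneg hs.le hc) hh).exp).mul_const _)
      (((integrable_bdd_comp hq.exp).const_mul s).add (integrable_const ((1 - s) * m))) h3
    simp only [Pi.add_apply] at this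
    rw [integral_mul_const, integral_add ((integrable_bdd_comp hq.exp).const_mul s)
      (integrable_const _), integral_const_mul, ← hm, integral_const] at this
    simp only [probReal_univ, one_smul] at this
    linarith
  have h5 : (∫ x, exp (Qc (s * c) h x) ∂B.μ) ≤ m ^ s := by
    have h6 : m ^ s * m ^ (1 - s) = m := by rw [← rpow_add hmpos]; simp
    nlinarith [rpow_pos_of_pos hmpos (1 - s)]
  refine h5.trans ((rpow_le_rpow hmpos.le h1 hs.le).trans_eq ?_)
  rw [← exp_mul]
  congr 1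
  field_simp

theorem tauP_of_D {c δ : ℝ} (hc : 0 ≤ c) (hD : B.DProp c δ) : TauP B.μ (c / 2) (2 * δ) := by
  intro h K hh
  have hq := bddM_Qc hc hh
  have h1 := hD _ _ hq
  have h2 := hD _ _ hq.neg
  have h3 : ∫ x, exp (Qc (c / 2) h x) ∂B.μ ≤ ∫ x, exp (Qc c (Qc c h) x) ∂B.μ :=
    integral_mono (integrable_bdd_comp (bddM_Qc (by linarith) hh).exp)
      (integrable_bdd_comp (bddM_Qc hc hq).exp) fun x => exp_le_exp.2
        (Qc_series (by linarith) hh (fun p q => by nlinarith [sq_nonneg (p - q)]) x)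
  have h4 : ∫ x, exp (-h x) ∂B.μ ≤ ∫ x, exp (Qc c (fun y => -Qc c h y) x) ∂B.μ :=
    integral_mono (integrable_bdd_comp hh.neg.exp) (integrable_bdd_comp (bddM_Qc hc hq.neg).exp)
      fun x => exp_le_exp.2 (neg_le_Qc_neg_Qc hc hh x)
  refine (mul_le_mul (h3.trans h1) (h4.trans h2) (integral_nonneg fun x => (exp_pos _).le)
    (exp_pos _).le).trans_eq ?_
  rw [← exp_add, integral_neg]
  congr 1; ring

theorem integral_qmeas {t : ℝ} {F : E n → ℝ} {K : ℝ} (hF : BddM F K) :
    ∫ θ, F θ ∂B.qmeas t = ∫ x, ∫ z, F (locMap t (x, z)) ∂gam n ∂B.μ := by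
  rw [qmeas, integral_map (measurable_locMap t).aemeasurable hF.1.aestronglyMeasurable,
    integral_prod]
  exact Integrable.mono' (integrable_const K)
    (hF.1.comp (measurable_locMap t)).aestronglyMeasurable
    (.of_forall fun p => by simpa using hF.2 _)

theorem locMap_sub {t : ℝ} (ht : 0 ≤ t) (x y z w : E n) :
    ‖locMap t (x, z) - locMap t (y, w)‖ ^ 2 ≤ 2 * t ^ 2 * ‖x - y‖ ^ 2 + 2 * t * ‖z - w‖ ^ 2 := by
  have h1 : locMap t (x, z) - locMap t (y, w) = t • (x - y) + √t • (z - w) := by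
    simp only [locMap, smul_sub]; abel
  have h2 : ‖t • (x - y) + √t • (z - w)‖ ≤ t * ‖x - y‖ + √t * ‖z - w‖ := by
    refine (norm_add_le _ _).trans_eq ?_
    rw [norm_smul, norm_smul, norm_eq_abs, norm_eq_abs, abs_of_nonneg ht,
      abs_of_nonneg (sqrt_nonneg t)]
  rw [h1]
  calc _ ≤ (t * ‖x - y‖ + √t * ‖z - w‖) ^ 2 := by gcongr
    _ ≤ 2 * (t * ‖x - y‖) ^ 2 + 2 * (√t * ‖z - w‖) ^ 2 := by
      nlinarith [sq_nonneg (t * ‖x - y‖ - √t * ‖z - w‖)]
    _ = _ := by rw [mul_pow, mul_pow, sq_sqrt ht]; ring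

theorem tauP_q {t β δ : ℝ} (ht : 0 ≤ t) (hβ : 0 ≤ β) (hβt : 2 * β * t ≤ 1 / 4)
    (hτ : TauP B.μ (2 * β * t ^ 2) δ) : TauP (B.qmeas t) β δ := by
  intro k K hk
  have hq := bddM_Qc hβ hk
  have hLm : ∀ x : E n, Measurable fun z => locMap t (x, z) := fun x => by unfold locMap; fun_prop
  have ha : ∀ x, BddM (fun z => Qc β k (locMap t (x, z))) K := fun x =>
    ⟨hq.1.comp (hLm x), fun z => hq.2 _⟩
  have hb : ∀ y, BddM (fun w => k (locMap t (y, w))) K := fun y =>
    ⟨hk.1.comp (hLm y), fun w => hk.2 _⟩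
  set A : E n → ℝ := fun x => Real.log (∫ z, exp (Qc β k (locMap t (x, z))) ∂gam n) with hA
  set Bk : E n → ℝ := fun y => -Real.log (∫ w, exp (-k (locMap t (y, w))) ∂gam n) with hBk
  have hbound : ∀ {f : E n → ℝ}, BddM f K →
      exp (-K) ≤ ∫ z, exp (f z) ∂gam n ∧ ∫ z, exp (f z) ∂gam n ≤ exp K := by
    intro f hf
    constructor
    · simpa using integral_mono (μ := gam n) (integrable_const (exp (-K)))
        (integrable_bdd_comp hf.exp) fun z => exp_le_exp.2 (abs_le.1 (hf.2 z)).1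
    · simpa using integral_mono (μ := gam n) (integrable_bdd_comp hf.exp)
        (integrable_const (exp K)) fun z => exp_le_exp.2 (abs_le.1 (hf.2 z)).2
  have hlog : ∀ {f : E n → ℝ}, BddM f K → |Real.log (∫ z, exp (f z) ∂gam n)| ≤ K := by
    intro f hf
    obtain ⟨h1, h2⟩ := hbound hf
    rw [abs_le, Real.le_log_iff_exp_le ((exp_pos _).trans_le h1),
      Real.log_le_iff_le_exp ((exp_pos _).trans_le h1)]
    exact ⟨h1, h2⟩
  have hmA : Measurable A := by
    refine Measurable.log ?_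
    exact ((hq.1.comp (measurable_locMap t)).exp.stronglyMeasurable.integral_prod_right'
      (f := fun p : E n × E n => exp (Qc β k (locMap t p)))).measurable
  have hmB : Measurable Bk := by
    refine (Measurable.log ?_).neg
    exact ((hk.1.comp (measurable_locMap t)).neg.exp.stronglyMeasurable.integral_prod_right'
      (f := fun p : E n × E n => exp (-k (locMap t p)))).measurable
  have hAb : BddM A K := ⟨hmA, fun x => hlog (ha x)⟩
  have hBb : BddM Bk K := ⟨hmB, fun y => by rw [hBk, abs_neg]; exact hlog (hb y).neg⟩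
  have h2t : 0 ≤ 2 * β * t ^ 2 := by positivity
  have hstep : ∀ x, A x ≤ Qc (2 * β * t ^ 2) Bk x := fun x => le_Qc fun y => by
    have h2 : ∀ z, Qc β k (locMap t (x, z)) ≤
        Qc (1 / 4) (fun w => k (locMap t (y, w))) z + 2 * β * t ^ 2 * ‖x - y‖ ^ 2 := fun z => by
      rw [← sub_le_iff_le_add]
      refine le_Qc fun w => ?_
      have h3 := Qc_le hβ hk (locMap t (x, z)) (locMap t (y, w))
      have h4 := mul_le_mul_of_nonneg_left (locMap_sub ht x y z w) hβ
      have h5 := mul_le_mul_of_nonneg_right hβt (sq_nonneg ‖z - w‖)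
      linarith
    have hq' := bddM_Qc (κ := 1 / 4) (by norm_num) (hb y)
    have h6 : ∫ z, exp (Qc β k (locMap t (x, z))) ∂gam n ≤
        exp (2 * β * t ^ 2 * ‖x - y‖ ^ 2) *
          ∫ z, exp (Qc (1 / 4) (fun w => k (locMap t (y, w))) z) ∂gam n := by
      rw [← integral_const_mul]
      refine integral_mono (integrable_bdd_comp (ha x).exp)
        ((integrable_bdd_comp hq'.exp).const_mul _) fun z => ?_
      rw [← exp_add]; exact exp_le_exp.2 (by linarith [h2 z])
    have h7 := tau_gam (hb y)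
    have hpA := (exp_pos _).trans_le (hbound (ha x)).1
    have hpB := (exp_pos _).trans_le (hbound (hb y).neg).1
    have h8 : (∫ z, exp (Qc β k (locMap t (x, z))) ∂gam n) *
        (∫ w, exp (-k (locMap t (y, w))) ∂gam n) ≤ exp (2 * β * t ^ 2 * ‖x - y‖ ^ 2) := by
      refine (mul_le_mul_of_nonneg_right h6 hpB.le).trans ?_
      rw [mul_assoc]
      exact mul_le_of_le_one_right (exp_pos _).le h7
    have h9 := Real.log_le_log (mul_pos hpA hpB) h8
    rw [Real.log_mul hpA.ne' hpB.ne', Real.log_exp] at h9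
    simp only [hA, hBk]; linarith
  rw [B.integral_qmeas hq.exp, B.integral_qmeas hk.neg.exp]
  have e1 : ∀ x, ∫ z, exp (Qc β k (locMap t (x, z))) ∂gam n = exp (A x) := fun x =>
    (Real.exp_log ((exp_pos _).trans_le (hbound (ha x)).1)).symm
  have e2 : ∀ y, ∫ w, exp (-k (locMap t (y, w))) ∂gam n = exp (-Bk y) := fun y => by
    rw [hBk, neg_neg]; exact (Real.exp_log ((exp_pos _).trans_le (hbound (hb y).neg).1)).symm
  simp only [e1, e2]
  refine le_trans (mul_le_mul_of_nonneg_right ?_ (integral_nonneg fun x => (exp_pos _).le))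
    (hτ Bk K hBb)
  exact integral_mono (integrable_bdd_comp hAb.exp) (integrable_bdd_comp (bddM_Qc h2t hBb).exp)
    fun x => exp_le_exp.2 (hstep x)

theorem avg_exp_pos {t : ℝ} (ht : 0 ≤ t) (θ : E n) {F : E n → ℝ} {K : ℝ} (hF : BddM F K) :
    0 < B.avg t θ fun x => exp (F x) := by
  rw [← B.integral_tilt t ht θ]
  exact (exp_pos _).trans_le (exp_integral_le hF)

theorem abs_avg_le_bdd {t : ℝ} (ht : 0 ≤ t) (θ : E n) {F : E n → ℝ} {K : ℝ} (hF : BddM F K) :
    |B.avg t θ F| ≤ K := by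
  rw [← B.integral_tilt t ht θ, ← Real.norm_eq_abs]
  simpa using norm_integral_le_of_norm_le_const (μ := (B.tilt t ht θ).μ) (f := F) (C := K)
    (.of_forall fun x => by simpa using hF.2 x)

theorem avg_mono_bdd {t : ℝ} (ht : 0 ≤ t) (θ : E n) {F G : E n → ℝ} {K L : ℝ} (hF : BddM F K)
    (hG : BddM G L) (h : ∀ x, F x ≤ G x) : B.avg t θ F ≤ B.avg t θ G := by
  rw [← B.integral_tilt t ht θ, ← B.integral_tilt t ht θ]
  exact integral_mono (integrable_bdd_comp hF) (integrable_bdd_comp hG) h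

/-- change of tilt -/
theorem donsker_tilt {t : ℝ} (ht : 0 ≤ t) (g u : E n) {F : E n → ℝ} {K : ℝ} (hF : BddM F K) :
    exp (B.avg t g F - B.breg t g u) ≤ B.avg t (g + u) fun x => exp (F x) := by
  set P := (B.tilt t ht g) with hP
  have hin : Integrable (fun x => F x + ⟪u, x⟫) P.μ :=
    (integrable_bdd_comp hF).add (P.integrable_of_growth (by fun_prop) (expGrowth_inner u))
  have hen : Integrable (fun x => exp (F x + ⟪u, x⟫)) P.μ := by
    refine P.integrable_of_growth
      ((hF.1.add (by fun_prop : Measurable fun x : E n => ⟪u, x⟫)).exp.aestronglyMeasurable) ?_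
    simp only [exp_add]
    exact (expGrowth_bounded hF.exp.2).mul (expGrowth_exp_inner u)
  have h1 : exp (∫ x, F x + ⟪u, x⟫ ∂P.μ) ≤ ∫ x, exp (F x + ⟪u, x⟫) ∂P.μ :=
    convexOn_exp.map_integral_le continuous_exp.continuousOn isClosed_univ (by simp) hin hen
  rw [integral_add (integrable_bdd_comp hF) (P.integrable_of_growth (by fun_prop) (expGrowth_inner u)),
    hP, B.integral_tilt t ht g F, B.integral_tilt t ht g (fun x => ⟪u, x⟫),
    ← B.inner_mean ht g u, B.integral_tilt t ht g] at h1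
  have h2 : B.avg t g (fun x => exp (F x + ⟪u, x⟫)) =
      B.num t (g + u) (fun x => exp (F x)) / B.Z t g := by
    simp only [avg, num]
    congr 1; congr 1; funext x
    rw [exp_add, W, W, inner_add_left, ← mul_assoc, mul_comm _ (exp ⟪u, x⟫), ← mul_assoc,
      ← exp_add, mul_comm]
    rw [mul_comm]; congr 1
    congr 1; ring
  rw [h2] at h1
  have hz := B.Z_pos ht g
  have hz' := B.Z_pos ht (g + u)
  simp only [avg, breg, Lam] at h1 ⊢
  rw [show B.num t g F / B.Z t g -
      (Real.log (B.Z t (g + u)) - Real.log (B.Z t g) - ⟪B.mean t g, u⟫) =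
      (B.num t g F / B.Z t g + ⟪B.mean t g, u⟫) + (Real.log (B.Z t g) - Real.log (B.Z t (g + u))) by
    ring, exp_add, exp_sub, exp_log hz, exp_log hz']
  refine (mul_le_mul_of_nonneg_right h1 (by positivity)).trans_eq ?_
  field_simp

/-- The set of tilts with small Bregman divergence of the log-partition function. -/
def Good (t β : ℝ) : Set (E n) := {g | ∀ u, B.breg t g u ≤ β * ‖u‖ ^ 2}

theorem measurableSet_good {t β : ℝ} (ht : 0 ≤ t) : MeasurableSet (B.Good t β) := by
  have hc : ∀ u, Continuous fun g => B.breg t g u := fun u => by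
    unfold breg
    simp only [B.inner_mean ht]
    exact (((B.continuous_Lam ht).comp (by fun_prop)).sub (B.continuous_Lam ht)).sub
      (B.continuous_avg ht (by fun_prop) (expGrowth_inner u))
  have : B.Good t β = ⋂ u, {g | B.breg t g u ≤ β * ‖u‖ ^ 2} := by ext; simp [Good]
  rw [this]
  exact (isClosed_iInter fun u => isClosed_le (hc u) continuous_const).measurableSet

theorem pair_avg {t : ℝ} (ht : 0 ≤ t) {lam β : ℝ} (hl : 0 < lam) {g θ : E n}
    (hg : g ∈ B.Good t β) {h : E n → ℝ} {K : ℝ} (hh : BddM h K) :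
    B.avg t g (Qc (lam * (t / 4)) h) ≤ B.avg t θ h + lam * (β * ‖θ - g‖ ^ 2) ∧
    B.avg t θ (Qc (lam * (t / 4)) h) ≤ B.avg t g h + lam * (β * ‖θ - g‖ ^ 2) := by
  have hk : BddM (fun x => lam⁻¹ * h x) (|lam⁻¹| * K) := hh.const_mul _
  have hQ : ∀ x, Qc (lam * (t / 4)) h x = lam * Qc (t / 4) (fun x => lam⁻¹ * h x) x := fun x => by
    rw [← Qc_const_mul hl (by linarith) hk x]
    congr 1; funext y; field_simp
  have hQ' : Qc (lam * (t / 4)) h = fun x => lam * Qc (t / 4) (fun x => lam⁻¹ * h x) x := funext hQ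
  have hd := hg (θ - g)
  rw [hQ', B.avg_const_mul, B.avg_const_mul]
  constructor
  · have h1 := B.donsker_tilt ht g (θ - g) (bddM_Qc (by linarith : 0 ≤ t / 4) hk)
    rw [add_sub_cancel] at h1
    have h2 := exp_le_exp.1 (h1.trans (B.tau_tilt_exp ht θ hk))
    rw [B.avg_const_mul] at h2
    have h3 := mul_le_mul_of_nonneg_left h2 hl.le
    rw [mul_inv_cancel_left₀ hl.ne'] at h3
    nlinarith
  · have h1 := B.donsker_tilt ht g (θ - g) hk.neg
    rw [add_sub_cancel] at h1
    have h2 := exp_le_exp.1 (h1.trans (B.tau_tilt_avg ht θ hk))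
    rw [show (fun x => -(lam⁻¹ * h x)) = fun x => (-lam⁻¹) * h x from funext fun x => by ring,
      B.avg_const_mul] at h2
    have h3 := mul_le_mul_of_nonneg_left h2 hl.le
    rw [neg_mul, mul_neg, mul_sub, mul_neg, mul_inv_cancel_left₀ hl.ne'] at h3
    nlinarith

theorem avg_exp_Qc_le {t : ℝ} (ht : 0 ≤ t) (θ : E n) {lam : ℝ} (hl : 0 < lam) (hl1 : lam ≤ 1)
    {h : E n → ℝ} {K : ℝ} (hh : BddM h K) :
    B.avg t θ (fun x => exp (Qc (lam * (t / 4)) h x)) ≤ exp (B.avg t θ h) := by
  have hD : (B.tilt t ht θ).DProp (t / 4) 0 := fun f L hf => by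
    rw [B.integral_tilt, B.integral_tilt, add_zero]
    exact B.tau_tilt_exp ht θ hf
  have := hD.scale (by linarith) hl hl1 h K hh
  rwa [B.integral_tilt, B.integral_tilt, mul_zero, add_zero] at this

theorem qavg_avg_bdd {t : ℝ} (ht : 0 ≤ t) {F G : E n → ℝ} {K L : ℝ} (hF : BddM F K)
    (hG : BddM G L) :
    ∫ θ, B.avg t θ F * G θ ∂B.qmeas t =
      ∫ x, F x * ∫ z, G (locMap t (x, z)) ∂gam n ∂B.μ := by
  have hgi : ∀ x : E n, ∀ H : E n → ℝ≥0∞, (∫⁻ z, ENNReal.ofReal (W t (√t • z) x) * H (√t • z) ∂gam n)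
      = ∫⁻ z, H (locMap t (x, z)) ∂gam n := fun x H => (lintegral_shift ht x H).symm
  have hm : Measurable fun θ => B.avg t θ F * G θ :=
    (B.continuous_avg ht hF.1.aestronglyMeasurable (expGrowth_bounded hF.2)).measurable.mul hG.1
  rw [show (∫ θ, B.avg t θ F * G θ ∂B.qmeas t) = B.qavg t fun θ => B.avg t θ F * G θ from rfl,
    B.qavg_eq ht hm]
  have h1 : ∀ z : E n, B.Z t (√t • z) * (B.avg t (√t • z) F * G (√t • z)) =
      ∫ x, W t (√t • z) x * F x * G (√t • z) ∂B.μ := fun z => by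
    rw [integral_mul_const, avg, ← mul_assoc, mul_div_cancel₀ _ (B.Z_pos ht _).ne', num]
  simp only [h1]
  have hjoint : Measurable fun p : E n × E n => W t (√t • p.1) p.2 * F p.2 * G (√t • p.1) :=
    (((by unfold W; fun_prop : Continuous fun p : E n × E n => W t (√t • p.1) p.2).measurable.mul
      (hF.1.comp measurable_snd)).mul (hG.1.comp (by fun_prop)))
  rw [integral_integral_swap]
  · congr 1; funext x
    have h2 : (fun z => W t (√t • z) x * F x * G (√t • z)) =
        fun z => F x * (W t (√t • z) x * G (√t • z)) := funext fun z => by ring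
    rw [h2, integral_const_mul]
    congr 1
    have key : ∀ z, gdens z * (W t (√t • z) x * G (√t • z)) =
        gdens (z - √t • x) * G (√t • z) := fun z => by rw [gdens_shift ht]; ring
    rw [integral_gam, integral_gam, funext key,
      ← integral_sub_right_eq_self (μ := (volume : Measure (E n)))
        (fun z => gdens z * G (locMap t (x, z))) (√t • x)]
    congr 1; funext z
    congr 2
    simp only [locMap, smul_sub, smul_smul, mul_self_sqrt ht]
    abel
  · refine ⟨hjoint.aestronglyMeasurable, ?_⟩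
    show ∫⁻ p : E n × E n, ‖W t (√t • p.1) p.2 * F p.2 * G (√t • p.1)‖ₑ ∂(gam n).prod B.μ < ⊤
    rw [lintegral_prod_symm' _ hjoint.enorm]
    have hle : ∀ x : E n, ∫⁻ z, ‖W t (√t • z) x * F x * G (√t • z)‖ₑ ∂gam n ≤
        ENNReal.ofReal (K * L) := by
      intro x
      refine (lintegral_mono fun z => ?_).trans_eq
        ((lintegral_mul_const (ENNReal.ofReal (K * L))
          (f := fun z => ENNReal.ofReal (W t (√t • z) x)) (by unfold W; fun_prop)).trans
          (by rw [show (∫⁻ z, ENNReal.ofReal (W t (√t • z) x) ∂gam n) = 1 by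
            simpa using hgi x (fun _ => 1), one_mul]))
      rw [Real.enorm_eq_ofReal_abs, abs_mul, abs_mul, abs_of_pos (W_pos _ _ _),
        mul_assoc, ENNReal.ofReal_mul (W_pos _ _ _).le]
      exact mul_le_mul_right (ENNReal.ofReal_le_ofReal
        (mul_le_mul (hF.2 x) (hG.2 _) (abs_nonneg _) hF.nonneg)) _
    calc _ ≤ ∫⁻ _x, ENNReal.ofReal (K * L) ∂B.μ := lintegral_mono hle
      _ < ⊤ := by simp

/-- One chaining step. -/
theorem chain_step {t β lam δ : ℝ} (ht : 0 < t) (hβ : 0 ≤ β) (hl : 0 < lam) (hl1 : lam ≤ 1)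
    (hG : 1 / 2 ≤ (B.qmeas t).real (B.Good t β))
    (hτ : TauP (B.qmeas t) (lam * β) δ) : B.DProp (lam * (t / 12)) (2 * δ + Real.log 4) := by
  classical
  intro h K hh
  have hK := hh.nonneg
  have hl4 : 0 ≤ lam * (t / 4) := by positivity
  have hlb : 0 ≤ lam * β := by positivity
  have hl12 : 0 ≤ lam * (t / 12) := by positivity
  have hl8 : 0 ≤ lam * (t / 8) := by positivity
  have h1 := bddM_Qc hl4 hh
  have h2 := bddM_Qc hl4 h1
  have hqh := bddM_Qc hl12 hh
  set H : E n → ℝ := fun θ => B.avg t θ h with hH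
  set F : E n → ℝ := fun θ => Real.log (B.avg t θ fun x => exp (Qc (lam * (t / 12)) h x)) with hF
  have hHb : BddM H K :=
    ⟨(B.continuous_avg ht.le hh.1.aestronglyMeasurable (expGrowth_bounded hh.2)).measurable,
      fun θ => B.abs_avg_le_bdd ht.le θ hh⟩
  have hFb : BddM F K := by
    refine ⟨((B.continuous_avg ht.le hqh.exp.1.aestronglyMeasurable
      (expGrowth_bounded hqh.exp.2)).measurable).log, fun θ => ?_⟩
    have hp := B.avg_exp_pos ht.le θ hqh
    rw [abs_le, Real.le_log_iff_exp_le hp, Real.log_le_iff_le_exp hp]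
    constructor
    · calc exp (-K) = B.avg t θ fun _ => exp (-K) := (B.avg_const ht.le θ _).symm
        _ ≤ _ := B.avg_mono_bdd ht.le θ (L := exp K) (K := exp K) ⟨measurable_const, fun _ => by
            rw [abs_exp]; exact exp_le_exp.2 (by linarith)⟩ hqh.exp
            fun x => exp_le_exp.2 (abs_le.1 (hqh.2 x)).1
    · exact (abs_le.1 (B.abs_avg_le_bdd ht.le θ hqh.exp)).2
  have hchain : ∀ θ, ∀ g ∈ B.Good t β,
      F θ ≤ Qc (lam * β) H g + lam * β * ‖θ - g‖ ^ 2 := by
    intro θ g hg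
    rw [← sub_le_iff_le_add]
    refine le_Qc fun θ' => ?_
    have a1 : F θ ≤ B.avg t θ (Qc (lam * (t / 4)) (Qc (lam * (t / 4)) h)) := by
      rw [hF]
      refine (Real.log_le_iff_le_exp (B.avg_exp_pos ht.le θ hqh)).2 ?_
      refine le_trans (B.avg_mono_bdd ht.le θ hqh.exp (bddM_Qc hl4 h2).exp fun x => exp_le_exp.2 ?_)
        (B.avg_exp_Qc_le ht.le θ hl hl1 h2)
      refine (Qc_series hl12 hh (b := lam * (t / 8)) (a := lam * (t / 4))
        (fun p q => by nlinarith [mul_nonneg (mul_nonneg hl.le ht.le) (sq_nonneg (2 * p - q))])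
          x).trans ?_
      refine le_Qc fun y => (Qc_le hl4 (bddM_Qc hl8 hh) x y).trans ?_
      gcongr
      exact Qc_series hl8 hh (fun p q => by
        nlinarith [mul_nonneg (mul_nonneg hl.le ht.le) (sq_nonneg (p - q))]) y
    have a2 := (B.pair_avg ht.le hl (θ := θ) hg h1).2
    have a3 := (B.pair_avg ht.le hl (θ := θ') hg hh).1
    simp only [hH]
    rw [norm_sub_rev g θ']
    linarith
  set N : E n → ℝ := fun θ => (B.Good t β).piecewise (Qc (lam * β) H) (fun _ => K) θ with hN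
  have hGm := B.measurableSet_good (β := β) ht.le
  have hq := bddM_Qc hlb hHb
  have hNb : BddM N K := by
    refine ⟨Measurable.piecewise hGm hq.1 measurable_const, fun θ => ?_⟩
    by_cases hθ : θ ∈ B.Good t β
    · simpa [hN, hθ] using hq.2 θ
    · simp [hN, hθ, abs_of_nonneg hK]
  have hFN : ∀ θ, F θ ≤ Qc (lam * β) N θ := fun θ => le_Qc fun g => by
    by_cases hθ : g ∈ B.Good t β
    · simpa [hN, hθ] using hchain θ g hθ
    · simp only [hN, piecewise_eq_of_notMem _ _ _ hθ]
      have : 0 ≤ lam * β * ‖θ - g‖ ^ 2 := by positivity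
      linarith [(abs_le.1 (hFb.2 θ)).2]
  set ν := B.qmeas t with hν
  have hb1 := (hτ N K hNb)
  have hb2 := hτ.exp_le hHb
  have hEH : ∫ θ, H θ ∂ν = ∫ x, h x ∂B.μ := by
    simpa [hH, hν] using B.qavg_avg_bdd ht.le hh (G := fun _ => (1 : ℝ)) (L := 1)
      ⟨measurable_const, fun _ => by simp⟩
  have hEF : ∫ θ, exp (F θ) ∂ν = ∫ x, exp (Qc (lam * (t / 12)) h x) ∂B.μ := by
    have := B.qavg_avg_bdd ht.le hqh.exp (G := fun _ => (1 : ℝ)) (L := 1)
      ⟨measurable_const, fun _ => by simp⟩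
    simp only [mul_one, integral_const, probReal_univ, one_smul] at this
    rw [← this]
    congr 1; funext θ
    exact exp_log (B.avg_exp_pos ht.le θ hqh)
  -- Cauchy–Schwarz on the good set
  have hCS : 1 / 4 ≤ (∫ θ, exp (-N θ) ∂ν) * ∫ θ, exp (Qc (lam * β) H θ) ∂ν := by
    set a := ∫ θ, exp (-N θ) ∂ν with ha
    set b := ∫ θ, exp (Qc (lam * β) H θ) ∂ν with hb
    have hapos : 0 < a := (exp_pos _).trans_le (exp_integral_le hNb.neg)
    have hbpos : 0 < b := (exp_pos _).trans_le (exp_integral_le hq)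
    -- `2 s ≤ e^{-N}·c + e^{Q H}/c` on the good set
    have key : ∀ c : ℝ, 0 < c → 1 ≤ c * a + c⁻¹ * b := fun c hc => by
      have hind : ∀ θ, (B.Good t β).indicator (fun _ => (2:ℝ)) θ ≤
          c * exp (-N θ) + c⁻¹ * exp (Qc (lam * β) H θ) := fun θ => by
        by_cases hθ : θ ∈ B.Good t β
        · simp only [indicator_of_mem hθ, hN, piecewise_eq_of_mem _ _ _ hθ]
          rw [exp_neg]
          have he := exp_pos (Qc (lam * β) H θ)
          have : c * (exp (Qc (lam * β) H θ))⁻¹ + c⁻¹ * exp (Qc (lam * β) H θ) - 2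
              = (c - exp (Qc (lam * β) H θ)) ^ 2 / (c * exp (Qc (lam * β) H θ)) := by
            field_simp; ring
          have h0 : 0 ≤ (c - exp (Qc (lam * β) H θ)) ^ 2 / (c * exp (Qc (lam * β) H θ)) := by
            positivity
          linarith
        · simp only [indicator_of_notMem hθ]; positivity
      have hint := integral_mono (μ := ν) ((integrable_const (2:ℝ)).indicator hGm)
        (((integrable_bdd_comp hNb.neg.exp).const_mul c).add
          ((integrable_bdd_comp hq.exp).const_mul c⁻¹)) hind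
      rw [integral_indicator hGm, setIntegral_const, smul_eq_mul] at hint
      simp only [Pi.add_apply] at hint
      rw [integral_add ((integrable_bdd_comp hNb.neg.exp).const_mul c)
        ((integrable_bdd_comp hq.exp).const_mul c⁻¹), integral_const_mul, integral_const_mul] at hint
      linarith
    have := key (1 / (2 * a)) (by positivity)
    field_simp at this
    nlinarith
  have hle : ∫ θ, exp (F θ) ∂ν ≤ ∫ θ, exp (Qc (lam * β) N θ) ∂ν :=
    integral_mono (integrable_bdd_comp hFb.exp) (integrable_bdd_comp (bddM_Qc hlb hNb).exp)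
      fun θ => exp_le_exp.2 (hFN θ)
  rw [← hEF]
  rw [hEH] at hb2
  have ha0 : 0 ≤ ∫ θ, exp (-N θ) ∂ν := integral_nonneg fun _ => (exp_pos _).le
  set p := ∫ θ, exp (F θ) ∂ν with hp
  set a := ∫ θ, exp (-N θ) ∂ν with ha
  set b := ∫ θ, exp (Qc (lam * β) H θ) ∂ν with hb
  have hpa : p * a ≤ exp δ := (mul_le_mul_of_nonneg_right hle ha0).trans hb1
  have hb0 : 0 ≤ b := integral_nonneg fun _ => (exp_pos _).le
  have hp0 : 0 ≤ p := integral_nonneg fun _ => (exp_pos _).le
  calc p ≤ 4 * (p * a) * b := by nlinarith [mul_le_mul_of_nonneg_left hCS hp0]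
    _ ≤ 4 * exp δ * exp (∫ x, h x ∂B.μ + δ) := by gcongr
    _ = _ := by
      rw [← exp_log (by norm_num : (0:ℝ) < 4), ← exp_add, ← exp_add,
        Real.log_exp]
      congr 1; ring

theorem dprop_initial : ∃ c : ℝ, 0 < c ∧ ∃ δ, B.DProp c δ := by
  obtain ⟨α, hα, hint⟩ := B.tail
  have hi : Integrable (fun x => exp (α * ‖x‖ ^ 2)) B.μ := by
    rw [integrable_μ_iff]
    refine hint.congr (.of_forall fun x => ?_)
    show _ = exp (-B.V x) * _
    rw [← exp_add]; ring_nf
  have hsq : Integrable (fun y => ‖y‖ ^ 2) B.μ :=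
    B.integrable_of_growth (by fun_prop) expGrowth_norm.sq
  set J := ∫ x, exp (α * ‖x‖ ^ 2) ∂B.μ with hJ
  set S := ∫ y, ‖y‖ ^ 2 ∂B.μ with hS
  refine ⟨α / 2, by linarith, Real.log (max J 1) + α * S, fun h K hh => ?_⟩
  have hpt : ∀ x, Qc (α / 2) h x ≤ ∫ y, h y ∂B.μ + α * ‖x‖ ^ 2 + α * S := fun x => by
    have h1 := integral_mono (μ := B.μ) (integrable_const (Qc (α / 2) h x))
      ((integrable_bdd_comp hh).add ((hsq.const_mul α).add (integrable_const (α * ‖x‖ ^ 2))))
      fun y => by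
        have := Qc_le (by linarith : 0 ≤ α / 2) hh x y
        have h2 : ‖x - y‖ ^ 2 ≤ 2 * ‖x‖ ^ 2 + 2 * ‖y‖ ^ 2 := by
          have := pow_le_pow_left₀ (norm_nonneg _) (norm_sub_le x y) 2
          nlinarith [sq_nonneg (‖x‖ - ‖y‖)]
        simp only [Pi.add_apply]
        nlinarith
    rw [integral_const, probReal_univ, one_smul, integral_add' (integrable_bdd_comp hh)
      ((hsq.const_mul α).add (integrable_const (α * ‖x‖ ^ 2))),
      integral_add' (hsq.const_mul α) (integrable_const _), integral_const_mul,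
      integral_const, probReal_univ, one_smul] at h1
    linarith
  calc ∫ x, exp (Qc (α / 2) h x) ∂B.μ
      ≤ ∫ x, exp (∫ y, h y ∂B.μ + α * S) * exp (α * ‖x‖ ^ 2) ∂B.μ := by
        refine integral_mono (integrable_bdd_comp (bddM_Qc (by linarith) hh).exp)
          (hi.const_mul _) fun x => ?_
        rw [← exp_add]; exact exp_le_exp.2 (by linarith [hpt x])
    _ = exp (∫ y, h y ∂B.μ + α * S) * J := integral_const_mul _ _
    _ ≤ exp (∫ y, h y ∂B.μ + α * S) * max J 1 := by gcongr; exact le_max_left _ _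
    _ = _ := by
      rw [← exp_log (lt_max_of_lt_right one_pos : (0:ℝ) < max J 1), ← exp_add, Real.log_exp]
      congr 1; ring

/-- The dimension-free infimal-convolution inequality. -/
theorem dprop_of_good {t ε : ℝ} (ht : 0 < t) (hε : 0 < ε) (hε' : ε ≤ 1 / 400)
    (hG : 1 / 2 ≤ (B.qmeas t).real (B.Good t (ε / t))) : B.DProp (t / 12) 3 := by
  have step : ∀ c δ lam : ℝ, 0 < c → 0 < lam → lam ≤ 1 → 4 * ε * lam * t ≤ c → B.DProp c δ →
      B.DProp (lam * (t / 12)) (4 * δ + Real.log 4) := by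
    intro c δ lam hc hl hl1 hle hD
    have hD' := hD.mono (c := 4 * ε * lam * t) (by positivity) hle
    have h1 := B.tauP_of_D (by positivity) hD'
    have h2 : TauP (B.qmeas t) (lam * (ε / t)) (2 * δ) := by
      refine B.tauP_q ht.le (by positivity) ?_ ?_
      · rw [show 2 * (lam * (ε / t)) * t = 2 * lam * ε by field_simp]; nlinarith
      · convert h1 using 1; field_simp; ring
    have := B.chain_step ht (by positivity) hl hl1 hG h2
    rwa [show 2 * (2 * δ) = 4 * δ by ring] at this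
  obtain ⟨c₀, hc₀, δ₀, hD₀⟩ := B.dprop_initial
  have hclimb : ∀ k : ℕ, ∃ δ, B.DProp (min (c₀ * 2 ^ k) (t / 12)) δ := by
    intro k
    induction k with
    | zero => exact ⟨δ₀, hD₀.mono (by positivity) (by simp)⟩
    | succ k ih =>
      obtain ⟨δ, hδ⟩ := ih
      set c := min (c₀ * 2 ^ k) (t / 12) with hc
      have hcpos : 0 < c := lt_min (by positivity) (by linarith)
      refine ⟨_, (step c δ (min (24 * c / t) 1) hcpos (lt_min (by positivity) one_pos)
        (min_le_right _ _) ?_ hδ).mono (lt_min (by positivity) (by linarith)).le ?_⟩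
      · have h1 : min (24 * c / t) 1 * t ≤ 24 * c := by
          calc _ ≤ 24 * c / t * t := by gcongr; exact min_le_left _ _
            _ = _ := by field_simp
        nlinarith [mul_le_mul_of_nonneg_left h1 hε.le]
      · rw [min_mul_of_nonneg _ _ (by positivity : 0 ≤ t / 12), one_mul,
          show 24 * c / t * (t / 12) = 2 * c by field_simp; ring, hc, mul_min_of_nonneg _ _ (by norm_num : (0:ℝ) ≤ 2)]
        refine le_min (le_min ?_ ?_) (min_le_right _ _)
        · exact (min_le_left _ _).trans_eq (by rw [pow_succ]; ring)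
        · exact (min_le_right _ _).trans (by linarith)
  obtain ⟨k, hk⟩ := pow_unbounded_of_one_lt (t / 12 / c₀) one_lt_two
  obtain ⟨δ₁, hδ₁⟩ := hclimb k
  rw [min_eq_right (by rw [div_lt_iff₀ hc₀] at hk; linarith)] at hδ₁
  -- steady state
  have hiter : ∀ j : ℕ, B.DProp (t / 12) (|δ₁| / 2 ^ j + 2 * Real.log 4) := by
    intro j
    induction j with
    | zero =>
      intro h K hh
      refine (hδ₁ h K hh).trans (exp_le_exp.2 ?_)
      have := Real.log_nonneg (by norm_num : (1:ℝ) ≤ 4)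
      have := le_abs_self δ₁
      simp only [pow_zero, div_one]; linarith
    | succ j ih =>
      have hD := ih.scale (by linarith) (s := 48 * ε) (by linarith) (by linarith)
      have h1 := step (48 * ε * (t / 12)) _ 1 (by positivity) one_pos le_rfl (by linarith) hD
      rw [one_mul] at h1
      intro h K hh
      refine (h1 h K hh).trans (exp_le_exp.2 ?_)
      have hl := Real.log_nonneg (by norm_num : (1:ℝ) ≤ 4)
      have hp : 0 ≤ |δ₁| / 2 ^ j := by positivity
      have hm : 4 * (48 * ε) * (|δ₁| / 2 ^ j + 2 * Real.log 4) ≤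
          1 / 2 * (|δ₁| / 2 ^ j + 2 * Real.log 4) :=
        mul_le_mul_of_nonneg_right (by linarith) (by linarith)
      rw [pow_succ, ← div_div]
      linarith
  obtain ⟨j, hj⟩ := pow_unbounded_of_one_lt (|δ₁| * 10) one_lt_two
  intro h K hh
  refine (hiter j h K hh).trans (exp_le_exp.2 ?_)
  have h4 : Real.log 4 = 2 * Real.log 2 := by
    rw [← Real.log_rpow two_pos]; norm_num
  have := Real.log_two_lt_d9
  have h5 : |δ₁| / 2 ^ j ≤ 1 / 10 := by rw [div_le_iff₀ (by positivity)]; linarith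
  linarith

end Base

end Vale.Agent.P245.Local
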