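import Vale.Agent.P245.Local.Defective

/-!
# P245: the criterion — Poincaré and log-Sobolev inequalities with constant `O(1/T)`
-/

open MeasureTheory Real Set Filter
open scoped RealInnerProductSpace ENNReal Topology

noncomputable section

namespace Vale.Agent.P245.Local

variable {n : ℕ}

/-- Poincaré inequality of strongly log-concave measures (proved separately) -/
def PoincareStrongProp (n : ℕ) : Prop :=
  ∀ (B : Base n) {t : ℝ}, 0 < t → B.Strong t → ∀ {f : E n → ℝ}, ContDiff ℝ 1 f → ExpGrowth f →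
    ExpGrowth (fun x => ‖fderiv ℝ f x‖) →
    ∫ x, (f x - ∫ y, f y ∂B.μ) ^ 2 ∂B.μ ≤ t⁻¹ * ∫ x, ‖fderiv ℝ f x‖ ^ 2 ∂B.μ

/-- bounded `C¹` function with bounded derivative -/
structure Smth (f : E n → ℝ) (L : ℝ) : Prop where
  smooth : ContDiff ℝ 1 f
  bd : ∀ x, |f x| ≤ L
  deriv : ∀ x, ‖fderiv ℝ f x‖ ≤ L

variable {f : E n → ℝ} {L : ℝ}

theorem Smth.bddM (hf : Smth f L) : BddM f L := ⟨hf.smooth.continuous.measurable, hf.bd⟩

theorem Smth.bddM_grad (hf : Smth f L) : BddM (fun x => ‖fderiv ℝ f x‖ ^ 2) (L ^ 2) :=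
  ⟨((hf.smooth.continuous_fderiv one_ne_zero).norm.pow 2).measurable, fun x => by
    rw [abs_of_nonneg (sq_nonneg _)]; exact pow_le_pow_left₀ (norm_nonneg _) (hf.deriv x) 2⟩

theorem BddM.sq {f : E n → ℝ} {L : ℝ} (hf : BddM f L) : BddM (fun x => f x ^ 2) (L ^ 2) :=
  ⟨hf.1.pow_const 2, fun x => by rw [abs_pow]; exact pow_le_pow_left₀ (abs_nonneg _) (hf.2 x) 2⟩

theorem BddM.sub_const {f : E n → ℝ} {L : ℝ} (hf : BddM f L) (c : ℝ) :
    BddM (fun x => f x - c) (L + |c|) :=
  ⟨hf.1.sub_const c, fun x => (abs_sub _ _).trans (by linarith [hf.2 x])⟩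

theorem bddM_sq_mul_log {g : E n → ℝ} {L : ℝ} (hg : BddM g L) :
    BddM (fun x => g x ^ 2 * log (g x ^ 2)) (L ^ 2 * |log (L ^ 2)| + 1) :=
  ⟨Real.continuous_mul_log.measurable.comp (hg.1.pow_const 2), fun x => by
    have hy : g x ^ 2 ≤ L ^ 2 := (le_abs_self _).trans (hg.sq.2 x)
    show |g x ^ 2 * log (g x ^ 2)| ≤ _
    rcases eq_or_lt_of_le (sq_nonneg (g x)) with h0 | h0
    · rw [← h0]; simp; positivity
    rcases le_or_gt (g x ^ 2) 1 with h1 | h1
    · have := Real.abs_log_mul_self_lt (g x ^ 2) h0 h1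
      rw [mul_comm] at this
      have : 0 ≤ L ^ 2 * |log (L ^ 2)| := by positivity
      linarith
    · rw [abs_mul, abs_of_pos h0, abs_of_pos (log_pos h1)]
      have := mul_le_mul hy ((log_le_log h0 hy).trans (le_abs_self _)) (log_pos h1).le (sq_nonneg L)
      linarith⟩

theorem neg_one_le_mul_log {y : ℝ} (hy : 0 ≤ y) : -1 ≤ y * log y := by
  rcases eq_or_lt_of_le hy with h0 | h0
  · rw [← h0]; simp
  rcases le_or_gt y 1 with h1 | h1
  · have := (abs_lt.1 (Real.abs_log_mul_self_lt _ h0 h1)).1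
    linarith
  · linarith [mul_pos h0 (log_pos h1)]

theorem integral_var_eq {ν : Measure (E n)} [IsProbabilityMeasure ν] {f : E n → ℝ} {L : ℝ}
    (hf : BddM f L) :
    ∫ x, (f x - ∫ y, f y ∂ν) ^ 2 ∂ν = ∫ x, f x ^ 2 ∂ν - (∫ y, f y ∂ν) ^ 2 := by
  set m := ∫ y, f y ∂ν with hm
  have i1 : Integrable (fun x => f x ^ 2) ν := integrable_bdd_comp hf.sq
  have i2 : Integrable (fun x => (-(2 * m)) * f x) ν := (integrable_bdd_comp hf).const_mul _
  have h : ∀ x, (f x - m) ^ 2 = f x ^ 2 + (-(2 * m)) * f x + m ^ 2 := fun x => by ring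
  simp only [h]
  rw [integral_add (f := fun x => f x ^ 2 + (-(2 * m)) * f x) (g := fun _ => m ^ 2) (i1.add i2)
      (integrable_const _), integral_add i1 i2, integral_const_mul, ← hm, integral_const,
    probReal_univ, one_smul]
  ring

theorem sq_measure_le {ν : Measure (E n)} [IsProbabilityMeasure ν] {G : Set (E n)}
    (hG : MeasurableSet G) {F : E n → ℝ} {K : ℝ} (hF : BddM F K) :
    ν.real G ^ 2 ≤ (∫ θ, G.indicator (fun θ => exp (-F θ)) θ ∂ν) *
      ∫ θ, G.indicator (fun θ => exp (F θ)) θ ∂ν := by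
  set a := ∫ θ, G.indicator (fun θ => exp (-F θ)) θ ∂ν with ha
  set b := ∫ θ, G.indicator (fun θ => exp (F θ)) θ ∂ν with hb
  have ia := (integrable_bdd_comp (ν := ν) hF.neg.exp).indicator hG
  have ib := (integrable_bdd_comp (ν := ν) hF.exp).indicator hG
  have key : ∀ c : ℝ, 0 < c → 2 * ν.real G ≤ c * a + c⁻¹ * b := fun c hc => by
    have hind : ∀ θ, G.indicator (fun _ => (2:ℝ)) θ ≤
        c * G.indicator (fun θ => exp (-F θ)) θ + c⁻¹ * G.indicator (fun θ => exp (F θ)) θ :=
      fun θ => by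
        by_cases hθ : θ ∈ G
        · simp only [indicator_of_mem hθ]
          rw [exp_neg]
          have he := exp_pos (F θ)
          have e : c * (exp (F θ))⁻¹ + c⁻¹ * exp (F θ) - 2
              = (c - exp (F θ)) ^ 2 / (c * exp (F θ)) := by field_simp; ring
          have : 0 ≤ (c - exp (F θ)) ^ 2 / (c * exp (F θ)) := by positivity
          linarith
        · simp [indicator_of_notMem hθ]
    have h := integral_mono (μ := ν) ((integrable_const (2:ℝ)).indicator hG)
      ((ia.const_mul c).add (ib.const_mul c⁻¹)) hind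
    rw [integral_indicator hG, setIntegral_const, smul_eq_mul,
      integral_add' (ia.const_mul c) (ib.const_mul c⁻¹), integral_const_mul,
      integral_const_mul] at h
    linarith
  have ha0 : 0 ≤ a := integral_nonneg fun θ => indicator_nonneg (fun _ _ => (exp_pos _).le) θ
  have hb0 : 0 ≤ b := integral_nonneg fun θ => indicator_nonneg (fun _ _ => (exp_pos _).le) θ
  have hq : 0 ≤ ν.real G := measureReal_nonneg
  rcases ha0.lt_or_eq with hap | haz
  · rcases hq.lt_or_eq with hqp | hqz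
    · have := key (ν.real G / a) (by positivity)
      field_simp at this
      nlinarith
    · rw [← hqz]; nlinarith [mul_nonneg ha0 hb0]
  · have hae : G.indicator (fun θ => exp (-F θ)) =ᵐ[ν] 0 :=
      (integral_eq_zero_iff_of_nonneg (fun θ => indicator_nonneg (fun _ _ => (exp_pos _).le) θ)
        ia).1 haz.symm
    have hν : ν G = 0 := by
      have hset : G = {θ | G.indicator (fun θ => exp (-F θ)) θ ≠ 0} := by
        ext θ; by_cases hθ : θ ∈ G <;> simp [hθ, (exp_pos _).ne']
      rw [hset]; exact hae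
    simp [measureReal_def, hν, ← haz]

theorem two_add_sq_le (a : ℝ) : 2 + a ^ 2 ≤ exp a + exp (-a) := by
  suffices H : ∀ b : ℝ, 0 ≤ b → 2 + b ^ 2 ≤ exp b + exp (-b) by
    rcases le_total 0 a with ha | ha
    · exact H a ha
    · simpa [add_comm] using H (-a) (neg_nonneg.2 ha)
  intro b hb
  set h := b / 2 with hh
  set e := exp h with he
  have hep : 0 < e := exp_pos _
  have h1 : 1 + h + h ^ 2 / 2 ≤ e := Real.quadratic_le_exp_of_nonneg (by positivity)
  have h2 : (1 + h ^ 2 / 2) ^ 2 ≤ (e - h) ^ 2 :=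
    pow_le_pow_left₀ (by positivity) (by linarith) 2
  have h3 : 2 * h ≤ e - e⁻¹ := by
    rw [le_sub_iff_add_le, ← le_sub_iff_add_le', inv_le_iff_one_le_mul₀ hep]
    nlinarith [sq_nonneg (h ^ 2)]
  have h4 : b ^ 2 ≤ (e - e⁻¹) ^ 2 := by
    rw [show b = 2 * h by rw [hh]; ring]
    exact pow_le_pow_left₀ (by positivity) h3 2
  have e1 : exp b = e ^ 2 := by rw [he, ← exp_nat_mul]; congr 1; rw [hh]; push_cast; ring
  have e2 : (e - e⁻¹) ^ 2 = e ^ 2 + (e ^ 2)⁻¹ - 2 := by field_simp; ring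
  rw [exp_neg, e1]; linarith

namespace Base

variable (B : Base n)

/-- Bregman bound for small increments only -/
def GoodLoc (t β : ℝ) (g : E n) : Prop :=
  ∀ u, β * ‖u‖ ^ 2 ≤ 1 / 4 → B.breg t g u ≤ β * ‖u‖ ^ 2

theorem breg_self (t : ℝ) (g : E n) : B.breg t g 0 = 0 := by simp [breg]

theorem abs_avg_sub_le {t β : ℝ} (ht : 0 ≤ t) (hβ : 0 < β) {g : E n} (hg : B.GoodLoc t β g)
    (θ : E n) {f : E n → ℝ} {L : ℝ} (hf : BddM f L) :
    |B.avg t g f - B.avg t θ f| ≤ 4 * L * √β * ‖θ - g‖ := by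
  have hL := hf.nonneg
  set r := √β * ‖θ - g‖ with hr
  have hr0 : 0 ≤ r := by positivity
  rw [show 4 * L * √β * ‖θ - g‖ = 4 * L * r by rw [hr]; ring]
  set c := B.avg t θ f with hc
  set Δ := B.avg t g f - c with hΔ
  have htriv : |Δ| ≤ 2 * L := by
    refine (abs_sub _ _).trans ?_
    linarith [B.abs_avg_le_bdd ht g hf, B.abs_avg_le_bdd ht θ hf]
  rcases le_or_gt (1 / 2) r with hr2 | hr2
  · nlinarith
  rcases hr0.lt_or_eq with hrp | hrz
  swap
  · have : θ = g := by
      have h : √β * ‖θ - g‖ = 0 := hrz.symm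
      rcases mul_eq_zero.1 h with h | h
      · exact absurd h (Real.sqrt_pos.2 hβ).ne'
      · exact sub_eq_zero.1 (norm_eq_zero.1 h)
    subst this
    simp [hΔ, hc, ← hrz]
  rcases hL.lt_or_eq with hLp | hLz
  swap
  · rw [← hLz] at htriv ⊢; linarith
  have hr2' : β * ‖θ - g‖ ^ 2 = r ^ 2 := by rw [hr, mul_pow, Real.sq_sqrt hβ.le]
  have hd : B.breg t g (θ - g) ≤ r ^ 2 :=
    (hg _ (by rw [hr2']; nlinarith)).trans_eq hr2'
  have hone : ∀ s : ℝ, |s| = r / L → s * Δ ≤ 2 * r ^ 2 := by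
    intro s hs
    have hF : BddM (fun x => s * (f x - c)) (|s| * (L + |c|)) := (hf.sub_const c).const_mul s
    have hF1 : ∀ x, |s * (f x - c)| ≤ 1 := fun x => by
      rw [abs_mul, hs]
      have : |f x - c| ≤ 2 * L := (abs_sub _ _).trans (by
        linarith [hf.2 x, B.abs_avg_le_bdd ht θ hf])
      calc r / L * |f x - c| ≤ r / L * (2 * L) := by gcongr
        _ = 2 * r := by field_simp
        _ ≤ 1 := by linarith
    have h1 := B.donsker_tilt ht g (θ - g) hF
    rw [add_sub_cancel] at h1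
    have h2 : B.avg t θ (fun x => exp (s * (f x - c))) ≤ 1 + r ^ 2 := by
      have hq : BddM (fun x => 1 + s * (f x - c) + (s * (f x - c)) ^ 2) 3 :=
        ⟨(measurable_const.add hF.1).add (hF.1.pow_const 2), fun x => by
          have := hF1 x
          have h' := abs_le.1 this
          rw [abs_le]; constructor <;> nlinarith [sq_abs (s * (f x - c))]⟩
      refine (B.avg_mono_bdd ht θ hF.exp hq fun x => ?_).trans ?_
      · have := (abs_le.1 (Real.abs_exp_sub_one_sub_id_le (hF1 x))).2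
        linarith
      · rw [← B.integral_tilt t ht θ, integral_add (f := fun x => 1 + s * (f x - c))
          (g := fun x => (s * (f x - c)) ^ 2) (((integrable_const 1).add (integrable_bdd_comp hF)))
          (integrable_bdd_comp hF.sq), integral_add (integrable_const 1) (integrable_bdd_comp hF),
          integral_const, probReal_univ, one_smul, integral_const_mul,
          integral_sub (integrable_bdd_comp hf) (integrable_const c), integral_const, probReal_univ,
          one_smul]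
        simp only [mul_pow]
        have hcθ : c = ∫ x, f x ∂(B.tilt t ht θ).μ := by rw [B.integral_tilt, hc]
        rw [integral_const_mul, hcθ, sub_self, mul_zero, add_zero, integral_var_eq hf]
        have h4 : ∫ x, f x ^ 2 ∂(B.tilt t ht θ).μ ≤ L ^ 2 := by
          simpa using integral_mono (μ := (B.tilt t ht θ).μ) (integrable_bdd_comp hf.sq)
            (integrable_const (L ^ 2)) fun x => (le_abs_self _).trans (hf.sq.2 x)
        have h5 : s ^ 2 * L ^ 2 = r ^ 2 := by
          rw [← sq_abs s, hs, div_pow]; field_simp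
        nlinarith [mul_le_mul_of_nonneg_left h4 (sq_nonneg s), mul_nonneg (sq_nonneg s)
          (sq_nonneg (∫ x, f x ∂(B.tilt t ht θ).μ))]
    have h3 := h1.trans (h2.trans (by linarith [add_one_le_exp (r ^ 2)] : _ ≤ exp (r ^ 2)))
    have h4 := exp_le_exp.1 h3
    rw [B.avg_const_mul, ← B.integral_tilt t ht g, integral_sub (integrable_bdd_comp hf)
      (integrable_const c), integral_const, probReal_univ, one_smul, B.integral_tilt] at h4
    linarith
  have hp := hone (r / L) (abs_of_pos (by positivity))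
  have hn := hone (-(r / L)) (by rw [abs_neg]; exact abs_of_pos (by positivity))
  rw [abs_le]
  rw [div_mul_eq_mul_div, div_le_iff₀ hLp] at hp
  rw [neg_mul, div_mul_eq_mul_div, ← neg_div, div_le_iff₀ hLp] at hn
  constructor <;> nlinarith

/-- weak Poincaré inequality -/
theorem weak_poincare (hP : PoincareStrongProp n) {t ε : ℝ} (ht : 0 < t) (hε : 0 < ε)
    {G : Set (E n)} (hGm : MeasurableSet G) (hGs : ∀ g ∈ G, B.GoodLoc t (ε / t) g)
    (hG : 1 / 2 ≤ (B.qmeas t).real G) (hD : B.DProp (t / 12) 3)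
    {f : E n → ℝ} {L : ℝ} (hf : Smth f L) {Bd : ℝ} (hB : 0 < Bd) (hfB : ∀ x, |f x| ≤ Bd) :
    ∫ x, (f x - ∫ y, f y ∂B.μ) ^ 2 ∂B.μ ≤
      t⁻¹ * ∫ x, ‖fderiv ℝ f x‖ ^ 2 ∂B.μ + 1600 * exp 14 * ε * Bd ^ 2 := by
  classical
  have hfb : BddM f Bd := ⟨hf.smooth.continuous.measurable, hfB⟩
  set ν := B.qmeas t with hν
  set M : E n → ℝ := fun θ => B.avg t θ f with hM
  have hMb : BddM M Bd :=
    ⟨(B.continuous_avg ht.le hfb.1.aestronglyMeasurable (expGrowth_bounded hfb.2)).measurable,
      fun θ => B.abs_avg_le_bdd ht.le θ hfb⟩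
  have hEM : ∫ θ, M θ ∂ν = ∫ x, f x ∂B.μ := B.integral_qmeas_avg ht.le hfb
  set m := ∫ x, f x ∂B.μ with hm
  -- inside the tilts
  have hpt : ∀ θ, B.avg t θ (fun x => f x ^ 2) - M θ ^ 2 ≤
      t⁻¹ * B.avg t θ (fun x => ‖fderiv ℝ f x‖ ^ 2) := fun θ => by
    have hs : (B.tilt t ht.le θ).Strong t := by
      simpa using B.strong_tilt B.strong_zero t ht.le θ
    have := hP (B.tilt t ht.le θ) ht hs hf.smooth (expGrowth_bounded hf.bd)
      (expGrowth_bounded (C := L) fun x => by rw [abs_norm]; exact hf.deriv x)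
    rwa [integral_var_eq hf.bddM, B.integral_tilt, B.integral_tilt, B.integral_tilt] at this
  have hcont : ∀ {F : E n → ℝ} {K : ℝ}, BddM F K → BddM (fun θ => B.avg t θ F) K :=
    fun {F K} hF => ⟨(B.continuous_avg ht.le hF.1.aestronglyMeasurable
      (expGrowth_bounded hF.2)).measurable, fun θ => B.abs_avg_le_bdd ht.le θ hF⟩
  have h1 := integral_mono (μ := ν)
    ((integrable_bdd_comp (hcont hf.bddM.sq)).sub (integrable_bdd_comp hMb.sq))
    ((integrable_bdd_comp (hcont hf.bddM_grad)).const_mul t⁻¹) hpt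
  rw [integral_sub' (integrable_bdd_comp (hcont hf.bddM.sq)) (integrable_bdd_comp hMb.sq),
    integral_const_mul, B.integral_qmeas_avg ht.le hf.bddM.sq,
    B.integral_qmeas_avg ht.le hf.bddM_grad] at h1
  -- variance of the tilted averages
  have hτ : TauP ν (1 / (100 * t)) 6 := by
    have hD' := hD.mono (c := t / 25) (by linarith) (by linarith)
    have := B.tauP_of_D (by linarith : 0 ≤ t / 25) hD'
    refine B.tauP_q ht.le (by positivity) ?_ ?_
    · rw [show 2 * (1 / (100 * t)) * t = 1 / 50 by field_simp; ring]; norm_num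
    · convert this using 1
      · field_simp; ring
      · norm_num
  set lam := 1 / (20 * √ε * Bd) with hlam
  have hlpos : 0 < lam := by positivity
  have hside : ∀ s : ℝ, |s| = lam →
      (∫ θ, exp (s * M θ) ∂ν) * ∫ θ, G.indicator (fun θ => exp (-(s * M θ))) θ ∂ν ≤ exp 7 := by
    intro s hs
    set k : E n → ℝ := fun θ => G.piecewise (fun θ => s * M θ) (fun _ => |s| * Bd) θ with hk
    have hkb : BddM k (|s| * Bd) := by
      refine ⟨Measurable.piecewise hGm (hMb.const_mul s).1 measurable_const, fun θ => ?_⟩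
      by_cases hθ : θ ∈ G
      · simpa [hk, hθ] using (hMb.const_mul s).2 θ
      · simp [hk, hθ, abs_mul, abs_of_pos hB]
    have hlow : ∀ θ, s * M θ - 1 ≤ Qc (1 / (100 * t)) k θ := fun θ => le_Qc fun g => by
      by_cases hg : g ∈ G
      · simp only [hk, piecewise_eq_of_mem _ _ _ hg]
        have a1 := B.abs_avg_sub_le ht.le (div_pos hε ht) (hGs g hg) θ hfb
        have a2 : s * M θ - s * M g ≤ lam * (4 * Bd * √(ε / t) * ‖θ - g‖) := by
          calc s * M θ - s * M g = s * (M θ - M g) := by ring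
            _ ≤ |s * (M θ - M g)| := le_abs_self _
            _ ≤ _ := by rw [abs_mul, hs, abs_sub_comm]; gcongr
        have a3 : lam * (4 * Bd * √(ε / t) * ‖θ - g‖) = 2 * (‖θ - g‖ / (10 * √t)) := by
          rw [hlam, Real.sqrt_div hε.le]
          field_simp; ring
        have a4 : 1 / (100 * t) * ‖θ - g‖ ^ 2 = (‖θ - g‖ / (10 * √t)) ^ 2 := by
          rw [div_pow, mul_pow, Real.sq_sqrt ht.le]; ring
        nlinarith [sq_nonneg (‖θ - g‖ / (10 * √t) - 1)]
      · simp only [hk, piecewise_eq_of_notMem _ _ _ hg]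
        have a5 := (abs_le.1 ((hMb.const_mul s).2 θ)).2
        have : 0 ≤ 1 / (100 * t) * ‖θ - g‖ ^ 2 := by positivity
        linarith
    have h := hτ k _ hkb
    have hA : exp (-1) * ∫ θ, exp (s * M θ) ∂ν ≤ ∫ θ, exp (Qc (1 / (100 * t)) k θ) ∂ν := by
      rw [← integral_const_mul]
      exact integral_mono ((integrable_bdd_comp (hMb.const_mul s).exp).const_mul _)
        (integrable_bdd_comp (bddM_Qc (by positivity) hkb).exp) fun θ => by
          rw [← exp_add]; exact exp_le_exp.2 (by linarith [hlow θ])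
    have hBk : ∫ θ, G.indicator (fun θ => exp (-(s * M θ))) θ ∂ν ≤ ∫ θ, exp (-k θ) ∂ν :=
      integral_mono ((integrable_bdd_comp (hMb.const_mul s).neg.exp).indicator hGm)
        (integrable_bdd_comp hkb.neg.exp) fun θ => by
          by_cases hθ : θ ∈ G
          · simp [hk, hθ]
          · simp [hθ, (exp_pos _).le]
    have := (mul_le_mul hA hBk
      (integral_nonneg fun θ => indicator_nonneg (fun _ _ => (exp_pos _).le) θ)
      (integral_nonneg fun _ => (exp_pos _).le)).trans h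
    rw [mul_assoc, exp_neg, inv_mul_le_iff₀ (exp_pos _), ← exp_add] at this
    norm_num at this
    exact this
  have hp := hside lam (abs_of_pos hlpos)
  have hn := hside (-lam) (by rw [abs_neg]; exact abs_of_pos hlpos)
  simp only [neg_mul, neg_neg] at hn
  have hcs := sq_measure_le (ν := ν) hGm (hMb.const_mul lam)
  have hq4 : 1 / 4 ≤ ν.real G ^ 2 := by
    calc (1 / 4 : ℝ) = (1 / 2) ^ 2 := by norm_num
      _ ≤ _ := pow_le_pow_left₀ (by norm_num) hG 2
  -- centred exponential moments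
  set a : E n → ℝ := fun θ => lam * (M θ - m) with ha
  have hab : BddM a (|lam| * (Bd + |m|)) := (hMb.sub_const m).const_mul lam
  have hEa : ∫ θ, a θ ∂ν = 0 := by
    rw [ha, integral_const_mul, integral_sub (integrable_bdd_comp hMb) (integrable_const m), hEM,
      integral_const, probReal_univ, one_smul, sub_self, mul_zero]
  have hp1 : 1 ≤ ∫ θ, exp (a θ) ∂ν := by
    have := exp_integral_le (ν := ν) hab; rwa [hEa, exp_zero] at this
  have hn1 : 1 ≤ ∫ θ, exp (-a θ) ∂ν := by
    have := exp_integral_le (ν := ν) hab.neg; rwa [integral_neg, hEa, neg_zero, exp_zero] at this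
  have hsum : 2 + lam ^ 2 * ∫ θ, (M θ - m) ^ 2 ∂ν ≤
      ∫ θ, exp (a θ) ∂ν + ∫ θ, exp (-a θ) ∂ν := by
    have i1 := integrable_bdd_comp (ν := ν) hab.exp
    have i2 := integrable_bdd_comp (ν := ν) hab.neg.exp
    have i3 := integrable_bdd_comp (ν := ν) (hMb.sub_const m).sq
    have := integral_mono (μ := ν) ((integrable_const (2:ℝ)).add (i3.const_mul (lam ^ 2)))
      (i1.add i2) fun θ => by
        simp only [Pi.add_apply]
        have b1 := two_add_sq_le (a θ)
        have b2 : (a θ) ^ 2 = lam ^ 2 * (M θ - m) ^ 2 := by simp only [ha]; ring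
        linarith
    rw [integral_add' (integrable_const (2:ℝ)) (i3.const_mul _), integral_add' i1 i2,
      integral_const, probReal_univ, one_smul, integral_const_mul] at this
    exact this
  have hprod : (∫ θ, exp (a θ) ∂ν) * ∫ θ, exp (-a θ) ∂ν =
      (∫ θ, exp (lam * M θ) ∂ν) * ∫ θ, exp (-(lam * M θ)) ∂ν := by
    have e1 : ∀ θ, exp (a θ) = exp (-(lam * m)) * exp (lam * M θ) := fun θ => by
      rw [ha, ← exp_add]; ring_nf
    have e2 : ∀ θ, exp (-a θ) = exp (lam * m) * exp (-(lam * M θ)) := fun θ => by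
      rw [ha, ← exp_add]; ring_nf
    simp only [e1, e2, integral_const_mul]
    rw [mul_mul_mul_comm, ← exp_add, neg_add_cancel, exp_zero, one_mul]
  set P := ∫ θ, exp (lam * M θ) ∂ν with hPdef
  set N := ∫ θ, exp (-(lam * M θ)) ∂ν with hNdef
  set A1 := ∫ θ, G.indicator (fun θ => exp (-(lam * M θ))) θ ∂ν with hA1
  set B1 := ∫ θ, G.indicator (fun θ => exp (lam * M θ)) θ ∂ν with hB1
  have hP0 : 0 ≤ P := integral_nonneg fun _ => (exp_pos _).le
  have hN0 : 0 ≤ N := integral_nonneg fun _ => (exp_pos _).le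
  have hA0 : 0 ≤ A1 := integral_nonneg fun θ => indicator_nonneg (fun _ _ => (exp_pos _).le) θ
  have hB0 : 0 ≤ B1 := integral_nonneg fun θ => indicator_nonneg (fun _ _ => (exp_pos _).le) θ
  have hPN : P * N ≤ 4 * exp 14 := by
    have e : (P * A1) * (N * B1) ≤ exp 7 * exp 7 :=
      mul_le_mul hp hn (mul_nonneg hN0 hB0) (exp_pos _).le
    rw [← exp_add] at e; norm_num at e
    nlinarith [mul_le_mul_of_nonneg_left (hq4.trans hcs) (mul_nonneg hP0 hN0)]
  have hVar : ∫ θ, (M θ - m) ^ 2 ∂ν ≤ 1600 * exp 14 * ε * Bd ^ 2 := by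
    have h5 : lam ^ 2 * ∫ θ, (M θ - m) ^ 2 ∂ν ≤ 4 * exp 14 := by
      nlinarith [mul_nonneg (sub_nonneg.2 hp1) (sub_nonneg.2 hn1), hprod]
    have h6 : lam ^ 2 = 1 / (400 * ε * Bd ^ 2) := by
      rw [hlam, div_pow, mul_pow, mul_pow, Real.sq_sqrt hε.le]; norm_num
    rw [h6, one_div_mul_eq_div, div_le_iff₀ (by positivity)] at h5
    linarith
  have h7 : ∫ θ, (M θ - m) ^ 2 ∂ν = ∫ θ, M θ ^ 2 ∂ν - m ^ 2 := by
    have h := integral_var_eq (ν := ν) hMb
    rwa [hEM] at h
  rw [integral_var_eq hf.bddM]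
  linarith

/-- entropy of a square from the defective inequality -/
theorem sq_log_le {c δ : ℝ} (hL : LsiStrongProp n) (hc : 0 < c) (hD : B.DProp c δ)
    {g : E n → ℝ} {L : ℝ} (hg : Smth g L) :
    ∫ x, g x ^ 2 * log (g x ^ 2) ∂B.μ - (∫ x, g x ^ 2 ∂B.μ) * log (∫ x, g x ^ 2 ∂B.μ)
      ≤ 8 / c * ∫ x, ‖fderiv ℝ g x‖ ^ 2 ∂B.μ + δ * ∫ x, g x ^ 2 ∂B.μ := by
  set v := ∫ x, g x ^ 2 ∂B.μ with hv
  set I := ∫ x, ‖fderiv ℝ g x‖ ^ 2 ∂B.μ with hI
  have hL0 : 0 ≤ L := hg.bddM.nonneg
  have key : ∀ η : ℝ, 0 < η → η ≤ 1 → ∫ x, g x ^ 2 * log (g x ^ 2) ∂B.μ ≤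
      8 / c * I + δ * (v + η) + (v + η) * log (v + η) - η * log η := by
    intro η hη hη1
    have hdiff : ∀ x, HasFDerivAt (fun x => g x ^ 2 + η) ((2 * g x) • fderiv ℝ g x) x := fun x => by
      simpa using ((hg.smooth.differentiable one_ne_zero x).hasFDerivAt.pow 2).add_const η
    have hN : Nice (fun x => g x ^ 2 + η) η (2 * L ^ 2 + 1) := by
      refine ⟨(hg.smooth.pow 2).add contDiff_const, hη, fun x => ?_, fun x => ?_, fun x => ?_⟩
      · linarith [sq_nonneg (g x)]
      · have := (le_abs_self _).trans (hg.bddM.sq.2 x)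
        linarith [sq_nonneg L]
      · rw [(hdiff x).fderiv, norm_smul, norm_eq_abs, abs_mul, abs_two]
        have := mul_le_mul (hg.bd x) (hg.deriv x) (norm_nonneg _) hL0
        nlinarith
    have h1 := B.defective_lsi hL hc hD hN
    have h2 : fisher B.μ (fun x => g x ^ 2 + η) ≤ 4 * I := by
      rw [fisher, hI, ← integral_const_mul]
      refine integral_mono (integrable_bdd_comp hN.bddM_fisher)
        ((integrable_bdd_comp hg.bddM_grad).const_mul 4) fun x => ?_
      simp only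
      rw [(hdiff x).fderiv, norm_smul, norm_eq_abs, mul_pow, sq_abs,
        div_le_iff₀ (by positivity : 0 < g x ^ 2 + η)]
      nlinarith [mul_nonneg hη.le (sq_nonneg ‖fderiv ℝ g x‖)]
    have h3 : ∫ x, (g x ^ 2 + η) ∂B.μ = v + η := by
      rw [integral_add (integrable_bdd_comp hg.bddM.sq) (integrable_const η), integral_const,
        probReal_univ, one_smul]
    have hb := bddM_sq_mul_log hg.bddM
    have h4 : ∫ x, g x ^ 2 * log (g x ^ 2) ∂B.μ + η * log η ≤
        ∫ x, (g x ^ 2 + η) * log (g x ^ 2 + η) ∂B.μ := by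
      have := integral_mono (μ := B.μ) ((integrable_bdd_comp hb).add (integrable_const (η * log η)))
        (integrable_bdd_comp (hN.bddM.mul hN.bddM_log)) fun x => by
          simp only [Pi.add_apply]
          rcases eq_or_lt_of_le (sq_nonneg (g x)) with h0 | h0
          · rw [← h0]; simp
          have a := log_le_log h0 (by linarith : g x ^ 2 ≤ g x ^ 2 + η)
          have b := log_le_log hη (by linarith : η ≤ g x ^ 2 + η)
          rw [add_mul]
          exact add_le_add (mul_le_mul_of_nonneg_left a h0.le) (mul_le_mul_of_nonneg_left b hη.le)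
      rwa [integral_add' (integrable_bdd_comp hb) (integrable_const _), integral_const,
        probReal_univ, one_smul] at this
    rw [entr, h3] at h1
    have h5 := mul_le_mul_of_nonneg_left h2 (by positivity : 0 ≤ 2 / c)
    have : 2 / c * (4 * I) = 8 / c * I := by ring
    linarith
  have hlim : Tendsto (fun η => 8 / c * I + δ * (v + η) + (v + η) * log (v + η) - η * log η)
      (𝓝[>] 0) (𝓝 (8 / c * I + δ * (v + 0) + (v + 0) * log (v + 0) - 0 * log 0)) := by
    refine Tendsto.mono_left (Continuous.tendsto ?_ 0) nhdsWithin_le_nhds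
    exact ((continuous_const.add (by fun_prop)).add
      (Real.continuous_mul_log.comp (by fun_prop))).sub Real.continuous_mul_log
  have hle := ge_of_tendsto hlim (by
    filter_upwards [Ioc_mem_nhdsGT (one_pos (α := ℝ))] with η hη using key η hη.1 hη.2)
  simp only [add_zero, zero_mul, sub_zero] at hle
  linarith

/-- truncation -/
def trunc (b y : ℝ) : ℝ := y / √(1 + (y / b) ^ 2)

theorem hasDerivAt_trunc {b : ℝ} (hb : b ≠ 0) (y : ℝ) :
    HasDerivAt (trunc b) (((1 + (y / b) ^ 2) * √(1 + (y / b) ^ 2))⁻¹) y := by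
  have hu : 0 < 1 + (y / b) ^ 2 := by positivity
  have h1 : HasDerivAt (fun y => 1 + (y / b) ^ 2) (2 * (y / b) * (1 / b)) y := by
    simpa using (((hasDerivAt_id y).div_const b).pow 2).const_add 1
  have h2 := (hasDerivAt_id y).div (h1.sqrt hu.ne') (Real.sqrt_pos.2 hu).ne'
  refine h2.congr_deriv ?_
  have hS : 0 < √(1 + (y / b) ^ 2) := Real.sqrt_pos.2 hu
  have hs := Real.sq_sqrt hu.le
  simp only [id]
  set S := √(1 + (y / b) ^ 2) with hSdef
  have key : y * (2 * (y / b) * (1 / b) / (2 * S)) = (S ^ 2 - 1) / S := by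
    rw [hs]; field_simp; ring
  rw [key, ← hs]
  field_simp
  ring

theorem contDiff_trunc {b : ℝ} : ContDiff ℝ 1 (trunc b) := by
  have h : ContDiff ℝ 1 fun y : ℝ => 1 + (y / b) ^ 2 := by fun_prop
  exact contDiff_id.div (h.sqrt fun y => by positivity) fun y => by positivity

theorem abs_trunc_le {b : ℝ} (hb : 0 < b) (y : ℝ) : |trunc b y| ≤ b ∧
    (y - trunc b y) ^ 2 ≤ y ^ 2 * min 1 ((y / b) ^ 4) := by
  set z := y / b with hz
  set s := √(1 + z ^ 2) with hs
  have hs1 : 1 ≤ s := by rw [hs, Real.one_le_sqrt]; linarith [sq_nonneg z]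
  have hs0 : 0 < s := one_pos.trans_le hs1
  have hsz : |z| ≤ s := by
    rw [hs, ← Real.sqrt_sq_eq_abs]; exact Real.sqrt_le_sqrt (by linarith)
  constructor
  · rw [trunc, ← hz, ← hs, abs_div, abs_of_pos hs0, div_le_iff₀ hs0]
    rw [hz, abs_div, abs_of_pos hb, div_le_iff₀ hb] at hsz
    linarith
  · have e : y - trunc b y = y * (1 - 1 / s) := by rw [trunc, ← hz, ← hs]; ring
    have h0 : 0 ≤ 1 - 1 / s := by rw [sub_nonneg, div_le_one hs0]; exact hs1
    have h1 : 1 - 1 / s ≤ 1 := sub_le_self _ (by positivity)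
    have h2 : 1 - 1 / s ≤ z ^ 2 := by
      have hsq : s ^ 2 = 1 + z ^ 2 := Real.sq_sqrt (by positivity)
      rw [sub_le_iff_le_add, ← sub_le_iff_le_add', le_div_iff₀ hs0]
      nlinarith [mul_nonneg (sq_nonneg z) (sub_nonneg.2 hs1)]
    rw [e, mul_pow]
    refine mul_le_mul_of_nonneg_left (le_min ?_ ?_) (sq_nonneg y)
    · exact pow_le_one₀ h0 h1
    · calc (1 - 1 / s) ^ 2 ≤ (z ^ 2) ^ 2 := pow_le_pow_left₀ h0 h2 2
        _ = _ := by ring

/-- the threshold constant in the criterion -/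
def εcrit : ℝ := 1 / (64 * (1600 * exp 14) * exp 40)

theorem εcrit_pos : 0 < εcrit := by unfold εcrit; positivity

theorem εcrit_le : εcrit ≤ 1 / 400 := by
  unfold εcrit
  refine one_div_le_one_div_of_le (by norm_num) ?_
  nlinarith [add_one_le_exp (14:ℝ), add_one_le_exp (40:ℝ), exp_pos (14:ℝ), exp_pos (40:ℝ)]

theorem poincare_of_good (hP : PoincareStrongProp n) (hL : LsiStrongProp n) {t : ℝ} (ht : 0 < t)
    {G : Set (E n)} (hGm : MeasurableSet G) (hGs : ∀ g ∈ G, B.GoodLoc t (εcrit / t) g)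
    (hG : 1 / 2 ≤ (B.qmeas t).real G) (hD : B.DProp (t / 12) 3)
    {g : E n → ℝ} {L : ℝ} (hg : Smth g L) :
    ∫ x, (g x - ∫ y, g y ∂B.μ) ^ 2 ∂B.μ ≤ 13 / t * ∫ x, ‖fderiv ℝ g x‖ ^ 2 ∂B.μ := by
  set m := ∫ y, g y ∂B.μ with hm
  set v := ∫ x, (g x - m) ^ 2 ∂B.μ with hv
  set I := ∫ x, ‖fderiv ℝ g x‖ ^ 2 ∂B.μ with hI
  have hI0 : 0 ≤ I := integral_nonneg fun x => sq_nonneg _
  rcases (integral_nonneg fun x => sq_nonneg (g x - m) : 0 ≤ v).eq_or_lt with h0 | hvpos
  · rw [hv, ← h0]; exact mul_nonneg (by positivity) hI0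
  set s := (√v)⁻¹ with hs
  have hspos : 0 < s := inv_pos.2 (Real.sqrt_pos.2 hvpos)
  have hs2 : s ^ 2 * v = 1 := by
    rw [hs, inv_pow, Real.sq_sqrt hvpos.le, inv_mul_cancel₀ hvpos.ne']
  set u : E n → ℝ := fun x => s * (g x - m) with hu
  have hdu : ∀ x, fderiv ℝ u x = s • fderiv ℝ g x := fun x =>
    ((((hg.smooth.differentiable one_ne_zero x).hasFDerivAt).sub_const m).const_mul s).fderiv
  have hus : Smth u (s * (L + |m|) + s * L) := by
    have hL0 := hg.bddM.nonneg
    refine ⟨contDiff_const.mul (hg.smooth.sub contDiff_const), fun x => ?_, fun x => ?_⟩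
    · have h := ((hg.bddM.sub_const m).const_mul s).2 x
      rw [abs_of_pos hspos] at h
      have : 0 ≤ s * L := by positivity
      linarith
    · rw [hdu, norm_smul, norm_eq_abs, abs_of_pos hspos]
      have := mul_le_mul_of_nonneg_left (hg.deriv x) hspos.le
      have : 0 ≤ s * (L + |m|) := by positivity
      linarith
  have hu0 : ∫ x, u x ∂B.μ = 0 := by
    rw [hu, integral_const_mul, integral_sub (integrable_bdd_comp hg.bddM) (integrable_const m),
      ← hm, integral_const, probReal_univ, one_smul, sub_self, mul_zero]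
  have hu1 : ∫ x, u x ^ 2 ∂B.μ = 1 := by
    simp only [hu, mul_pow]; rw [integral_const_mul, ← hv, hs2]
  set J := ∫ x, ‖fderiv ℝ u x‖ ^ 2 ∂B.μ with hJ
  have hJI : J = s ^ 2 * I := by
    rw [hJ, hI, ← integral_const_mul]
    congr 1; funext x
    rw [hdu, norm_smul, mul_pow, norm_eq_abs, sq_abs]
  have hlog := B.sq_log_le hL (by linarith : 0 < t / 12) hD hus
  rw [hu1, log_one, mul_zero, sub_zero, mul_one, ← hJ] at hlog
  set b := 2 * exp 20 with hb
  have hbpos : 0 < b := by positivity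
  set f : E n → ℝ := fun x => trunc b (u x) with hf
  have hdf : ∀ x, ‖fderiv ℝ f x‖ ≤ ‖fderiv ℝ u x‖ := fun x => by
    have h := (hasDerivAt_trunc hbpos.ne' (u x)).comp_hasFDerivAt x
      (hus.smooth.differentiable one_ne_zero x).hasFDerivAt
    have hval : fderiv ℝ f x = _ := h.fderiv
    rw [hval, norm_smul, norm_eq_abs]
    refine mul_le_of_le_one_left (norm_nonneg _) ?_
    rw [abs_inv, abs_of_pos (by positivity)]
    refine inv_le_one_of_one_le₀ (one_le_mul_of_one_le_of_one_le ?_ ?_)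
    · linarith [sq_nonneg (u x / b)]
    · rw [Real.one_le_sqrt]; linarith [sq_nonneg (u x / b)]
  have hfs : Smth f (b + (s * (L + |m|) + s * L)) := by
    have hL0 := hus.bddM.nonneg
    exact ⟨contDiff_trunc.comp hus.smooth,
      fun x => (abs_trunc_le hbpos (u x)).1.trans (le_add_of_nonneg_right hL0),
      fun x => (hdf x).trans ((hus.deriv x).trans (le_add_of_nonneg_left hbpos.le))⟩
  have hw := B.weak_poincare hP ht εcrit_pos hGm hGs hG hD hfs hbpos fun x => (abs_trunc_le hbpos (u x)).1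
  set mf := ∫ y, f y ∂B.μ with hmf
  have hJf : ∫ x, ‖fderiv ℝ f x‖ ^ 2 ∂B.μ ≤ J :=
    integral_mono (integrable_bdd_comp hfs.bddM_grad) (integrable_bdd_comp hus.bddM_grad)
      fun x => pow_le_pow_left₀ (norm_nonneg _) (hdf x) 2
  set U := s * (L + |m|) + s * L with hU
  have hlb := bddM_sq_mul_log hus.bddM
  have hpt : ∀ x, (u x - mf) ^ 2 ≤ (2 * (f x - mf) ^ 2) +
      ((1 / 8) * u x ^ 2 + (1 / 20) * (u x ^ 2 * log (u x ^ 2) + 1)) := fun x => by
    have h1 : (u x - mf) ^ 2 ≤ 2 * (u x - f x) ^ 2 + 2 * (f x - mf) ^ 2 := by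
      nlinarith [sq_nonneg (u x - 2 * f x + mf)]
    have h2 := (abs_trunc_le hbpos (u x)).2
    have h3 : -1 ≤ u x ^ 2 * log (u x ^ 2) := neg_one_le_mul_log (sq_nonneg _)
    have h4 : (u x - f x) ^ 2 ≤
        (1 / 16) * u x ^ 2 + (1 / 40) * (u x ^ 2 * log (u x ^ 2) + 1) := by
      rcases le_or_gt (u x ^ 2) (exp 40) with hy | hy
      · have h5 : (u x / b) ^ 4 ≤ 1 / 16 := by
          have e : (u x / b) ^ 4 = (u x ^ 2 / b ^ 2) ^ 2 := by ring
          rw [e]
          have hb2 : b ^ 2 = 4 * exp 40 := by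
            rw [hb, mul_pow, ← exp_nat_mul]; norm_num
          have h6 : u x ^ 2 / b ^ 2 ≤ 1 / 4 := by
            rw [div_le_iff₀ (by positivity), hb2]; linarith
          calc _ ≤ (1 / 4 : ℝ) ^ 2 := pow_le_pow_left₀ (by positivity) h6 2
            _ = _ := by norm_num
        have h7 := h2.trans
          (mul_le_mul_of_nonneg_left ((min_le_right _ _).trans h5) (sq_nonneg _))
        linarith
      · have h5 : 40 ≤ log (u x ^ 2) := ((lt_log_iff_exp_lt ((exp_pos _).trans hy)).2 hy).le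
        have h7 := h2.trans (mul_le_of_le_one_right (sq_nonneg _) (min_le_left _ _))
        nlinarith [sq_nonneg (u x)]
    linarith
  have i1 := (integrable_bdd_comp (ν := B.μ) (hfs.bddM.sub_const mf).sq).const_mul 2
  have i2 := (integrable_bdd_comp (ν := B.μ) hus.bddM.sq).const_mul (1 / 8)
  have i3 : Integrable (fun x => (1 / 20) * (u x ^ 2 * log (u x ^ 2) + 1)) B.μ :=
    ((integrable_bdd_comp hlb).add (integrable_const 1)).const_mul _
  have h8 := integral_mono (μ := B.μ) (integrable_bdd_comp (hus.bddM.sub_const mf).sq)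
    (i1.add (i2.add i3)) hpt
  rw [integral_add' i1 (i2.add i3), integral_add' i2 i3, integral_const_mul, integral_const_mul,
    integral_const_mul, hu1, integral_add (integrable_bdd_comp hlb) (integrable_const 1),
    integral_const, probReal_univ, one_smul] at h8
  have h9 : 1 ≤ ∫ x, (u x - mf) ^ 2 ∂B.μ := by
    have e : ∀ x, (u x - mf) ^ 2 = u x ^ 2 + (-(2 * mf)) * u x + mf ^ 2 := fun x => by ring
    simp only [e]
    rw [integral_add (f := fun x => u x ^ 2 + (-(2 * mf)) * u x) (g := fun _ => mf ^ 2)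
      ((integrable_bdd_comp hus.bddM.sq).add ((integrable_bdd_comp hus.bddM).const_mul _))
      (integrable_const _), integral_add (integrable_bdd_comp hus.bddM.sq)
      ((integrable_bdd_comp hus.bddM).const_mul _), integral_const_mul, hu0, hu1, integral_const,
      probReal_univ, one_smul]
    linarith [sq_nonneg mf]
  have h10 : 1600 * exp 14 * εcrit * b ^ 2 = 1 / 16 := by
    rw [hb, mul_pow, ← exp_nat_mul, εcrit]
    norm_num
    field_simp
    ring
  rw [h10] at hw
  have h11 : t⁻¹ * ∫ x, ‖fderiv ℝ f x‖ ^ 2 ∂B.μ ≤ t⁻¹ * J :=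
    mul_le_mul_of_nonneg_left hJf (by positivity)
  have h12 : 8 / (t / 12) * J = 96 * (t⁻¹ * J) := by field_simp; ring
  have h13 : 1 ≤ 13 * (t⁻¹ * J) := by linarith
  rw [hJI] at h13
  calc v = v * 1 := (mul_one v).symm
    _ ≤ v * (13 * (t⁻¹ * (s ^ 2 * I))) := mul_le_mul_of_nonneg_left h13 hvpos.le
    _ = (s ^ 2 * v) * (13 / t * I) := by ring
    _ = _ := by rw [hs2, one_mul]

end Base

end Vale.Agent.P245.Local
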