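import Vale.Agent.P245.Local.Chain

/-!
# P245: from the infimal-convolution property to a defective log-Sobolev inequality
-/

open MeasureTheory Real Set Filter
open scoped RealInnerProductSpace ENNReal Topology

noncomputable section

namespace Vale.Agent.P245.Local

variable {n : ℕ}

/-- entropy -/
def entr (ν : Measure (E n)) (h : E n → ℝ) : ℝ :=
  (∫ x, h x * log (h x) ∂ν) - (∫ x, h x ∂ν) * log (∫ x, h x ∂ν)

/-- Fisher information -/
def fisher (ν : Measure (E n)) (h : E n → ℝ) : ℝ := ∫ x, ‖fderiv ℝ h x‖ ^ 2 / h x ∂ν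

/-- positive bounded `C¹` test function -/
structure Nice (h : E n → ℝ) (η K : ℝ) : Prop where
  smooth : ContDiff ℝ 1 h
  pos : 0 < η
  lo : ∀ x, η ≤ h x
  hi : ∀ x, h x ≤ K
  deriv : ∀ x, ‖fderiv ℝ h x‖ ≤ K

/-- log-Sobolev inequality of strongly log-concave measures (proved separately) -/
def LsiStrongProp (n : ℕ) : Prop :=
  ∀ (B : Base n) {t : ℝ}, 0 < t → B.Strong t → ∀ {h : E n → ℝ}, ContDiff ℝ 1 h →
    ∀ {η K : ℝ}, 0 < η → (∀ x, η ≤ h x) → (∀ x, h x ≤ K) → (∀ x, ‖fderiv ℝ h x‖ ≤ K) →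
    (∫ x, h x * log (h x) ∂B.μ) - (∫ x, h x ∂B.μ) * log (∫ x, h x ∂B.μ)
      ≤ t⁻¹ * ∫ x, ‖fderiv ℝ h x‖ ^ 2 / h x ∂B.μ

variable {h : E n → ℝ} {η K : ℝ}

theorem Nice.K_pos (hh : Nice h η K) : 0 < K := hh.pos.trans_le ((hh.lo 0).trans (hh.hi 0))

theorem Nice.h_pos (hh : Nice h η K) (x : E n) : 0 < h x := hh.pos.trans_le (hh.lo x)

theorem Nice.bddM (hh : Nice h η K) : BddM h K :=
  ⟨hh.smooth.continuous.measurable, fun x => by rw [abs_of_pos (hh.h_pos x)]; exact hh.hi x⟩

theorem Nice.bddM_log (hh : Nice h η K) : BddM (fun x => log (h x)) (|log η| + |log K|) :=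
  ⟨hh.smooth.continuous.measurable.log, fun x => by
    have h1 := log_le_log hh.pos (hh.lo x)
    have h2 := log_le_log (hh.h_pos x) (hh.hi x)
    rw [abs_le]
    constructor <;> cases abs_cases (log η) <;> cases abs_cases (log K) <;> linarith⟩

theorem BddM.mul {f g : E n → ℝ} {K L : ℝ} (hf : BddM f K) (hg : BddM g L) :
    BddM (fun x => f x * g x) (K * L) :=
  ⟨hf.1.mul hg.1, fun x => by
    rw [abs_mul]; exact mul_le_mul (hf.2 x) (hg.2 x) (abs_nonneg _) hf.nonneg⟩

theorem Nice.bddM_fisher (hh : Nice h η K) :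
    BddM (fun x => ‖fderiv ℝ h x‖ ^ 2 / h x) (K ^ 2 / η) :=
  ⟨((hh.smooth.continuous_fderiv one_ne_zero).norm.pow 2).measurable.div
    hh.smooth.continuous.measurable, fun x => by
    have hx := hh.h_pos x
    rw [abs_of_nonneg (by positivity)]
    exact div_le_div₀ (sq_nonneg K) (pow_le_pow_left₀ (norm_nonneg _) (hh.deriv x) 2) hh.pos
      (hh.lo x)⟩

theorem Nice.scale (hh : Nice h η K) {c : ℝ} (hc : 0 < c) :
    Nice (fun x => c * h x) (c * η) (c * K) where
  smooth := contDiff_const.mul hh.smooth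
  pos := mul_pos hc hh.pos
  lo x := mul_le_mul_of_nonneg_left (hh.lo x) hc.le
  hi x := mul_le_mul_of_nonneg_left (hh.hi x) hc.le
  deriv x := by
    rw [fderiv_const_mul (hh.smooth.differentiable one_ne_zero x), norm_smul, norm_eq_abs,
      abs_of_pos hc]
    exact mul_le_mul_of_nonneg_left (hh.deriv x) hc.le

theorem fisher_scale (ν : Measure (E n)) (hh : Nice h η K) {c : ℝ} (hc : 0 < c) :
    fisher ν (fun x => c * h x) = c * fisher ν h := by
  rw [fisher, fisher, ← integral_const_mul]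
  congr 1; funext x
  rw [fderiv_const_mul (hh.smooth.differentiable one_ne_zero x), norm_smul, norm_eq_abs,
    abs_of_pos hc]
  have := hh.h_pos x
  field_simp

theorem integral_nice_pos (ν : Measure (E n)) [IsProbabilityMeasure ν] (hh : Nice h η K) :
    0 < ∫ x, h x ∂ν := by
  refine hh.pos.trans_le ?_
  simpa using integral_mono (μ := ν) (integrable_const η) (integrable_bdd_comp hh.bddM) hh.lo

theorem entr_scale (ν : Measure (E n)) [IsProbabilityMeasure ν] (hh : Nice h η K) {c : ℝ}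
    (hc : 0 < c) : entr ν (fun x => c * h x) = c * entr ν h := by
  have h1 : ∀ x, c * h x * log (c * h x) = (c * log c) * h x + c * (h x * log (h x)) := fun x => by
    rw [log_mul hc.ne' (hh.h_pos x).ne']; ring
  rw [entr, entr]
  simp only [h1]
  rw [integral_add ((integrable_bdd_comp hh.bddM).const_mul _)
    ((integrable_bdd_comp (hh.bddM.mul hh.bddM_log)).const_mul c), integral_const_mul,
    integral_const_mul, integral_const_mul, log_mul hc.ne' (integral_nice_pos ν hh).ne']
  ring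

theorem donsker_entropy (ν : Measure (E n)) [IsProbabilityMeasure ν] (hh : Nice h η K)
    (h1 : ∫ x, h x ∂ν = 1) {Ψ : E n → ℝ} {L : ℝ} (hΨ : BddM Ψ L) :
    ∫ x, h x * Ψ x ∂ν ≤ entr ν h + log (∫ x, exp (Ψ x) ∂ν) := by
  have hi := integrable_bdd_comp (ν := ν) hΨ.exp
  set S := ∫ x, exp (Ψ x) ∂ν with hS
  have hSpos : 0 < S := (exp_pos _).trans_le (exp_integral_le hΨ)
  have hpt : ∀ x, h x * Ψ x ≤ h x * log (h x) + (log S - 1) * h x + S⁻¹ * exp (Ψ x) := fun x => by
    have hx := hh.h_pos x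
    have h2 := add_one_le_exp (Ψ x - log S - log (h x))
    rw [exp_sub, exp_sub, exp_log hSpos, exp_log hx, le_div_iff₀ hx] at h2
    have : exp (Ψ x) / S = S⁻¹ * exp (Ψ x) := by rw [div_eq_inv_mul]
    linarith
  have i1 : Integrable (fun x => h x * log (h x)) ν := integrable_bdd_comp (hh.bddM.mul hh.bddM_log)
  have i2 : Integrable (fun x => (log S - 1) * h x) ν := (integrable_bdd_comp hh.bddM).const_mul _
  have := integral_mono (integrable_bdd_comp (hh.bddM.mul hΨ)) ((i1.add i2).add (hi.const_mul S⁻¹))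
    hpt
  rw [integral_add' (i1.add i2) (hi.const_mul S⁻¹), integral_add' i1 i2, integral_const_mul,
    integral_const_mul, h1, inv_mul_cancel₀ hSpos.ne'] at this
  rw [entr, h1, log_one]
  linarith

theorem integral_inner_gam (u : E n) : ∫ z, ⟪z, u⟫ ∂gam n = 0 := by
  rw [integral_gam]
  have h := integral_neg_eq_self (μ := (volume : Measure (E n))) (fun z => gdens z * ⟪z, u⟫)
  have h2 : ∀ z : E n, gdens (-z) * ⟪-z, u⟫ = -(gdens z * ⟪z, u⟫) := fun z => by
    simp [gdens, inner_neg_left]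
  simp only [h2, integral_neg] at h
  linarith

theorem integrable_inner_gam (u : E n) : Integrable (fun z => ⟪z, u⟫) (gam n) := by
  refine (integrable_gam_exp (c := 0) (by norm_num) 1).const_mul ‖u‖ |>.mono' (by fun_prop)
    (.of_forall fun z => ?_)
  rw [norm_eq_abs, zero_mul, zero_add, one_mul]
  calc |⟪z, u⟫| ≤ ‖z‖ * ‖u‖ := abs_real_inner_le_norm z u
    _ ≤ exp ‖z‖ * ‖u‖ := by gcongr; linarith [add_one_le_exp ‖z‖]
    _ = _ := mul_comm _ _

open Base (locMap) in
/-- Cameron–Martin lower bound. -/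
theorem shift_lower {t : ℝ} (ht : 0 ≤ t) (x y : E n) {G : E n → ℝ} {L : ℝ} (hG : BddM G L) :
    exp (∫ z, G (locMap t (x, z)) ∂gam n - t / 2 * ‖x - y‖ ^ 2) ≤
      ∫ w, exp (G (locMap t (y, w))) ∂gam n := by
  set u := √t • (x - y) with hu
  have hGx : BddM (fun z => G (locMap t (x, z))) L :=
    ⟨hG.1.comp (by unfold locMap; fun_prop), fun z => hG.2 _⟩
  set P : E n → ℝ := fun z => G (locMap t (x, z)) + (-⟪z, u⟫ + -(‖u‖ ^ 2 / 2)) with hP
  have h1 : ∫ w, exp (G (locMap t (y, w))) ∂gam n = ∫ z, exp (P z) ∂gam n := by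
    rw [integral_gam, integral_gam,
      ← integral_add_right_eq_self (fun w => gdens w * exp (G (locMap t (y, w)))) u]
    congr 1; funext z
    have e1 : locMap t (y, z + u) = locMap t (x, z) := by
      simp only [locMap, hu, smul_add, smul_smul, mul_self_sqrt ht, smul_sub]; abel
    rw [e1, hP, gdens, gdens, mul_assoc, mul_assoc, ← exp_add, ← exp_add, norm_add_sq_real]
    congr 2; ring
  have hPi : Integrable P (gam n) :=
    (integrable_bdd_comp hGx).add ((integrable_inner_gam u).neg.add (integrable_const _))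
  have hPe : Integrable (fun z => exp (P z)) (gam n) := by
    refine ((integrable_gam_exp (n := n) (c := 0) (by norm_num) ‖u‖).const_mul (exp L)).mono'
      ((hGx.1.add (by fun_prop : Measurable fun z : E n => -⟪z, u⟫ + -(‖u‖ ^ 2 / 2))).exp
        ).aestronglyMeasurable (.of_forall fun z => ?_)
    rw [norm_eq_abs, abs_exp, ← exp_add]
    refine exp_le_exp.2 ?_
    have := (abs_le.1 (hGx.2 z)).2
    have := neg_le_of_abs_le (abs_real_inner_le_norm z u)
    have : 0 ≤ ‖u‖ ^ 2 / 2 := by positivity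
    simp only [hP]; linarith [mul_comm ‖z‖ ‖u‖]
  have hJ : exp (∫ z, P z ∂gam n) ≤ ∫ z, exp (P z) ∂gam n :=
    convexOn_exp.map_integral_le continuous_exp.continuousOn isClosed_univ (by simp) hPi hPe
  rw [h1]
  refine le_of_eq_of_le ?_ hJ
  congr 1
  rw [hP, integral_add (integrable_bdd_comp hGx), integral_add, integral_neg, integral_inner_gam,
    integral_const, probReal_univ, one_smul, hu, norm_smul, mul_pow, norm_eq_abs, sq_abs,
    sq_sqrt ht]
  · ring
  · exact (integrable_inner_gam u).neg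
  · exact integrable_const _
  · exact (integrable_inner_gam u).neg.add (integrable_const _)

namespace Base

variable (B : Base n)

/-- `Ent_q` of the tilted average is at most half the entropy plus a defect. -/
theorem entr_qmeas_le {t δ : ℝ} (ht : 0 < t) (hD : B.DProp t δ) (hh : Nice h η K)
    (h1 : ∫ x, h x ∂B.μ = 1) :
    ∫ θ, B.avg t θ h * log (B.avg t θ h) ∂B.qmeas t ≤ (entr B.μ h + δ) / 2 := by
  have hKp := hh.K_pos
  set M : E n → ℝ := fun θ => B.avg t θ h with hM
  set L := |log η| + |log K| with hL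
  have hMlo : ∀ θ, η ≤ M θ := fun θ => by
    calc η = B.avg t θ fun _ => η := (B.avg_const ht.le θ η).symm
      _ ≤ _ := B.avg_mono_bdd ht.le θ (K := η) ⟨measurable_const, fun _ => by
          rw [abs_of_pos hh.pos]⟩ hh.bddM hh.lo
  have hMhi : ∀ θ, M θ ≤ K := fun θ => (abs_le.1 (B.abs_avg_le_bdd ht.le θ hh.bddM)).2
  have hMm : Measurable M :=
    (B.continuous_avg ht.le hh.bddM.1.aestronglyMeasurable (expGrowth_bounded hh.bddM.2)).measurable
  have hlogM : BddM (fun θ => log (M θ)) L := by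
    refine ⟨hMm.log, fun θ => ?_⟩
    have a := log_le_log hh.pos (hMlo θ)
    have b := log_le_log (hh.pos.trans_le (hMlo θ)) (hMhi θ)
    rw [hL, abs_le]
    constructor <;> cases abs_cases (log η) <;> cases abs_cases (log K) <;> linarith
  set Φ : E n → ℝ := fun x => ∫ z, log (M (locMap t (x, z))) ∂gam n with hΦ
  set R : E n → ℝ := fun y => log (∫ w, M (locMap t (y, w)) ∂gam n) with hR
  have hslice : ∀ y : E n, BddM (fun w => log (M (locMap t (y, w)))) L := fun y =>
    ⟨hlogM.1.comp (by unfold locMap; fun_prop), fun w => hlogM.2 _⟩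
  have hΦb : BddM Φ L :=
    ⟨((hlogM.1.comp (measurable_locMap t)).stronglyMeasurable.integral_prod_right'
      (f := fun p : E n × E n => log (M (locMap t p)))).measurable, fun x => by
      rw [← norm_eq_abs]
      simpa using norm_integral_le_of_norm_le_const (μ := gam n) (C := L)
        (f := fun z => log (M (locMap t (x, z)))) (.of_forall fun z => by simpa using (hslice x).2 z)⟩
  have hexp : ∀ y, ∫ w, M (locMap t (y, w)) ∂gam n = ∫ w, exp (log (M (locMap t (y, w)))) ∂gam n :=
    fun y => by congr 1; funext w; rw [exp_log (hh.pos.trans_le (hMlo _))]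
  have hRb : BddM R L := by
    refine ⟨((hMm.comp (measurable_locMap t)).stronglyMeasurable.integral_prod_right'
      (f := fun p : E n × E n => M (locMap t p))).measurable.log, fun y => ?_⟩
    have a : exp (-L) ≤ ∫ w, M (locMap t (y, w)) ∂gam n := by
      rw [hexp y]
      simpa using integral_mono (μ := gam n) (integrable_const (exp (-L)))
        (integrable_bdd_comp (hslice y).exp) fun w => exp_le_exp.2 (abs_le.1 ((hslice y).2 w)).1
    have b : ∫ w, M (locMap t (y, w)) ∂gam n ≤ exp L := by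
      rw [hexp y]
      simpa using integral_mono (μ := gam n) (integrable_bdd_comp (hslice y).exp)
        (integrable_const (exp L)) fun w => exp_le_exp.2 (abs_le.1 ((hslice y).2 w)).2
    rw [hR, abs_le, le_log_iff_exp_le ((exp_pos _).trans_le a),
      log_le_iff_le_exp ((exp_pos _).trans_le a)]
    exact ⟨a, b⟩
  have hRpos : ∀ y, 0 < ∫ w, M (locMap t (y, w)) ∂gam n := fun y => by
    rw [hexp y]; exact (exp_pos _).trans_le (exp_integral_le (hslice y))
  have hRint : ∫ y, exp (R y) ∂B.μ = 1 := by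
    have e : ∀ y, exp (R y) = ∫ w, M (locMap t (y, w)) ∂gam n := fun y => exp_log (hRpos y)
    simp only [e]
    rw [← B.integral_qmeas (K := K) ⟨hMm, fun θ => by
      rw [abs_of_pos (hh.pos.trans_le (hMlo θ))]; exact hMhi θ⟩]
    simpa [hM, h1] using B.qavg_avg_bdd ht.le hh.bddM (G := fun _ => (1 : ℝ)) (L := 1)
      ⟨measurable_const, fun _ => by simp⟩
  have hR2 : BddM (fun y => 2 * R y) (|(2:ℝ)| * L) := hRb.const_mul 2
  have hΦ2 : ∀ x, 2 * Φ x ≤ Qc t (fun y => 2 * R y) x := fun x => le_Qc fun y => by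
    have h2 := shift_lower ht.le x y hlogM
    rw [← hexp y] at h2
    have h3 := (le_log_iff_exp_le (hRpos y)).2 h2
    simp only [hΦ, hR]; linarith
  have hS : ∫ x, exp (2 * Φ x) ∂B.μ ≤ exp δ := by
    refine (integral_mono (integrable_bdd_comp (hΦb.const_mul 2).exp)
      (integrable_bdd_comp (bddM_Qc ht.le hR2).exp) fun x => exp_le_exp.2 (hΦ2 x)).trans
      ((hD _ _ hR2).trans (exp_le_exp.2 ?_))
    have hER : ∫ y, R y ∂B.μ ≤ 0 := by
      have := exp_integral_le (ν := B.μ) hRb
      rw [hRint] at this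
      exact exp_le_one_iff.1 this
    rw [integral_const_mul]; linarith
  have hq : ∫ θ, B.avg t θ h * log (B.avg t θ h) ∂B.qmeas t = ∫ x, h x * Φ x ∂B.μ :=
    B.qavg_avg_bdd ht.le hh.bddM hlogM
  have h2 := donsker_entropy B.μ hh h1 (hΦb.const_mul 2)
  have h3 : ∫ x, h x * (2 * Φ x) ∂B.μ = 2 * ∫ x, h x * Φ x ∂B.μ := by
    rw [← integral_const_mul]; congr 1; funext x; ring
  rw [h3] at h2
  have h4 : log (∫ x, exp (2 * Φ x) ∂B.μ) ≤ δ :=
    (log_le_iff_le_exp ((exp_pos _).trans_le (exp_integral_le (hΦb.const_mul 2)))).2 hS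
  rw [hq]; linarith

theorem integral_qmeas_avg {t : ℝ} (ht : 0 ≤ t) {F : E n → ℝ} {L : ℝ} (hF : BddM F L) :
    ∫ θ, B.avg t θ F ∂B.qmeas t = ∫ x, F x ∂B.μ := by
  simpa using B.qavg_avg_bdd ht hF (G := fun _ => (1 : ℝ)) (L := 1)
    ⟨measurable_const, fun _ => by simp⟩

/-- defective log-Sobolev inequality -/
theorem defective_lsi (hL : LsiStrongProp n) {c δ : ℝ} (hc : 0 < c) (hD : B.DProp c δ)
    (hh : Nice h η K) :
    entr B.μ h ≤ 2 / c * fisher B.μ h + δ * ∫ x, h x ∂B.μ := by
  set m := ∫ x, h x ∂B.μ with hm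
  have hmpos : 0 < m := integral_nice_pos B.μ hh
  set g : E n → ℝ := fun x => m⁻¹ * h x with hgdef
  have hg : Nice g (m⁻¹ * η) (m⁻¹ * K) := hh.scale (inv_pos.2 hmpos)
  have hg1 : ∫ x, g x ∂B.μ = 1 := by rw [integral_const_mul, ← hm, inv_mul_cancel₀ hmpos.ne']
  have key : entr B.μ g ≤ 2 / c * fisher B.μ g + δ := by
    have hq := B.entr_qmeas_le hc hD hg hg1
    have hb1 := hg.bddM.mul hg.bddM_log
    have e1 := B.integral_qmeas_avg hc.le hb1
    have e2 := B.integral_qmeas_avg hc.le hg.bddM_fisher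
    have hcont : ∀ {F : E n → ℝ} {L : ℝ}, BddM F L → BddM (fun θ => B.avg c θ F) L :=
      fun {F L} hF => ⟨(B.continuous_avg hc.le hF.1.aestronglyMeasurable
        (expGrowth_bounded hF.2)).measurable, fun θ => B.abs_avg_le_bdd hc.le θ hF⟩
    have hMl : BddM (fun θ => B.avg c θ g * log (B.avg c θ g))
        (m⁻¹ * K * (|log (m⁻¹ * η)| + |log (m⁻¹ * K)|)) := by
      refine (hcont hg.bddM).mul ⟨(hcont hg.bddM).1.log, fun θ => ?_⟩
      have a : m⁻¹ * η ≤ B.avg c θ g := by
        calc _ = B.avg c θ fun _ => m⁻¹ * η := (B.avg_const hc.le θ _).symm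
          _ ≤ _ := B.avg_mono_bdd hc.le θ (K := m⁻¹ * η) ⟨measurable_const, fun _ => by
              rw [abs_of_pos hg.pos]⟩ hg.bddM hg.lo
      have b := (abs_le.1 (B.abs_avg_le_bdd hc.le θ hg.bddM)).2
      have a' := log_le_log hg.pos a
      have b' := log_le_log (hg.pos.trans_le a) b
      rw [abs_le]
      constructor <;> cases abs_cases (log (m⁻¹ * η)) <;> cases abs_cases (log (m⁻¹ * K)) <;>
        linarith
    have hpt : ∀ θ, B.avg c θ (fun x => g x * log (g x)) ≤
        c⁻¹ * B.avg c θ (fun x => ‖fderiv ℝ g x‖ ^ 2 / g x) +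
          B.avg c θ g * log (B.avg c θ g) := fun θ => by
      have hs : (B.tilt c hc.le θ).Strong c := by
        simpa using B.strong_tilt B.strong_zero c hc.le θ
      have := hL (B.tilt c hc.le θ) hc hs hg.smooth hg.pos hg.lo hg.hi hg.deriv
      simp only [B.integral_tilt] at this
      linarith
    have := integral_mono (μ := B.qmeas c) (integrable_bdd_comp (hcont hb1))
      (((integrable_bdd_comp (hcont hg.bddM_fisher)).const_mul c⁻¹).add (integrable_bdd_comp hMl))
      hpt
    rw [integral_add' ((integrable_bdd_comp (hcont hg.bddM_fisher)).const_mul c⁻¹)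
      (integrable_bdd_comp hMl), integral_const_mul, e1, e2] at this
    have he : entr B.μ g = ∫ x, g x * log (g x) ∂B.μ := by rw [entr, hg1, log_one]; ring
    rw [he] at hq ⊢
    rw [fisher, div_eq_mul_inv]
    linarith
  rw [hgdef, entr_scale B.μ hh (inv_pos.2 hmpos), fisher_scale B.μ hh (inv_pos.2 hmpos)] at key
  have := mul_le_mul_of_nonneg_left key hmpos.le
  rw [mul_add, ← mul_assoc, mul_inv_cancel₀ hmpos.ne', one_mul] at this
  calc entr B.μ h ≤ _ := this
    _ = _ := by field_simp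

end Base

end Vale.Agent.P245.Local
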