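import Mathlib

/-!
# P245: Gaussian localisation of a log-concave measure — definitions

`B : Base n` is a `C²` log-concave probability density `exp (-V)` with bounded Hessian and a
Gaussian tail.  `Z t θ = ∫ exp (⟪θ,x⟫ - t‖x‖²/2) dμ`, `avg t θ` is the expectation in the
normalised tilted measure `μ_{θ,t}`, and `qavg t F = E F (t X + √t G)` with `X ∼ μ`, `G` standard
Gaussian, is the law of the localisation parameter `θ` at time `t`.
-/

open MeasureTheory Real Set
open scoped RealInnerProductSpace ENNReal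

noncomputable section

namespace Vale.Agent.P245.Local

/-- `ℝⁿ` with the Euclidean norm. -/
abbrev E (n : ℕ) := EuclideanSpace ℝ (Fin n)

/-- Standard Gaussian density. -/
def gdens {n : ℕ} (z : E n) : ℝ := (√(2 * π) ^ n)⁻¹ * exp (-(‖z‖ ^ 2 / 2))

/-- Standard Gaussian measure on `ℝⁿ`. -/
def gam (n : ℕ) : Measure (E n) := volume.withDensity fun z => ENNReal.ofReal (gdens z)

/-- The Hessian as a bilinear map. -/
def hess {n : ℕ} (V : E n → ℝ) (x v w : E n) : ℝ := fderiv ℝ (fderiv ℝ V) x v w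

/-- A regular log-concave probability density `exp (-V)`. -/
structure Base (n : ℕ) where
  /-- potential -/
  V : E n → ℝ
  smooth : ContDiff ℝ 2 V
  convex : ConvexOn ℝ univ V
  hessBound : ∃ M : ℝ, ∀ x v, hess V x v v ≤ M * ‖v‖ ^ 2
  mass : ∫ x, exp (-V x) = 1
  tail : ∃ α : ℝ, 0 < α ∧ Integrable fun x => exp (α * ‖x‖ ^ 2 - V x)

/-- At most exponential growth. -/
def ExpGrowth {n : ℕ} (F : E n → ℝ) : Prop := ∃ K k : ℝ, ∀ x, |F x| ≤ K * exp (k * ‖x‖)

namespace Base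

variable {n : ℕ} (B : Base n)

/-- density -/
def rho (x : E n) : ℝ := exp (-B.V x)

/-- the measure -/
def μ : Measure (E n) := volume.withDensity fun x => ENNReal.ofReal (B.rho x)

/-- localisation weight -/
def W (t : ℝ) (θ x : E n) : ℝ := exp (⟪θ, x⟫ - t / 2 * ‖x‖ ^ 2)

/-- partition function -/
def Z (t : ℝ) (θ : E n) : ℝ := ∫ x, W t θ x ∂B.μ

/-- unnormalised tilted integral -/
def num (t : ℝ) (θ : E n) (F : E n → ℝ) : ℝ := ∫ x, W t θ x * F x ∂B.μ

/-- tilted expectation -/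
def avg (t : ℝ) (θ : E n) (F : E n → ℝ) : ℝ := B.num t θ F / B.Z t θ

/-- tilted variance -/
def varAt (t : ℝ) (θ : E n) (F : E n → ℝ) : ℝ :=
  B.avg t θ fun x => (F x - B.avg t θ F) ^ 2

/-- tilted mean -/
def mean (t : ℝ) (θ : E n) : E n := (B.Z t θ)⁻¹ • ∫ x, W t θ x • x ∂B.μ

/-- log partition function -/
def Lam (t : ℝ) (θ : E n) : ℝ := log (B.Z t θ)

/-- Bregman divergence of `Lam` at `g` in direction `u`. -/
def breg (t : ℝ) (g u : E n) : ℝ := B.Lam t (g + u) - B.Lam t g - ⟪B.mean t g, u⟫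

/-- the localisation map -/
def locMap (t : ℝ) (p : E n × E n) : E n := t • p.1 + √t • p.2

/-- law of `θ` at time `t` -/
def qmeas (t : ℝ) : Measure (E n) := (B.μ.prod (gam n)).map (locMap t)

/-- expectation in the law of `θ` at time `t` -/
def qavg (t : ℝ) (F : E n → ℝ) : ℝ := ∫ θ, F θ ∂B.qmeas t

/-- `V` is `t`-strongly convex. -/
def Strong (t : ℝ) : Prop := ∀ x v, t * ‖v‖ ^ 2 ≤ hess B.V x v v

/-- normalised linear subgaussianity, `a = 1` -/
def Subg : Prop :=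
  ∀ θ : E n, ‖θ‖ = 1 → ∫⁻ x, ENNReal.ofReal (exp (⟪x, θ⟫ ^ 2)) ∂B.μ ≤ 2

/-- centred -/
def Centred : Prop := ∀ v : E n, ∫ x, ⟪v, x⟫ ∂B.μ = 0

/-- directional covariance bound for `μ_{θ,t}` -/
def CovLe (t : ℝ) (θ : E n) (R : ℝ) : Prop :=
  ∀ v : E n, B.varAt t θ (fun x => ⟪v, x⟫) ≤ R * ‖v‖ ^ 2

end Base

end Vale.Agent.P245.Local
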