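import Vale.Agent.P245.Local.Third

/-!
# P245: the covariance of the localisation stays bounded up to time `c n^{-1/3}`
-/

open MeasureTheory Real Set Matrix
open scoped RealInnerProductSpace ENNReal

noncomputable section

namespace Vale.Agent.P245.Local

variable {n : ℕ}

theorem subg_sq_le {B : Base n} (hB : B.Subg) (v : E n) (hv : ‖v‖ = 1) :
    ∫ x, ⟪v, x⟫ ^ 2 ∂B.μ ≤ 1 := by
  have h := hB v hv
  have hm : AEStronglyMeasurable (fun x : E n => exp (⟪x, v⟫ ^ 2)) B.μ :=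
    (by fun_prop : Continuous fun x : E n => exp (⟪x, v⟫ ^ 2)).aestronglyMeasurable
  have hnn : 0 ≤ᵐ[B.μ] fun x : E n => exp (⟪x, v⟫ ^ 2) := .of_forall fun x => (exp_pos _).le
  have hi : Integrable (fun x : E n => exp (⟪x, v⟫ ^ 2)) B.μ := by
    refine ⟨hm, (hasFiniteIntegral_iff_ofReal hnn).2 (lt_of_le_of_lt h ?_)⟩
    exact ENNReal.ofNat_lt_top
  have h2 : ∫ x, exp (⟪x, v⟫ ^ 2) ∂B.μ ≤ 2 := by
    rw [integral_eq_lintegral_of_nonneg_ae hnn hm]
    exact (ENNReal.toReal_mono (by simp) h).trans_eq (by simp)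
  have hq : Integrable (fun x => ⟪v, x⟫ ^ 2) B.μ := B.good_integrable (Good.inner v).sq
  calc ∫ x, ⟪v, x⟫ ^ 2 ∂B.μ ≤ ∫ x, (exp (⟪x, v⟫ ^ 2) - 1) ∂B.μ :=
        integral_mono hq (hi.sub (integrable_const _)) fun x => by
          rw [real_inner_comm v x]; linarith [add_one_le_exp (⟪v, x⟫ ^ 2)]
    _ ≤ 1 := by
        rw [integral_sub hi (integrable_const _), integral_const]
        simp only [probReal_univ, one_smul]
        linarith

namespace Base

variable (B : Base n) {t : ℝ}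

/-- jets of the entries of powers of the covariance matrix -/
def powJ : ℕ → Fin n → Fin n → Jet n
  | 0, i, j => Jet.const n (if i = j then 1 else 0)
  | m + 1, i, j => Jet.sum Finset.univ fun l => (powJ m i l).mul (B.covJ l j)

/-- jet of `tr A ^ q` -/
def phiJ (q : ℕ) : Jet n := Jet.sum Finset.univ fun i => B.powJ q i i

theorem jok_powJ : ∀ m i j, B.JOk (B.powJ m i j)
  | 0, i, j => jok_const B _
  | m + 1, i, j => JOk.sum _ fun l _ => (jok_powJ m i l).mul (B.jok_covJ l j)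

theorem jok_phiJ (q : ℕ) : B.JOk (B.phiJ q) := JOk.sum _ fun i _ => B.jok_powJ q i i

theorem powJ_val (t : ℝ) (θ : E n) : ∀ m i j, (B.powJ m i j).val t θ = (B.covM t θ ^ m) i j
  | 0, i, j => by simp [powJ, Jet.const, Matrix.one_apply]
  | m + 1, i, j => by
    simp only [powJ, Jet.sum, Jet.mul, powJ_val t θ m, pow_succ, Matrix.mul_apply]
    rfl

theorem powJ_d1 (t : ℝ) (θ : E n) :
    ∀ m i j k, (B.powJ m i j).d1 k t θ = pD (B.covM t θ) (B.thirdM t θ) m k i j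
  | 0, i, j, k => by simp [powJ, Jet.const, pD]
  | m + 1, i, j, k => by
    simp only [powJ, Jet.sum, Jet.mul, powJ_d1 t θ m, B.powJ_val t θ m, pD, Matrix.add_apply,
      Matrix.mul_apply, Finset.sum_add_distrib]
    rfl

theorem powJ_gen (ht : 0 ≤ t) (θ : E n) :
    ∀ m i j, B.drift (B.powJ m i j) t θ = pL (B.covM t θ) (B.thirdM t θ) m i j
  | 0, i, j => by simp [powJ, drift_const, pL]
  | m + 1, i, j => by
    simp only [powJ, B.drift_sum, B.drift_mul, powJ_gen ht θ m, B.powJ_val t θ m, B.powJ_d1 t θ m,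
      B.drift_covJ ht, pL, Matrix.add_apply, Matrix.mul_apply, Matrix.sum_apply,
      Finset.sum_add_distrib]
    congr 1
    rw [Finset.sum_comm]
    rfl

theorem phiJ_val (q : ℕ) (t : ℝ) (θ : E n) : (B.phiJ q).val t θ = (B.covM t θ ^ q).trace := by
  simp [phiJ, Jet.sum, powJ_val, Matrix.trace]

theorem drift_phiJ (ht : 0 ≤ t) (q : ℕ) (θ : E n) :
    B.drift (B.phiJ q) t θ = (pL (B.covM t θ) (B.thirdM t θ) q).trace := by
  simp [phiJ, drift_sum, B.powJ_gen ht, Matrix.trace]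

/-- eigenvalues of the covariance -/
theorem exists_eigen (ht : 0 ≤ t) (θ : E n) :
    ∃ (U : Mat n) (l : Fin n → ℝ), U * Uᵀ = 1 ∧ Uᵀ * U = 1 ∧
      conjU U (B.covM t θ) = diagonal l ∧ (∀ i, 0 ≤ l i) ∧
      (∀ i, (fun a => U a i) ⬝ᵥ (B.covM t θ *ᵥ fun a => U a i) = l i) ∧
      ∀ q, (B.phiJ q).val t θ = ∑ i, l i ^ q := by
  obtain ⟨U, l, hU, hU', hA⟩ := exists_diag _ (B.covM_symm t θ)
  have he : ∀ i, (fun a => U a i) ⬝ᵥ (B.covM t θ *ᵥ fun a => U a i) = l i := fun i => by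
    rw [← conjU_diag_apply, hA, diagonal_apply_eq]
  refine ⟨U, l, hU, hU', hA, fun i => by rw [← he i]; exact B.quad_nonneg ht θ _, he, fun q => ?_⟩
  rw [phiJ_val, ← trace_conjU hU, conjU_pow hU hU', hA, diagonal_pow]
  simp [Matrix.trace]

theorem phiJ_nonneg (ht : 0 ≤ t) (θ : E n) (q : ℕ) : 0 ≤ (B.phiJ q).val t θ := by
  obtain ⟨U, l, -, -, -, hl, -, hphi⟩ := B.exists_eigen ht θ
  rw [hphi]
  exact Finset.sum_nonneg fun i _ => pow_nonneg (hl i) q

theorem covLe_of_phi_le (ht : 0 ≤ t) (θ : E n) {q : ℕ} (hq : q ≠ 0) {R : ℝ} (hR : 0 ≤ R)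
    (h : (B.phiJ q).val t θ ≤ R ^ q) : B.CovLe t θ R := by
  obtain ⟨U, l, hU, -, hA, hl, -, hphi⟩ := B.exists_eigen ht θ
  rw [hphi] at h
  have hle : ∀ i, l i ≤ R := fun i => by
    refine (pow_le_pow_iff_left₀ (hl i) hR hq).1 (le_trans ?_ h)
    exact Finset.single_le_sum (fun j _ => pow_nonneg (hl j) q) (Finset.mem_univ i)
  intro v
  rw [B.varAt_inner_eq ht]
  refine (quad_le_of_diag hU hA hle _).trans_eq ?_
  rw [EuclideanSpace.norm_sq_eq]
  simp [dotProduct, Real.norm_eq_abs, sq_abs, pow_two]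

theorem drift_phi_le (ht : 0 < t) (hn : 1 ≤ n) (θ : E n) {p : ℕ} (hp : 1 ≤ p) :
    B.drift (B.phiJ (p + 2)) t θ ≤ 16 * (p + 2 : ℝ) ^ 2 * (n : ℝ) ^ (1 / ((p : ℝ) + 2)) / √t *
      ((B.phiJ (p + 2)).val t θ * (B.phiJ (p + 2)).val t θ ^ (1 / (2 * ((p : ℝ) + 2)))) := by
  obtain ⟨U, l, hU, hU', hA, hl, he, hphi⟩ := B.exists_eigen ht.le θ
  rw [B.drift_phiJ ht.le, hphi]
  set Φ := ∑ i, l i ^ (p + 2) with hΦ
  have hΦ0 : 0 ≤ Φ := Finset.sum_nonneg fun i _ => pow_nonneg (hl i) _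
  set r := Φ ^ (1 / (2 * ((p : ℝ) + 2))) with hr
  have hr0 : 0 ≤ r := rpow_nonneg hΦ0 _
  have hr2 : (r ^ 2) ^ (p + 2) = Φ := by
    rw [← pow_mul, hr, ← rpow_natCast, ← rpow_mul hΦ0]
    push_cast
    rw [one_div, inv_mul_cancel₀ (by positivity), rpow_one]
  have hle : ∀ i, l i ≤ r ^ 2 := fun i => by
    refine (pow_le_pow_iff_left₀ (hl i) (sq_nonneg r) (by omega : p + 2 ≠ 0)).1 ?_
    rw [hr2]
    exact Finset.single_le_sum (fun j _ => pow_nonneg (hl j) (p + 2)) (Finset.mem_univ i)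
  have hsqrt : √(r ^ 2 / t) = r / √t := by rw [sqrt_div (sq_nonneg r), sqrt_sq hr0]
  have hS : ∀ i, ∑ k, ∑ a, (Uᵀ * B.thirdM t θ k) i a ^ 2 ≤ 4 * l i * r ^ 2 * (r / √t) := fun i => by
    have := B.third_le ht θ (sq_nonneg r) (quad_le_of_diag hU hA hle) fun a => U a i
    rw [he i, hsqrt] at this
    simpa [Matrix.mul_apply] using this
  refine (trace_pL_le hU hU' hA hl (B.thirdM_symm ht.le θ) p).trans ?_
  calc 2 * (p + 2 : ℝ) ^ 2 * ∑ i, l i ^ p * ∑ k, ∑ a, (Uᵀ * B.thirdM t θ k) i a ^ 2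
      ≤ 2 * (p + 2 : ℝ) ^ 2 * ∑ i, l i ^ p * (4 * l i * r ^ 2 * (r / √t)) := by
        gcongr with i _
        · exact pow_nonneg (hl i) p
        · exact hS i
    _ = 8 * (p + 2 : ℝ) ^ 2 / √t * (r ^ 3 * ∑ i, l i ^ (p + 1)) := by
        simp only [Finset.mul_sum]
        exact Finset.sum_congr rfl fun i _ => by ring
    _ ≤ 8 * (p + 2 : ℝ) ^ 2 / √t * (2 * (n : ℝ) ^ (1 / ((p : ℝ) + 2)) * (Φ * r)) := by
        refine mul_le_mul_of_nonneg_left ?_ (by positivity)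
        rcases hr0.eq_or_lt with h0 | h0
        · rw [← h0]; simp
        set N1 := (n : ℝ) ^ (1 / ((p : ℝ) + 2)) with hN1
        have hn0 : (0 : ℝ) < n := by exact_mod_cast hn
        have hN1p : 0 < N1 := rpow_pos_of_pos hn0 _
        have hN1q : N1 ^ (p + 2) = n := by
          rw [hN1, ← rpow_natCast, ← rpow_mul hn0.le]
          push_cast
          rw [one_div, inv_mul_cancel₀ (by positivity), rpow_one]
        set a := r ^ 2 / N1 with ha
        have ha0 : 0 < a := by positivity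
        have haq : a ^ (p + 2) = Φ / n := by rw [ha, div_pow, hr2, hN1q]
        have hi : ∀ i, l i ^ (p + 1) ≤ l i ^ (p + 2) / a + a ^ (p + 1) := fun i => by
          rcases le_total a (l i) with h | h
          · have : l i ^ (p + 1) ≤ l i ^ (p + 2) / a := by
              rw [le_div_iff₀ ha0, pow_succ (l i) (p + 1)]
              exact mul_le_mul_of_nonneg_left h (pow_nonneg (hl i) _)
            linarith [pow_nonneg ha0.le (p + 1)]
          · have := pow_le_pow_left₀ (hl i) h (p + 1)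
            linarith [div_nonneg (pow_nonneg (hl i) (p + 2)) ha0.le]
        have hsum : ∑ i, l i ^ (p + 1) ≤ Φ / a + n * a ^ (p + 1) := by
          refine (Finset.sum_le_sum fun i _ => hi i).trans_eq ?_
          rw [Finset.sum_add_distrib, ← Finset.sum_div]
          simp [hΦ]
        have e : (n : ℝ) * a ^ (p + 1) = Φ / a := by
          rw [eq_div_iff ha0.ne', mul_assoc, ← pow_succ, haq]
          field_simp
        calc r ^ 3 * ∑ i, l i ^ (p + 1) ≤ r ^ 3 * (Φ / a + Φ / a) :=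
              mul_le_mul_of_nonneg_left (hsum.trans_eq (by rw [e])) (by positivity)
          _ = _ := by rw [ha]; field_simp; ring
    _ = _ := by ring

/-- jet of `ψ = Φ / (1 + Φ / N)` -/
def psiJ (q : ℕ) (N : ℝ) : Jet n :=
  (B.phiJ q).comp (fun y => N * y / (N + y)) (fun y => N ^ 2 / (N + y) ^ 2)
    fun y => -(2 * N ^ 2) / (N + y) ^ 3

theorem jok_psiJ (q : ℕ) {N : ℝ} (hN : 0 < N) : B.JOk (B.psiJ q N) := by
  have hy : ∀ y ∈ Ici (0 : ℝ), 0 < N + y := fun y hy => by have := mem_Ici.1 hy; linarith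
  refine (B.jok_phiJ q).comp (S := Ici 0) (C := N + 1 + 2 / N)
    (fun t ht θ => B.phiJ_nonneg ht θ q) ?_ ?_ ?_ ?_
  · intro y h
    refine (((hasDerivAt_id y).const_mul N).div ((hasDerivAt_id y).const_add N)
      (hy y h).ne').congr_deriv ?_
    simp only [id_eq]; field_simp; ring
  · intro y h
    refine ((hasDerivAt_const y (N ^ 2)).div (((hasDerivAt_id y).const_add N).pow 2)
      (pow_ne_zero 2 (hy y h).ne')).congr_deriv ?_
    have := (hy y h).ne'
    simp only [Pi.pow_apply, id_eq]; field_simp; ring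
  · exact continuousOn_const.div ((continuousOn_const.add continuousOn_id).pow 3)
      fun y h => pow_ne_zero 3 (hy y h).ne'
  · intro y h
    have h0 := hy y h
    have h' : 0 ≤ y := h
    have h2 : 0 < 2 / N := by positivity
    refine ⟨?_, ?_, ?_⟩
    · rw [abs_of_nonneg (by positivity)]
      have : N * y / (N + y) ≤ N := by rw [div_le_iff₀ h0]; nlinarith
      linarith
    · rw [abs_of_nonneg (by positivity)]
      have : N ^ 2 / (N + y) ^ 2 ≤ 1 := by rw [div_le_one (by positivity)]; gcongr; linarith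
      linarith
    · rw [abs_div, abs_neg, abs_of_pos (by positivity : (0 : ℝ) < 2 * N ^ 2),
        abs_of_pos (pow_pos h0 3)]
      have : 2 * N ^ 2 / (N + y) ^ 3 ≤ 2 / N := by
        rw [div_le_div_iff₀ (by positivity) hN]
        have : N ^ 3 ≤ (N + y) ^ 3 := by gcongr; linarith
        nlinarith
      linarith

theorem psiJ_val (q : ℕ) (N t : ℝ) (θ : E n) :
    (B.psiJ q N).val t θ = N * (B.phiJ q).val t θ / (N + (B.phiJ q).val t θ) := rfl

theorem drift_psi_le (ht : 0 < t) (hn : 1 ≤ n) (θ : E n) {p : ℕ} (hp : 1 ≤ p) {N : ℝ} (hN : 0 < N) :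
    B.drift (B.psiJ (p + 2) N) t θ ≤ 16 * (p + 2 : ℝ) ^ 2 * (n : ℝ) ^ (1 / ((p : ℝ) + 2)) *
      N ^ (1 / (2 * ((p : ℝ) + 2))) / √t * (B.psiJ (p + 2) N).val t θ := by
  have hLΦ := B.drift_phi_le ht hn θ hp
  rw [psiJ_val, psiJ, drift_comp]
  set Φ := (B.phiJ (p + 2)).val t θ with hΦ
  have hΦ0 : 0 ≤ Φ := B.phiJ_nonneg ht.le θ _
  have hs : 0 ≤ ∑ k, (B.phiJ (p + 2)).d1 k t θ ^ 2 := Finset.sum_nonneg fun k _ => sq_nonneg _
  have h2 : -(2 * N ^ 2) / (N + Φ) ^ 3 / 2 * ∑ k, (B.phiJ (p + 2)).d1 k t θ ^ 2 ≤ 0 := by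
    refine mul_nonpos_of_nonpos_of_nonneg ?_ hs
    rw [neg_div, neg_div]
    exact neg_nonpos.2 (by positivity)
  set K := 16 * (p + 2 : ℝ) ^ 2 * (n : ℝ) ^ (1 / ((p : ℝ) + 2))
  set δ := 1 / (2 * ((p : ℝ) + 2)) with hδ
  have hδ0 : 0 ≤ δ := by positivity
  have hδ1 : δ ≤ 1 := by rw [hδ, div_le_one (by positivity)]; linarith [(Nat.cast_nonneg p : (0:ℝ) ≤ p)]
  have key : Φ ^ δ * N / (N + Φ) ≤ N ^ δ := by
    rw [div_le_iff₀ (by positivity)]
    rcases le_total Φ N with h | h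
    · calc Φ ^ δ * N ≤ N ^ δ * N :=
            mul_le_mul_of_nonneg_right (rpow_le_rpow hΦ0 h hδ0) hN.le
        _ ≤ _ := mul_le_mul_of_nonneg_left (by linarith) (rpow_nonneg hN.le _)
    · have h1 : (Φ / N) ^ δ ≤ Φ / N := by
        simpa using rpow_le_rpow_of_exponent_le ((one_le_div hN).2 h) hδ1
      rw [div_rpow hΦ0 hN.le, div_le_div_iff₀ (rpow_pos_of_pos hN _) hN] at h1
      calc Φ ^ δ * N ≤ Φ * N ^ δ := h1
        _ = N ^ δ * Φ := mul_comm _ _
        _ ≤ _ := mul_le_mul_of_nonneg_left (by linarith) (rpow_nonneg hN.le _)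
  have hA : 0 ≤ N ^ 2 / (N + Φ) ^ 2 := by positivity
  calc N ^ 2 / (N + Φ) ^ 2 * B.drift (B.phiJ (p + 2)) t θ +
        -(2 * N ^ 2) / (N + Φ) ^ 3 / 2 * ∑ k, (B.phiJ (p + 2)).d1 k t θ ^ 2
      ≤ N ^ 2 / (N + Φ) ^ 2 * (K / √t * (Φ * Φ ^ δ)) := by
        linarith [mul_le_mul_of_nonneg_left hLΦ hA]
    _ = K / √t * (N * Φ / (N + Φ)) * (Φ ^ δ * N / (N + Φ)) := by field_simp
    _ ≤ K / √t * (N * Φ / (N + Φ)) * N ^ δ := mul_le_mul_of_nonneg_left key (by positivity)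
    _ = _ := by ring

/-- Grönwall: the expectation of `ψ` grows at most like `exp (2 K √t)`. -/
theorem qavg_psi_le (hn : 1 ≤ n) {p : ℕ} (hp : 1 ≤ p) {N : ℝ} (hN : 0 < N) {T : ℝ} (hT : 0 < T) :
    B.qavg T ((B.psiJ (p + 2) N).val T) ≤ (B.psiJ (p + 2) N).val 0 0 *
      exp (2 * (16 * (p + 2 : ℝ) ^ 2 * (n : ℝ) ^ (1 / ((p : ℝ) + 2)) *
        N ^ (1 / (2 * ((p : ℝ) + 2)))) * √T) := by
  set K := 16 * (p + 2 : ℝ) ^ 2 * (n : ℝ) ^ (1 / ((p : ℝ) + 2)) * N ^ (1 / (2 * ((p : ℝ) + 2)))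
  have hf := B.jok_psiJ (p + 2) hN
  set P : ℝ → ℝ := fun s => ∫ z, B.Z s (√s • z) * (B.psiJ (p + 2) N).val s (√s • z) ∂gam n with hP
  have hcont : ContinuousOn P (Ici 0) := B.continuousOn_gam_Z_mul hf.nice
  have hgn : B.Nice (B.drift (B.psiJ (p + 2) N)) :=
    hf.nice_dt.add (Nice.sum _ fun k _ =>
      ((hf.nice2 k).const_mul _).add ((Nice.avg B (Poly.coord k)).mul (hf.nice1 k)))
  have hd : ∀ s, 0 < s → ∃ d, HasDerivAt P d s ∧ d ≤ K / √s * P s := fun s hs => by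
    refine ⟨_, B.hasDerivAt_gam_Z_mul hf hs, ?_⟩
    rw [hP, ← integral_const_mul]
    refine integral_mono
      (hgn.gBound_Z_mul.integrable hs.le ((B.continuous_Z hs.le).mul (hgn.continuous hs.le)))
      ((hf.nice.gBound_Z_mul.integrable hs.le
        ((B.continuous_Z hs.le).mul (hf.nice.continuous hs.le))).const_mul _) fun z => ?_
    have := mul_le_mul_of_nonneg_left (B.drift_psi_le hs hn (√s • z) hp hN)
      (B.Z_pos hs.le (√s • z)).le
    linarith
  set f : ℝ → ℝ := fun s => P s * exp (-(2 * K * √s))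
  have hfd : ∀ s, 0 < s → ∃ d, HasDerivAt f d s ∧ d ≤ 0 := fun s hs => by
    obtain ⟨d, hd1, hd2⟩ := hd s hs
    refine ⟨_, hd1.mul (((hasDerivAt_sqrt hs.ne').const_mul (2 * K)).fun_neg.exp), ?_⟩
    have e : P s * (exp (-(2 * K * √s)) * -(2 * K * (1 / (2 * √s)))) =
        -(K / √s * P s) * exp (-(2 * K * √s)) := by field_simp
    rw [e, ← add_mul]
    exact mul_nonpos_of_nonpos_of_nonneg (by linarith) (exp_pos _).le
  have hanti : AntitoneOn f (Ici 0) := by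
    refine antitoneOn_of_deriv_nonpos (convex_Ici 0) (hcont.mul (by fun_prop)) ?_ ?_
    · rw [interior_Ici]
      intro s hs
      obtain ⟨d, hd1, -⟩ := hfd s hs
      exact hd1.differentiableAt.differentiableWithinAt
    · rw [interior_Ici]
      intro s hs
      obtain ⟨d, hd1, hd2⟩ := hfd s hs
      rw [hd1.deriv]; exact hd2
  have h := hanti self_mem_Ici (mem_Ici.2 hT.le) hT.le
  have h0 : f 0 = (B.psiJ (p + 2) N).val 0 0 := by simp [f, hP, B.Z_zero]
  rw [h0] at h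
  rw [B.qavg_eq hT.le (hf.nice.continuous hT.le).measurable]
  calc P T = f T * exp (2 * K * √T) := by
        rw [mul_assoc (P T), ← exp_add, neg_add_cancel, exp_zero, mul_one]
    _ ≤ _ := mul_le_mul_of_nonneg_right h (exp_pos _).le

theorem psi_zero_le (hB : B.Subg) (q : ℕ) {N : ℝ} (hN : 0 < N) :
    (B.psiJ q N).val 0 0 ≤ n := by
  obtain ⟨U, l, -, hU', -, hl, he, hphi⟩ := B.exists_eigen le_rfl (0 : E n)
  have hl1 : ∀ i, l i ≤ 1 := fun i => by
    set u : E n := WithLp.toLp 2 fun a => U a i with hu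
    have hnorm : ‖u‖ = 1 := by
      have h1 : ‖u‖ ^ 2 = 1 := by
        have := congrFun (congrFun hU' i) i
        simp only [Matrix.mul_apply, Matrix.transpose_apply, Matrix.one_apply_eq] at this
        rw [EuclideanSpace.norm_sq_eq]
        simpa [hu, Real.norm_eq_abs, sq_abs, pow_two] using this
      exact (sq_eq_one_iff.1 h1).resolve_right fun h => by linarith [norm_nonneg u]
    have h2 : l i = B.varAt 0 0 fun x => ⟪u, x⟫ := by
      rw [B.varAt_inner_eq le_rfl]; exact (he i).symm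
    rw [h2, varAt]
    set a := B.avg 0 0 fun x => ⟪u, x⟫ with ha
    have e : (fun x : E n => (⟪u, x⟫ - a) ^ 2) =
        fun x => (⟪u, x⟫ ^ 2 - 2 * a * ⟪u, x⟫) - -(a ^ 2) := funext fun x => by ring
    rw [e, B.avg_sub le_rfl _ ((Good.inner u).sq.sub ((Good.inner u).const_mul _)) (Good.const _),
      B.avg_sub le_rfl _ (Good.inner u).sq ((Good.inner u).const_mul _), B.avg_const_mul,
      B.avg_const le_rfl, ← ha, B.avg_zero (fun x => ⟪u, x⟫ ^ 2)]
    nlinarith [subg_sq_le hB u hnorm]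
  rw [psiJ_val, hphi]
  set Φ := ∑ i, l i ^ q
  have hΦ : 0 ≤ Φ := Finset.sum_nonneg fun i _ => pow_nonneg (hl i) q
  have hΦn : Φ ≤ n := (Finset.sum_le_sum fun i _ => pow_le_one₀ (hl i) (hl1 i)).trans_eq (by simp)
  refine le_trans ?_ hΦn
  rw [div_le_iff₀ (by positivity)]
  nlinarith

end Base

/-- The covariance stays bounded up to time `c n^{-1/3}` with probability `≥ 3/4`. -/
theorem cov_window : ∃ c R : ℝ, 0 < c ∧ 0 < R ∧ ∀ n : ℕ, 1 ≤ n → ∀ B : Base n, B.Subg →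
    ∀ T : ℝ, 0 < T → T ≤ c / (n : ℝ) ^ ((1 : ℝ) / 3) →
    B.qmeas T {θ | ¬ B.CovLe T θ R} ≤ 1 / 4 := by
  refine ⟨(1 / (320 * exp 3)) ^ 2, exp 4, by positivity, exp_pos 4,
    fun n hn B hB T hT hTc => ?_⟩
  have hn0 : (0 : ℝ) < n := by exact_mod_cast hn
  have hn1 : (1 : ℝ) ≤ n := by exact_mod_cast hn
  set p := ⌈log (n : ℝ)⌉₊ + 2 with hp
  have hp1 : 1 ≤ p := by omega
  set qr := (p : ℝ) + 2 with hqr
  have hq0 : 0 < qr := by positivity
  have hlog : log (n : ℝ) ≤ qr := by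
    have := Nat.le_ceil (log (n : ℝ))
    rw [hqr, hp]; push_cast; linarith
  have hnq : (n : ℝ) ≤ exp qr := by
    rw [← exp_log hn0]; exact exp_le_exp.2 hlog
  have hN1 : (n : ℝ) ^ (1 / qr) ≤ exp 1 := by
    rw [rpow_def_of_pos hn0]
    refine exp_le_exp.2 ?_
    rw [mul_one_div, div_le_one hq0]; exact hlog
  set R := exp (4 : ℝ) with hR
  have hRq : R ^ (p + 2) = exp (4 * qr) := by
    rw [hR, ← exp_nat_mul, hqr]; push_cast; ring_nf
  set N := R ^ (p + 2) with hNdef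
  have hN : 0 < N := pow_pos (exp_pos 4) _
  have hNd : N ^ (1 / (2 * qr)) = exp 2 := by
    rw [hRq, ← exp_mul]; congr 1; field_simp; norm_num
  set w := (n : ℝ) ^ ((1 : ℝ) / 6) with hw
  have hw0 : 0 < w := rpow_pos_of_pos hn0 _
  have hw1 : 1 ≤ w := one_le_rpow hn1 (by norm_num)
  have hq10 : qr ≤ 10 * w := by
    have h1 : log (n : ℝ) = 6 * log w := by rw [hw, log_rpow hn0]; ring
    have h2 := log_le_sub_one_of_pos hw0
    have h3 := (Nat.ceil_lt_add_one (log_nonneg hn1)).le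
    rw [hqr, hp]; push_cast; linarith
  have hsT : √T ≤ 1 / (320 * exp 3) / w := by
    rw [sqrt_le_iff]
    refine ⟨by positivity, hTc.trans_eq ?_⟩
    rw [div_pow _ w, hw, ← rpow_natCast ((n : ℝ) ^ _) 2, ← rpow_mul hn0.le]
    norm_num
  have hX : 2 * (16 * (p + 2 : ℝ) ^ 2 * (n : ℝ) ^ (1 / ((p : ℝ) + 2)) *
      N ^ (1 / (2 * ((p : ℝ) + 2)))) * √T ≤ qr := by
    rw [← hqr, hNd]
    have e3 : exp 3 = exp 1 * exp 2 := by rw [← exp_add]; norm_num
    calc 2 * (16 * qr ^ 2 * (n : ℝ) ^ (1 / qr) * exp 2) * √T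
        ≤ 2 * (16 * qr ^ 2 * exp 1 * exp 2) * (1 / (320 * exp 3) / w) := by gcongr
      _ = qr * (qr / (10 * w)) := by rw [e3]; field_simp; ring
      _ ≤ qr * 1 := mul_le_mul_of_nonneg_left ((div_le_one (by positivity)).2 hq10) hq0.le
      _ = qr := mul_one qr
  have hE := (B.qavg_psi_le hn hp1 hN hT).trans (mul_le_mul (B.psi_zero_le hB (p + 2) hN)
    (exp_le_exp.2 hX) (exp_pos _).le hn0.le)
  have hf := B.jok_psiJ (p + 2) hN
  set ψ := (B.psiJ (p + 2) N).val T with hψ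
  have hψ0 : ∀ θ, 0 ≤ ψ θ ∧ ψ θ ≤ N := fun θ => by
    have h := B.phiJ_nonneg hT.le θ (p + 2)
    rw [hψ, B.psiJ_val]
    exact ⟨by positivity, by rw [div_le_iff₀ (by linarith)]; nlinarith⟩
  have hψi : Integrable ψ (B.qmeas T) :=
    .of_bound (hf.nice.continuous hT.le).aestronglyMeasurable N (.of_forall fun θ => by
      rw [Real.norm_eq_abs, abs_of_nonneg (hψ0 θ).1]; exact (hψ0 θ).2)
  have hsub : {θ | ¬ B.CovLe T θ R} ⊆ {θ | N / 2 ≤ ψ θ} := fun θ hθ => by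
    have h : N < (B.phiJ (p + 2)).val T θ := by
      by_contra hc
      exact hθ (B.covLe_of_phi_le hT.le θ (by omega) (exp_pos 4).le (not_lt.1 hc))
    show N / 2 ≤ ψ θ
    rw [hψ, B.psiJ_val, le_div_iff₀ (by linarith)]
    nlinarith
  have hM := mul_meas_ge_le_integral_of_nonneg (μ := B.qmeas T)
    (.of_forall fun θ => (hψ0 θ).1) hψi (N / 2)
  have h8 : 8 * (n : ℝ) * exp qr ≤ N := by
    rw [hRq, show exp (4 * qr) = exp (2 * qr) * (exp qr * exp qr) by
      rw [← exp_add, ← exp_add]; ring_nf]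
    have h1 : 8 ≤ exp (2 * qr) := by
      have : (4 : ℝ) ≤ qr := by rw [hqr, hp]; push_cast; linarith [(Nat.cast_nonneg ⌈log (n:ℝ)⌉₊ : (0:ℝ) ≤ _)]
      linarith [add_one_le_exp (2 * qr)]
    calc 8 * (n : ℝ) * exp qr = 8 * ((n : ℝ) * exp qr) := by ring
      _ ≤ exp (2 * qr) * (exp qr * exp qr) :=
          mul_le_mul h1 (mul_le_mul_of_nonneg_right hnq (exp_pos _).le) (by positivity) (exp_pos _).le
  have hreal : (B.qmeas T).real {θ | N / 2 ≤ ψ θ} ≤ 1 / 4 := by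
    refine le_of_mul_le_mul_left ?_ (half_pos hN)
    change _ ≤ N / 2 * (1 / 4)
    have : B.qavg T ψ = ∫ θ, ψ θ ∂B.qmeas T := rfl
    linarith
  refine (measure_mono hsub).trans ?_
  rw [← ofReal_measureReal]
  refine (ENNReal.ofReal_le_ofReal hreal).trans_eq ?_
  rw [ENNReal.ofReal_div_of_pos (by norm_num), ENNReal.ofReal_one, ENNReal.ofReal_ofNat]

end Vale.Agent.P245.Local
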