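import Vale.Agent.P245.Local.Smoothing
import Mathlib.Analysis.Calculus.Gradient.Basic
import Mathlib.Analysis.SpecialFunctions.Log.NegMulLog

/-!
# P245: from a general log-concave density to a `Base`

`ent_sq_le_of_base`: if a log-Sobolev inequality with constant `C` holds for every normalised
centred subgaussian `Base n`, then every centred log-concave measure with a density that is
linearly `a`-subgaussian satisfies one with constant `16 C a²`.
-/

open MeasureTheory Real Set Filter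
open scoped RealInnerProductSpace ENNReal Topology Gradient

noncomputable section

namespace Vale.Agent.P245.Local

variable {n : ℕ} {μ : Measure (E n)}

theorem exp_sq_integrable [IsFiniteMeasure μ] {a : ℝ} (ha : 0 < a)
    (hsub : ∀ θ : E n, ‖θ‖ = 1 →
      ∫⁻ x, ENNReal.ofReal (exp (⟪x, θ⟫ ^ 2 / a ^ 2)) ∂μ ≤ 2) :
    ∃ c : ℝ, 0 < c ∧ Integrable (fun x => exp (c * ‖x‖ ^ 2)) μ := by
  rcases Nat.eq_zero_or_pos n with rfl | hn
  · refine ⟨1, one_pos, ?_⟩
    have : ∀ x : E 0, exp (1 * ‖x‖ ^ 2) = 1 := fun x => by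
      simp [Subsingleton.elim x 0]
    simp only [this]
    exact integrable_const _
  have hn' : (0 : ℝ) < n := by exact_mod_cast hn
  refine ⟨1 / (n * a ^ 2), by positivity, ?_⟩
  have hi : ∀ i : Fin n, Integrable
      (fun x : E n => exp (⟪x, EuclideanSpace.single i (1 : ℝ)⟫ ^ 2 / a ^ 2)) μ := by
    intro i
    refine ⟨(by fun_prop : Continuous fun x : E n =>
      exp (⟪x, EuclideanSpace.single i (1 : ℝ)⟫ ^ 2 / a ^ 2)).aestronglyMeasurable, ?_⟩
    simp only [HasFiniteIntegral, Real.enorm_of_nonneg (exp_pos _).le]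
    exact lt_of_le_of_lt (hsub _ (by simp)) ENNReal.ofNat_lt_top
  refine (integrable_finsetSum Finset.univ fun i _ => hi i).mono'
    (by fun_prop : Continuous fun x : E n => exp (1 / (n * a ^ 2) * ‖x‖ ^ 2)).aestronglyMeasurable
    (.of_forall fun x => ?_)
  rw [Real.norm_eq_abs, abs_exp]
  obtain ⟨i, -, hi'⟩ := Finset.exists_le_of_sum_le (f := fun _ : Fin n => ‖x‖ ^ 2 / n)
    (g := fun i => x i ^ 2) (Finset.univ_nonempty_iff.2 ⟨⟨0, hn⟩⟩) (by
      rw [Finset.sum_const, Finset.card_univ, Fintype.card_fin, nsmul_eq_mul,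
        mul_div_cancel₀ _ hn'.ne', EuclideanSpace.real_norm_sq_eq])
  refine le_trans (exp_le_exp.2 ?_) (Finset.single_le_sum
    (f := fun i => exp (⟪x, EuclideanSpace.single i (1 : ℝ)⟫ ^ 2 / a ^ 2))
    (fun _ _ => (exp_pos _).le) (Finset.mem_univ i))
  simp only [EuclideanSpace.inner_single_right, one_mul, RCLike.conj_to_real]
  rw [le_div_iff₀ (by positivity)]
  refine le_trans (le_of_eq ?_) hi'
  field_simp

theorem gam_exp_small (a : ℝ) (ha : 0 < a) :
    ∃ S : ℝ, 0 < S ∧ ∀ s : ℝ, 0 < s → s ≤ S →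
      ∫ z, exp (s ^ 2 / (2 * a ^ 2) * ‖z‖ ^ 2) ∂gam n ≤ √2 := by
  have hlim : Tendsto (fun k : ℕ => ∫ z, exp (1 / ((k : ℝ) + 4) * ‖z‖ ^ 2) ∂gam n)
      atTop (𝓝 (∫ _z, (1 : ℝ) ∂gam n)) := by
    refine tendsto_integral_of_dominated_convergence (fun z => exp (1 / 4 * ‖z‖ ^ 2))
      (fun k => (by fun_prop : Continuous fun z : E n =>
        exp (1 / ((k : ℝ) + 4) * ‖z‖ ^ 2)).aestronglyMeasurable) ?_ ?_ ?_
    · simpa using integrable_gam_exp (n := n) (show (1 / 4 : ℝ) < 1 / 2 by norm_num) 0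
    · intro k
      refine .of_forall fun z => ?_
      rw [Real.norm_eq_abs, abs_exp, exp_le_exp]
      refine mul_le_mul_of_nonneg_right ?_ (sq_nonneg _)
      exact one_div_le_one_div_of_le (by norm_num) (by
        have : (0 : ℝ) ≤ k := Nat.cast_nonneg k
        linarith)
    · refine .of_forall fun z => ?_
      have h0 : Tendsto (fun k : ℕ => 1 / ((k : ℝ) + 4) * ‖z‖ ^ 2) atTop (𝓝 0) := by
        have h1 : Tendsto (fun k : ℕ => 1 / ((k : ℝ) + 4)) atTop (𝓝 0) :=
          Tendsto.div_atTop tendsto_const_nhds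
            (tendsto_atTop_add_const_right _ _ tendsto_natCast_atTop_atTop)
        simpa using h1.mul_const (‖z‖ ^ 2)
      simpa [Function.comp_def] using (continuous_exp.tendsto 0).comp h0
  rw [integral_const, measureReal_def, measure_univ, ENNReal.toReal_one, one_smul] at hlim
  have h2 : (1 : ℝ) < √2 := by
    rw [show (1 : ℝ) = √1 by simp]
    exact Real.sqrt_lt_sqrt zero_le_one (by norm_num)
  obtain ⟨k, hk⟩ := (hlim.eventually (eventually_le_nhds h2)).exists
  set c : ℝ := 1 / ((k : ℝ) + 4) with hc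
  have hc0 : 0 < c := by positivity
  have hc4 : c < 1 / 2 := by
    rw [hc, div_lt_div_iff₀ (by positivity) (by norm_num)]
    have : (0 : ℝ) ≤ k := Nat.cast_nonneg k
    linarith
  refine ⟨a * √(2 * c), by positivity, fun s hs hsS => le_trans ?_ hk⟩
  refine integral_mono_of_nonneg (.of_forall fun z => (exp_pos _).le) ?_ (.of_forall fun z => ?_)
  · simpa using integrable_gam_exp (n := n) hc4 0
  refine exp_le_exp.2 (mul_le_mul_of_nonneg_right ?_ (sq_nonneg _))
  rw [div_le_iff₀ (by positivity)]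
  calc s ^ 2 ≤ (a * √(2 * c)) ^ 2 := pow_le_pow_left₀ hs.le hsS 2
    _ = _ := by rw [mul_pow, sq_sqrt (by positivity)]; ring

theorem smoothed_subg [IsProbabilityMeasure μ] {a : ℝ} (ha : 0 < a)
    (hsub : ∀ θ : E n, ‖θ‖ = 1 →
      ∫⁻ x, ENNReal.ofReal (exp (⟪x, θ⟫ ^ 2 / a ^ 2)) ∂μ ≤ 2)
    {s : ℝ} (hg : ∫ z, exp (s ^ 2 / (2 * a ^ 2) * ‖z‖ ^ 2) ∂gam n ≤ √2)
    (hs : Integrable (fun z : E n => exp (s ^ 2 / (2 * a ^ 2) * ‖z‖ ^ 2)) (gam n))
    (B : Base n) (hB : B.μ = (μ.prod (gam n)).map (smap (2 * a) s)) : B.Subg := by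
  intro θ hθ
  rw [hB, lintegral_map (by fun_prop) (measurable_smap _ _)]
  have hle : ∀ p : E n × E n, ENNReal.ofReal (exp (⟪smap (2 * a) s p, θ⟫ ^ 2)) ≤
      ENNReal.ofReal (exp (⟪p.1, θ⟫ ^ 2 / a ^ 2 / 2)) *
        ENNReal.ofReal (exp (s ^ 2 / (2 * a ^ 2) * ‖p.2‖ ^ 2)) := by
    intro p
    rw [← ENNReal.ofReal_mul (exp_pos _).le, ← exp_add]
    refine ENNReal.ofReal_le_ofReal (exp_le_exp.2 ?_)
    have h1 : ⟪p.2, θ⟫ ^ 2 ≤ ‖p.2‖ ^ 2 := by
      have := abs_real_inner_le_norm p.2 θ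
      rw [hθ, mul_one] at this
      nlinarith [abs_nonneg ⟪p.2, θ⟫, sq_abs ⟪p.2, θ⟫]
    have h2 : (⟪p.1, θ⟫ + s * ⟪p.2, θ⟫) ^ 2 ≤
        2 * ⟪p.1, θ⟫ ^ 2 + 2 * (s ^ 2 * ‖p.2‖ ^ 2) := by
      nlinarith [sq_nonneg (⟪p.1, θ⟫ - s * ⟪p.2, θ⟫),
        mul_le_mul_of_nonneg_left h1 (sq_nonneg s)]
    simp only [smap, real_inner_smul_left, inner_add_left]
    rw [mul_pow]
    calc ((2 * a)⁻¹) ^ 2 * (⟪p.1, θ⟫ + s * ⟪p.2, θ⟫) ^ 2
        ≤ ((2 * a)⁻¹) ^ 2 * (2 * ⟪p.1, θ⟫ ^ 2 + 2 * (s ^ 2 * ‖p.2‖ ^ 2)) :=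
          mul_le_mul_of_nonneg_left h2 (sq_nonneg _)
      _ = _ := by field_simp
  refine (lintegral_mono hle).trans ?_
  rw [lintegral_prod_mul (f := fun x => ENNReal.ofReal (exp (⟪x, θ⟫ ^ 2 / a ^ 2 / 2)))
    (g := fun z => ENNReal.ofReal (exp (s ^ 2 / (2 * a ^ 2) * ‖z‖ ^ 2))) (by fun_prop) (by fun_prop)]
  have hB2 : ∫⁻ z, ENNReal.ofReal (exp (s ^ 2 / (2 * a ^ 2) * ‖z‖ ^ 2)) ∂gam n ≤
      ENNReal.ofReal (√2) := by
    rw [← ofReal_integral_eq_lintegral_ofReal hs (.of_forall fun z => (exp_pos _).le)]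
    exact ENNReal.ofReal_le_ofReal hg
  have hA : ∫⁻ x, ENNReal.ofReal (exp (⟪x, θ⟫ ^ 2 / a ^ 2 / 2)) ∂μ ≤ ENNReal.ofReal (√2) := by
    have hpt : ∀ x, ENNReal.ofReal (exp (⟪x, θ⟫ ^ 2 / a ^ 2 / 2)) ≤
        ENNReal.ofReal (√2 / 2) +
          ENNReal.ofReal (1 / (2 * √2)) * ENNReal.ofReal (exp (⟪x, θ⟫ ^ 2 / a ^ 2)) := by
      intro x
      rw [← ENNReal.ofReal_mul (by positivity), ← ENNReal.ofReal_add (by positivity) (by positivity)]
      refine ENNReal.ofReal_le_ofReal ?_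
      set u := exp (⟪x, θ⟫ ^ 2 / a ^ 2 / 2) with hu
      have he : exp (⟪x, θ⟫ ^ 2 / a ^ 2) = u ^ 2 := by rw [hu, ← exp_nat_mul]; ring_nf
      rw [he]
      have h2 : √2 * √2 = 2 := Real.mul_self_sqrt (by norm_num)
      have hs2 : 0 < √2 := by positivity
      rw [← sub_nonneg]
      have e : √2 / 2 + 1 / (2 * √2) * u ^ 2 - u = (u - √2) ^ 2 / (2 * √2) := by
        field_simp
        nlinarith
      rw [e]; positivity
    refine (lintegral_mono hpt).trans ?_
    rw [lintegral_add_left measurable_const, lintegral_const, measure_univ, mul_one,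
      lintegral_const_mul _ (by fun_prop)]
    refine (add_le_add le_rfl (mul_le_mul' le_rfl (hsub θ hθ))).trans ?_
    rw [← ENNReal.ofReal_ofNat 2, ← ENNReal.ofReal_mul (by positivity),
      ← ENNReal.ofReal_add (by positivity) (by positivity)]
    refine ENNReal.ofReal_le_ofReal (le_of_eq ?_)
    have h2 : √2 * √2 = 2 := Real.mul_self_sqrt (by norm_num)
    field_simp
    nlinarith
  refine (mul_le_mul' hA hB2).trans ?_
  rw [← ENNReal.ofReal_mul (by positivity), Real.mul_self_sqrt (by norm_num), ENNReal.ofReal_ofNat]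

theorem integrable_gam_inner (v : E n) : Integrable (fun z => ⟪v, z⟫) (gam n) := by
  refine ((integrable_gam_exp (n := n) (show (0 : ℝ) < 1 / 2 by norm_num) 1).const_mul ‖v‖).mono'
    (by fun_prop : Continuous fun z : E n => ⟪v, z⟫).aestronglyMeasurable (.of_forall fun z => ?_)
  refine (abs_real_inner_le_norm v z).trans (mul_le_mul_of_nonneg_left ?_ (norm_nonneg v))
  simp only [zero_mul, zero_add, one_mul]
  linarith [add_one_le_exp ‖z‖]

theorem integral_gam_inner (v : E n) : ∫ z, ⟪v, z⟫ ∂gam n = 0 := by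
  rw [integral_gam]
  have h := integral_neg_eq_self (fun z : E n => gdens z * ⟪v, z⟫) volume
  simp only [gdens, norm_neg, inner_neg_right, mul_neg] at h
  rw [integral_neg] at h
  simp only [gdens]
  linarith

theorem smoothed_centred [IsProbabilityMeasure μ]
    (hexp : ∃ c : ℝ, 0 < c ∧ Integrable (fun x => exp (c * ‖x‖ ^ 2)) μ)
    (hcen : ∀ v : E n, ∫ x, ⟪v, x⟫ ∂μ = 0) {b s : ℝ}
    (B : Base n) (hB : B.μ = (μ.prod (gam n)).map (smap b s)) : B.Centred := by
  intro v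
  have hiμ : Integrable (fun x => ⟪v, x⟫) μ := by
    obtain ⟨c, hc, hci⟩ := hexp
    refine ((hci.const_mul (‖v‖ * exp (1 / (4 * c)))).mono'
      (by fun_prop : Continuous fun x : E n => ⟪v, x⟫).aestronglyMeasurable (.of_forall fun x => ?_))
    refine (abs_real_inner_le_norm v x).trans ?_
    rw [mul_assoc]
    refine mul_le_mul_of_nonneg_left ?_ (norm_nonneg v)
    rw [← exp_add]
    have h := exp_norm_le_sq hc 1 x
    rw [one_mul, one_pow] at h
    linarith [add_one_le_exp (1 / (4 * c) + c * ‖x‖ ^ 2)]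
  rw [hB, integral_map (measurable_smap b s).aemeasurable
    (by fun_prop : Continuous fun y : E n => ⟪v, y⟫).aestronglyMeasurable]
  have h1 : Integrable (fun p : E n × E n => b⁻¹ * ⟪v, p.1⟫) (μ.prod (gam n)) :=
    (hiμ.const_mul b⁻¹).comp_fst (gam n)
  have h2 : Integrable (fun p : E n × E n => b⁻¹ * s * ⟪v, p.2⟫) (μ.prod (gam n)) :=
    ((integrable_gam_inner v).const_mul (b⁻¹ * s)).comp_snd μ
  have e : (fun p : E n × E n => ⟪v, smap b s p⟫) =
      fun p => b⁻¹ * ⟪v, p.1⟫ + b⁻¹ * s * ⟪v, p.2⟫ := by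
    funext p
    simp only [smap, real_inner_smul_right, inner_add_right]
    ring
  rw [e, integral_add h1 h2, integral_prod _ h1, integral_prod _ h2]
  simp [integral_const_mul, hcen v, integral_gam_inner]

theorem tendsto_smooth [IsProbabilityMeasure μ] {G : E n → ℝ} (hG : Continuous G) {M : ℝ}
    (hM : ∀ x, |G x| ≤ M) {s : ℕ → ℝ} (hs : Tendsto s atTop (𝓝 0)) :
    Tendsto (fun k => ∫ p, G (p.1 + s k • p.2) ∂μ.prod (gam n)) atTop (𝓝 (∫ x, G x ∂μ)) := by
  have e : ∫ x, G x ∂μ = ∫ p : E n × E n, G (p.1 + (0 : ℝ) • p.2) ∂μ.prod (gam n) := by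
    simp [integral_fun_fst]
  rw [e]
  refine tendsto_integral_of_dominated_convergence (fun _ => M)
    (fun k => (hG.comp (by fun_prop)).aestronglyMeasurable) (integrable_const M)
    (fun k => .of_forall fun p => hM _) (.of_forall fun p => ?_)
  exact ((hG.comp (by fun_prop : Continuous fun r : ℝ => p.1 + r • p.2)).tendsto 0).comp hs

theorem norm_gradient_eq (f : E n → ℝ) (x : E n) : ‖∇ f x‖ = ‖fderiv ℝ f x‖ := by
  simp [gradient]

/-- Reduction of the conjecture at a given dimension to smooth normalised measures. -/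
theorem ent_sq_le_of_base {C : ℝ} (hC : 0 ≤ C)
    (H : ∀ B : Base n, B.Subg → B.Centred → ∀ h : E n → ℝ, ContDiff ℝ 1 h →
      ∀ η K : ℝ, 0 < η → (∀ x, η ≤ h x) → (∀ x, h x ≤ K) → (∀ x, ‖fderiv ℝ h x‖ ≤ K) →
        (∫ x, h x * log (h x) ∂B.μ) - (∫ x, h x ∂B.μ) * log (∫ x, h x ∂B.μ)
          ≤ C * ∫ x, ‖fderiv ℝ h x‖ ^ 2 / h x ∂B.μ)
    [IsProbabilityMeasure μ] {ρ : E n → ℝ} (hρm : Measurable ρ)
    (hρ0 : ∀ x, 0 ≤ ρ x) (hcs : Convex ℝ {x | 0 < ρ x})
    (hlc : ConcaveOn ℝ {x | 0 < ρ x} fun x => log (ρ x))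
    (hμ : μ = volume.withDensity fun x => ENNReal.ofReal (ρ x))
    (hcen : ∀ v : E n, ∫ x, ⟪v, x⟫ ∂μ = 0) {a : ℝ} (ha : 0 < a)
    (hsub : ∀ θ : E n, ‖θ‖ = 1 →
      ∫⁻ x, ENNReal.ofReal (exp (⟪x, θ⟫ ^ 2 / a ^ 2)) ∂μ ≤ 2)
    {f : E n → ℝ} (hf : ContDiff ℝ (⊤ : ℕ∞) f) (hfs : HasCompactSupport f) :
    (∫ x, f x ^ 2 * log (f x ^ 2) ∂μ) - (∫ x, f x ^ 2 ∂μ) * log (∫ x, f x ^ 2 ∂μ)
      ≤ 16 * C * a ^ 2 * ∫ x, ‖∇ f x‖ ^ 2 ∂μ := by
  simp only [norm_gradient_eq]
  have hf1 : ContDiff ℝ 1 f := hf.of_le (by exact_mod_cast le_top)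
  have hfc : Continuous f := hf1.continuous
  have hDc : Continuous (fderiv ℝ f) := hf1.continuous_fderiv one_ne_zero
  obtain ⟨M, hM⟩ := hfc.bounded_above_of_compact_support hfs
  obtain ⟨D, hD⟩ := hDc.bounded_above_of_compact_support (hfs.fderiv ℝ)
  have hM0 : 0 ≤ M := (norm_nonneg _).trans (hM 0)
  have hD0 : 0 ≤ D := (norm_nonneg _).trans (hD 0)
  have hsqb : ∀ x, f x ^ 2 ≤ M ^ 2 := fun x =>
    le_trans (le_of_eq (by rw [Real.norm_eq_abs, sq_abs])) (pow_le_pow_left₀ (norm_nonneg _) (hM x) 2)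
  obtain ⟨S, hS0, hS⟩ := gam_exp_small (n := n) a ha
  have hexp := exp_sq_integrable ha hsub
  set b := 2 * a with hb
  have hb0 : 0 < b := by positivity
  set S' := min S (a / 2) with hS'
  have hS'0 : 0 < S' := lt_min hS0 (by linarith)
  set s : ℕ → ℝ := fun k => S' / ((k : ℝ) + 1) with hs
  have hs0 : ∀ k, 0 < s k := fun k => by simp only [hs]; positivity
  have hsS : ∀ k, s k ≤ S' := fun k => by
    simp only [hs]
    exact div_le_self hS'0.le (by have : (0 : ℝ) ≤ k := Nat.cast_nonneg k; linarith)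
  have hslim : Tendsto s atTop (𝓝 0) :=
    Tendsto.div_atTop tendsto_const_nhds
      (tendsto_atTop_add_const_right _ _ tendsto_natCast_atTop_atTop)
  have hint : ∀ k, Integrable (fun z : E n => exp (s k ^ 2 / (2 * a ^ 2) * ‖z‖ ^ 2)) (gam n) := by
    intro k
    have h1 : s k ≤ a / 2 := (hsS k).trans (min_le_right _ _)
    have hc : s k ^ 2 / (2 * a ^ 2) < 1 / 2 := by
      rw [div_lt_iff₀ (by positivity)]
      nlinarith [hs0 k]
    simpa using integrable_gam_exp (n := n) hc 0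
  choose B hB using fun k => exists_smoothed hρm hρ0 hcs hlc hμ hexp hb0 (hs0 k)
  have hsubg : ∀ k, (B k).Subg := fun k =>
    smoothed_subg ha hsub (hS (s k) (hs0 k) ((hsS k).trans (min_le_left _ _))) (hint k) _ (hB k)
  have hBcen : ∀ k, (B k).Centred := fun k => smoothed_centred hexp hcen _ (hB k)
  -- the inequality for `f² + η`
  have key : ∀ η : ℝ, 0 < η → η ≤ 1 →
      (∫ x, (f x ^ 2 + η) * log (f x ^ 2 + η) ∂μ) -
        (∫ x, (f x ^ 2 + η) ∂μ) * log (∫ x, (f x ^ 2 + η) ∂μ)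
      ≤ 16 * C * a ^ 2 * ∫ x, ‖fderiv ℝ f x‖ ^ 2 ∂μ := by
    intro η hη hη1
    set h : E n → ℝ := fun y => f (b • y) ^ 2 + η with hh
    have hh1 : ContDiff ℝ 1 h := ((hf1.comp (contDiff_const_smul b)).pow 2).add contDiff_const
    have hderiv : ∀ y, HasFDerivAt h
        ((2 * f (b • y)) • ((fderiv ℝ f (b • y)).comp
          (b • ContinuousLinearMap.id ℝ (E n)))) y := by
      intro y
      have h1 := ((hf1.differentiable one_ne_zero (b • y)).hasFDerivAt).comp y
        ((hasFDerivAt_id y).const_smul b)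
      refine ((h1.pow 2).add_const η).congr_fderiv ?_
      simp
    have hnorm : ∀ y, ‖fderiv ℝ h y‖ ≤ 2 * |f (b • y)| * (b * ‖fderiv ℝ f (b • y)‖) := by
      intro y
      rw [(hderiv y).fderiv, norm_smul, Real.norm_eq_abs, abs_mul, abs_two]
      refine mul_le_mul_of_nonneg_left ?_ (by positivity)
      refine ((fderiv ℝ f (b • y)).opNorm_comp_le _).trans ?_
      rw [mul_comm]
      refine mul_le_mul_of_nonneg_right ?_ (norm_nonneg _)
      refine ContinuousLinearMap.opNorm_le_bound _ hb0.le fun v => ?_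
      simp [norm_smul, abs_of_pos hb0]
    set K := M ^ 2 + 1 + 2 * M * (b * D) with hK
    have hKh : ∀ x, h x ≤ K := fun x => by
      have := hsqb (b • x)
      have : 0 ≤ 2 * M * (b * D) := by positivity
      simp only [hh, hK]; linarith
    have hKD : ∀ x, ‖fderiv ℝ h x‖ ≤ K := fun x => by
      refine (hnorm x).trans ?_
      have h1 : 2 * |f (b • x)| * (b * ‖fderiv ℝ f (b • x)‖) ≤ 2 * M * (b * D) := by
        refine mul_le_mul ?_ (mul_le_mul_of_nonneg_left (hD _) hb0.le) (by positivity)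
          (by positivity)
        have := hM (b • x)
        rw [Real.norm_eq_abs] at this
        linarith
      have : 0 ≤ M ^ 2 := sq_nonneg M
      simp only [hK]; linarith
    have hstep : ∀ k,
        (∫ p, (f (p.1 + s k • p.2) ^ 2 + η) * log (f (p.1 + s k • p.2) ^ 2 + η)
            ∂μ.prod (gam n)) -
          (∫ p, (f (p.1 + s k • p.2) ^ 2 + η) ∂μ.prod (gam n)) *
            log (∫ p, (f (p.1 + s k • p.2) ^ 2 + η) ∂μ.prod (gam n))
        ≤ C * ∫ p, 4 * b ^ 2 * ‖fderiv ℝ f (p.1 + s k • p.2)‖ ^ 2 ∂μ.prod (gam n) := by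
      intro k
      have hkey := H (B k) (hsubg k) (hBcen k) h hh1 η K hη
        (fun x => by simp only [hh]; linarith [sq_nonneg (f (b • x))]) hKh hKD
      have hhη : ∀ x, η ≤ h x := fun x => by
        simp only [hh]; linarith [sq_nonneg (f (b • x))]
      have hrhs : ∫ x, ‖fderiv ℝ h x‖ ^ 2 / h x ∂(B k).μ ≤
          ∫ x, 4 * b ^ 2 * ‖fderiv ℝ f (b • x)‖ ^ 2 ∂(B k).μ := by
        refine integral_mono_of_nonneg (.of_forall fun x =>
          div_nonneg (sq_nonneg _) (hη.le.trans (hhη x))) ?_ (.of_forall fun x => ?_)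
        · refine (integrable_const (4 * b ^ 2 * D ^ 2)).mono'
            (continuous_const.mul ((hDc.comp (continuous_const_smul b)).norm.pow 2)).aestronglyMeasurable
            (.of_forall fun x => ?_)
          rw [Real.norm_eq_abs, abs_of_nonneg (by positivity)]
          gcongr
          exact hD _
        · show ‖fderiv ℝ h x‖ ^ 2 / h x ≤ 4 * b ^ 2 * ‖fderiv ℝ f (b • x)‖ ^ 2
          rw [div_le_iff₀ (hη.trans_le (hhη x))]
          refine (pow_le_pow_left₀ (norm_nonneg _) (hnorm x) 2).trans ?_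
          simp only [hh]
          rw [mul_pow, mul_pow, mul_pow, sq_abs]
          nlinarith [mul_nonneg (mul_nonneg (sq_nonneg b) (sq_nonneg ‖fderiv ℝ f (b • x)‖)) hη.le]
      have hpush : ∀ G : E n → ℝ, Continuous G → ∫ x, G (b • x) ∂(B k).μ =
          ∫ p, G (p.1 + s k • p.2) ∂μ.prod (gam n) := by
        intro G hG
        rw [hB k, integral_map (f := fun x => G (b • x)) (measurable_smap _ _).aemeasurable
          (hG.comp (continuous_const_smul b)).aestronglyMeasurable]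
        simp only [smap, smul_smul, mul_inv_cancel₀ hb0.ne', one_smul]
      have hlog : Continuous fun x => (f x ^ 2 + η) * log (f x ^ 2 + η) :=
        continuous_mul_log.comp ((hfc.pow 2).add continuous_const)
      have e1 := hpush _ hlog
      have e2 := hpush (fun x => f x ^ 2 + η) ((hfc.pow 2).add continuous_const)
      have e3 := hpush (fun x => 4 * b ^ 2 * ‖fderiv ℝ f x‖ ^ 2)
        (continuous_const.mul (hDc.norm.pow 2))
      rw [← e1, ← e2, ← e3]
      exact hkey.trans (mul_le_mul_of_nonneg_left hrhs hC)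
    have hub : ∀ x, f x ^ 2 + η ≤ M ^ 2 + 1 := fun x => add_le_add (hsqb x) hη1
    obtain ⟨N, hN⟩ := isCompact_Icc.exists_bound_of_continuousOn
      (s := Icc (0 : ℝ) (M ^ 2 + 1)) continuous_mul_log.continuousOn
    have l1 := tendsto_smooth (μ := μ) (G := fun x => (f x ^ 2 + η) * log (f x ^ 2 + η))
      (continuous_mul_log.comp ((hfc.pow 2).add continuous_const))
      (fun x => by simpa using hN _ ⟨by positivity, hub x⟩) hslim
    have l2 := tendsto_smooth (μ := μ) (G := fun x => f x ^ 2 + η)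
      ((hfc.pow 2).add continuous_const)
      (fun x => (abs_of_nonneg (by positivity)).trans_le (hub x)) hslim
    have l3 := tendsto_smooth (μ := μ) (G := fun x => 4 * b ^ 2 * ‖fderiv ℝ f x‖ ^ 2)
      (continuous_const.mul (hDc.norm.pow 2))
      (fun x => by
        rw [abs_of_nonneg (by positivity)]
        exact mul_le_mul_of_nonneg_left (pow_le_pow_left₀ (norm_nonneg _) (hD x) 2) (by positivity))
      hslim
    have hpos : 0 < ∫ x, f x ^ 2 + η ∂μ := by
      refine hη.trans_le ((show η = ∫ _x, η ∂μ by simp).trans_le (integral_mono (integrable_const η)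
        ?_ fun x => le_add_of_nonneg_left (sq_nonneg _)))
      exact (integrable_const (M ^ 2 + 1)).mono' ((hfc.pow 2).add continuous_const).aestronglyMeasurable
        (.of_forall fun x => (abs_of_nonneg (by positivity)).trans_le (hub x))
    refine (le_of_tendsto_of_tendsto (l1.sub (l2.mul (l2.log hpos.ne')))
      (l3.const_mul C) (.of_forall hstep)).trans (le_of_eq ?_)
    rw [integral_const_mul, hb]
    ring
  -- `η → 0`
  set e : ℕ → ℝ := fun k => 1 / ((k : ℝ) + 1) with he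
  have he0 : ∀ k, 0 < e k := fun k => by simp only [he]; positivity
  have he1 : ∀ k, e k ≤ 1 := fun k => by
    simp only [he]
    rw [div_le_one (by positivity)]
    have : (0 : ℝ) ≤ k := Nat.cast_nonneg k
    linarith
  have helim : Tendsto e atTop (𝓝 0) := tendsto_one_div_add_atTop_nhds_zero_nat
  have hub : ∀ (x : E n) (k : ℕ), f x ^ 2 + e k ≤ M ^ 2 + 1 := fun x k =>
    add_le_add (hsqb x) (he1 k)
  have L : ∀ φ : ℝ → ℝ, Continuous φ →
      Tendsto (fun k => ∫ x, φ (f x ^ 2 + e k) ∂μ) atTop (𝓝 (∫ x, φ (f x ^ 2) ∂μ)) := by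
    intro φ hφ
    obtain ⟨N, hN⟩ := isCompact_Icc.exists_bound_of_continuousOn
      (s := Icc (0 : ℝ) (M ^ 2 + 1)) hφ.continuousOn
    refine tendsto_integral_of_dominated_convergence (fun _ => N)
      (fun k => (hφ.comp ((hfc.pow 2).add continuous_const)).aestronglyMeasurable)
      (integrable_const N) (fun k => .of_forall fun x => hN _
        ⟨by have := (he0 k).le; positivity, hub x k⟩) (.of_forall fun x => ?_)
    have h1 : Tendsto (fun k => f x ^ 2 + e k) atTop (𝓝 (f x ^ 2)) := by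
      simpa using helim.const_add (f x ^ 2)
    exact (hφ.tendsto _).comp h1
  have L2 : Tendsto (fun k => ∫ x, (f x ^ 2 + e k) ∂μ) atTop (𝓝 (∫ x, f x ^ 2 ∂μ)) :=
    L id continuous_id
  have L1 := L _ continuous_mul_log
  exact le_of_tendsto_of_tendsto (L1.sub ((continuous_mul_log.tendsto _).comp L2))
    tendsto_const_nhds (.of_forall fun k => key (e k) (he0 k) (he1 k))

end Vale.Agent.P245.Local
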