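import Vale.Agent.P245.Local.Assemble
import Vale.Agent.P245.Local.Regularise

/-!
# P245: the dimensional log-Sobolev bound for subgaussian log-concave measures
-/

open MeasureTheory Real Set Filter
open scoped RealInnerProductSpace ENNReal Topology Gradient

noncomputable section

namespace Vale.Agent.P245.Local

theorem lsi_cube_root (hP : ∀ n, PoincareStrongProp n) (hL : ∀ n, LsiStrongProp n)
    (hC : CovWindowProp) (hN : NormWindowProp) (hG : GoodOfCovProp) :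
    ∃ C : ℝ, 0 < C ∧ ∀ n : ℕ, 1 ≤ n →
      ∀ (ρ : E n → ℝ) (μ : Measure (E n)),
        Measurable ρ → (∀ x, 0 ≤ ρ x) → Convex ℝ {x | 0 < ρ x} →
        ConcaveOn ℝ {x | 0 < ρ x} (fun x => log (ρ x)) →
        μ = volume.withDensity (fun x => ENNReal.ofReal (ρ x)) → IsProbabilityMeasure μ →
        (∀ v : E n, ∫ x, inner ℝ v x ∂μ = 0) →
        ∀ a : ℝ, 0 < a →
          (∀ θ : E n, ‖θ‖ = 1 →
            ∫⁻ x, ENNReal.ofReal (exp (inner ℝ x θ ^ 2 / a ^ 2)) ∂μ ≤ 2) →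
          ∀ f : E n → ℝ, ContDiff ℝ (⊤ : ℕ∞) f → HasCompactSupport f →
            (∫ x, f x ^ 2 * log (f x ^ 2) ∂μ)
                - (∫ x, f x ^ 2 ∂μ) * log (∫ x, f x ^ 2 ∂μ)
              ≤ C * (n : ℝ) ^ ((1 : ℝ) / 3) * a ^ 2 * ∫ x, ‖gradient f x‖ ^ 2 ∂μ := by
  obtain ⟨C, hC0, hbase⟩ := lsi_base hP hL hC hN hG
  refine ⟨16 * C, by positivity, ?_⟩
  intro n hn ρ μ hρm hρ0 hcs hlc hμ hprob hcen a ha hsub f hf hfs
  have h := ent_sq_le_of_base (n := n) (μ := μ) (C := C * (n : ℝ) ^ ((1 : ℝ) / 3)) (by positivity)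
    (hbase n hn) hρm hρ0 hcs hlc hμ hcen ha hsub hf hfs
  rw [show 16 * C * (n : ℝ) ^ ((1 : ℝ) / 3) = 16 * (C * (n : ℝ) ^ ((1 : ℝ) / 3)) by ring]
  exact h

end Vale.Agent.P245.Local
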