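import Vale.Agent.P245.Local.Calc

/-!
# P245: second-order calculus along the localisation

A `Jet` records a function of `(t, θ)` with its time and space derivatives.  The jets with `JOk`
(continuous, dominated by tilted polynomial moments) are closed under the algebraic operations,
and for them `d/dt qavg t f = qavg t (drift f)`.
-/

open MeasureTheory Real Set Filter
open scoped RealInnerProductSpace ENNReal Topology

noncomputable section

namespace Vale.Agent.P245.Local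

variable {n : ℕ}

/-- polynomial weight -/
def gp (m : ℕ) (x : E n) : ℝ := (1 + ‖x‖ ^ 2) ^ m

theorem one_le_gp_base (x : E n) : (1 : ℝ) ≤ 1 + ‖x‖ ^ 2 := by linarith [sq_nonneg ‖x‖]

theorem one_le_gp (m : ℕ) (x : E n) : 1 ≤ gp m x := one_le_pow₀ (one_le_gp_base x)

theorem gp_mono {a b : ℕ} (h : a ≤ b) (x : E n) : gp a x ≤ gp b x :=
  pow_le_pow_right₀ (one_le_gp_base x) h

theorem good_gp (m : ℕ) : Good (gp m : E n → ℝ) := by
  induction m with
  | zero =>
    have : (gp 0 : E n → ℝ) = fun _ => 1 := funext fun x => pow_zero _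
    rw [this]; exact Good.const 1
  | succ m ih =>
    have : (gp (m + 1) : E n → ℝ) = fun x => gp m x * (1 + ‖x‖ ^ 2) :=
      funext fun x => pow_succ _ _
    rw [this]; exact ih.mul ((Good.const 1).add Good.norm_sq)

/-- continuous and polynomially bounded -/
def Poly (F : E n → ℝ) : Prop :=
  Continuous F ∧ ∃ C : ℝ, 0 ≤ C ∧ ∃ m : ℕ, ∀ x, |F x| ≤ C * gp m x

namespace Poly

variable {F G : E n → ℝ}

theorem good (hF : Poly F) : Good F := by
  obtain ⟨hc, C, hC, m, h⟩ := hF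
  refine ⟨hc, ((good_gp m).const_mul C).2.of_abs_le fun x => (h x).trans (le_abs_self _)⟩

theorem const (c : ℝ) : Poly fun _ : E n => c :=
  ⟨continuous_const, |c|, abs_nonneg c, 0, fun x => by simp [gp]⟩

theorem coord (k : Fin n) : Poly fun x : E n => x k :=
  ⟨by fun_prop, 1, zero_le_one, 1, fun x => by
    have h := PiLp.norm_apply_le x k
    rw [Real.norm_eq_abs] at h
    simp only [gp, pow_one, one_mul]
    nlinarith [sq_nonneg (‖x‖ - 1), sq_nonneg ‖x‖, norm_nonneg x]⟩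

theorem norm_sq : Poly fun x : E n => ‖x‖ ^ 2 :=
  ⟨by fun_prop, 1, zero_le_one, 1, fun x => by
    simp only [gp, pow_one, one_mul, abs_of_nonneg (sq_nonneg ‖x‖)]; linarith⟩

theorem mul (hF : Poly F) (hG : Poly G) : Poly fun x => F x * G x := by
  obtain ⟨hc, C, hC, m, h⟩ := hF
  obtain ⟨hc', C', hC', m', h'⟩ := hG
  refine ⟨hc.mul hc', C * C', mul_nonneg hC hC', m + m', fun x => ?_⟩
  rw [abs_mul]
  refine (mul_le_mul (h x) (h' x) (abs_nonneg _)
    ((abs_nonneg _).trans (h x))).trans_eq ?_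
  simp only [gp, pow_add]; ring

end Poly

/-- a function of `(t, θ)` together with its derivatives -/
structure Jet (n : ℕ) where
  /-- value -/
  val : ℝ → E n → ℝ
  /-- time derivative -/
  dt : ℝ → E n → ℝ
  /-- first space derivatives -/
  d1 : Fin n → ℝ → E n → ℝ
  /-- pure second space derivatives -/
  d2 : Fin n → ℝ → E n → ℝ

namespace Jet

/-- constant jet -/
def const (n : ℕ) (c : ℝ) : Jet n := ⟨fun _ _ => c, fun _ _ => 0, fun _ _ _ => 0, fun _ _ _ => 0⟩

/-- sum of jets -/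
def sum {ι : Type*} (s : Finset ι) (f : ι → Jet n) : Jet n :=
  ⟨fun t θ => ∑ i ∈ s, (f i).val t θ, fun t θ => ∑ i ∈ s, (f i).dt t θ,
    fun k t θ => ∑ i ∈ s, (f i).d1 k t θ, fun k t θ => ∑ i ∈ s, (f i).d2 k t θ⟩

/-- difference of jets -/
def sub (f g : Jet n) : Jet n :=
  ⟨fun t θ => f.val t θ - g.val t θ, fun t θ => f.dt t θ - g.dt t θ,
    fun k t θ => f.d1 k t θ - g.d1 k t θ, fun k t θ => f.d2 k t θ - g.d2 k t θ⟩

/-- product of jets -/
def mul (f g : Jet n) : Jet n :=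
  ⟨fun t θ => f.val t θ * g.val t θ, fun t θ => f.dt t θ * g.val t θ + f.val t θ * g.dt t θ,
    fun k t θ => f.d1 k t θ * g.val t θ + f.val t θ * g.d1 k t θ,
    fun k t θ =>
      f.d2 k t θ * g.val t θ + 2 * (f.d1 k t θ * g.d1 k t θ) + f.val t θ * g.d2 k t θ⟩

/-- composition with a scalar function with derivatives `φ1`, `φ2` -/
def comp (φ φ1 φ2 : ℝ → ℝ) (f : Jet n) : Jet n :=
  ⟨fun t θ => φ (f.val t θ), fun t θ => φ1 (f.val t θ) * f.dt t θ,
    fun k t θ => φ1 (f.val t θ) * f.d1 k t θ,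
    fun k t θ => φ2 (f.val t θ) * f.d1 k t θ ^ 2 + φ1 (f.val t θ) * f.d2 k t θ⟩

end Jet

namespace Base

variable (B : Base n)

/-- jet of `θ ↦ avg t θ F` -/
def avgJ (F : E n → ℝ) : Jet n :=
  ⟨fun t θ => B.avg t θ F,
    fun t θ => -(1 / 2) * (B.avg t θ (fun x => F x * ‖x‖ ^ 2) -
      B.avg t θ F * B.avg t θ fun x => ‖x‖ ^ 2),
    fun k t θ => B.avg t θ (fun x => F x * x k) - B.avg t θ F * B.avg t θ fun x => x k,
    fun k t θ => B.avg t θ (fun x => F x * (x k * x k))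
      - B.avg t θ (fun x => F x * x k) * B.avg t θ (fun x => x k)
      - ((B.avg t θ (fun x => F x * x k) - B.avg t θ F * B.avg t θ fun x => x k) *
          B.avg t θ (fun x => x k)
        + B.avg t θ F * (B.avg t θ (fun x => x k * x k)
          - B.avg t θ (fun x => x k) * B.avg t θ fun x => x k))⟩

/-- dominated by a tilted polynomial moment -/
def Tame (f : ℝ → E n → ℝ) : Prop :=
  ∃ C : ℝ, 0 ≤ C ∧ ∃ m : ℕ, ∀ t, 0 ≤ t → ∀ θ, |f t θ| ≤ C * B.avg t θ (gp m)

/-- `Tame` and continuous for `t ≥ 0` -/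
def Nice (f : ℝ → E n → ℝ) : Prop :=
  ContinuousOn (fun p : ℝ × E n => f p.1 p.2) (Ici 0 ×ˢ univ) ∧ B.Tame f

theorem avg_gp_nonneg {t : ℝ} (ht : 0 ≤ t) (θ : E n) (m : ℕ) : 1 ≤ B.avg t θ (gp m) := by
  have h := B.avg_mono ht θ (Good.const 1) (good_gp m) (one_le_gp m)
  rwa [B.avg_const ht] at h

theorem avg_gp_mono {t : ℝ} (ht : 0 ≤ t) (θ : E n) {a b : ℕ} (h : a ≤ b) :
    B.avg t θ (gp a) ≤ B.avg t θ (gp b) :=
  B.avg_mono ht θ (good_gp a) (good_gp b) (gp_mono h)

variable {B}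

theorem Nice.const (B : Base n) (c : ℝ) : B.Nice fun _ _ => c :=
  ⟨continuousOn_const, |c|, abs_nonneg c, 0, fun t ht θ =>
    le_mul_of_one_le_right (abs_nonneg c) (B.avg_gp_nonneg ht θ 0)⟩

theorem Nice.add {f g : ℝ → E n → ℝ} (hf : B.Nice f) (hg : B.Nice g) :
    B.Nice fun t θ => f t θ + g t θ := by
  obtain ⟨hc, C, hC, m, h⟩ := hf
  obtain ⟨hc', C', hC', m', h'⟩ := hg
  refine ⟨hc.add hc', C + C', add_nonneg hC hC', max m m', fun t ht θ => ?_⟩
  rw [add_mul]
  exact (abs_add_le _ _).trans (add_le_add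
    ((h t ht θ).trans (mul_le_mul_of_nonneg_left (B.avg_gp_mono ht θ (le_max_left _ _)) hC))
    ((h' t ht θ).trans (mul_le_mul_of_nonneg_left (B.avg_gp_mono ht θ (le_max_right _ _)) hC')))

theorem Nice.mul {f g : ℝ → E n → ℝ} (hf : B.Nice f) (hg : B.Nice g) :
    B.Nice fun t θ => f t θ * g t θ := by
  obtain ⟨hc, C, hC, m, h⟩ := hf
  obtain ⟨hc', C', hC', m', h'⟩ := hg
  set M := max m m'
  refine ⟨hc.mul hc', C * C', mul_nonneg hC hC', M + M, fun t ht θ => ?_⟩
  have h1 := (h t ht θ).trans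
    (mul_le_mul_of_nonneg_left (B.avg_gp_mono ht θ (le_max_left m m')) hC)
  have h2 := (h' t ht θ).trans
    (mul_le_mul_of_nonneg_left (B.avg_gp_mono ht θ (le_max_right m m')) hC')
  have h3 : B.avg t θ (gp M) ^ 2 ≤ B.avg t θ (gp (M + M)) := by
    refine (B.sq_avg_le ht θ (good_gp M)).trans_eq ?_
    congr 1; funext x
    simp only [gp, pow_add, pow_two]
  rw [abs_mul]
  calc |f t θ| * |g t θ| ≤ (C * B.avg t θ (gp M)) * (C' * B.avg t θ (gp M)) :=
        mul_le_mul h1 h2 (abs_nonneg _) ((abs_nonneg _).trans h1)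
    _ = C * C' * B.avg t θ (gp M) ^ 2 := by ring
    _ ≤ _ := mul_le_mul_of_nonneg_left h3 (mul_nonneg hC hC')

theorem Nice.const_mul {f : ℝ → E n → ℝ} (hf : B.Nice f) (c : ℝ) :
    B.Nice fun t θ => c * f t θ := (Nice.const B c).mul hf

theorem Nice.sub {f g : ℝ → E n → ℝ} (hf : B.Nice f) (hg : B.Nice g) :
    B.Nice fun t θ => f t θ - g t θ := by
  simpa [sub_eq_add_neg] using hf.add (hg.const_mul (-1))

theorem Nice.sum {ι : Type*} (s : Finset ι) {f : ι → ℝ → E n → ℝ}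
    (h : ∀ i ∈ s, B.Nice (f i)) : B.Nice fun t θ => ∑ i ∈ s, f i t θ := by
  classical
  induction s using Finset.induction with
  | empty => simpa using Nice.const B 0
  | insert a s ha ih =>
    simp only [Finset.sum_insert ha]
    exact (h a (Finset.mem_insert_self a s)).add (ih fun i hi => h i (Finset.mem_insert_of_mem hi))

theorem Nice.avg (B : Base n) {F : E n → ℝ} (hF : Poly F) : B.Nice fun t θ => B.avg t θ F := by
  have hg := hF.good
  obtain ⟨-, C, hC, m, h⟩ := hF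
  refine ⟨(B.continuousOn_num hg.1.aestronglyMeasurable hg.2).div ?_
    (fun p hp => (B.Z_pos hp.1 p.2).ne'), C, hC, m, fun t ht θ => ?_⟩
  · simpa [num_one] using
      B.continuousOn_num (F := fun _ => (1 : ℝ)) (by fun_prop) (expGrowth_const 1)
  · refine (B.abs_avg_le ht θ hg).trans ?_
    rw [← B.avg_const_mul]
    exact B.avg_mono ht θ hg.abs ((good_gp m).const_mul C) h

theorem Nice.comp {f : ℝ → E n → ℝ} (hf : B.Nice f) {φ : ℝ → ℝ} {S : Set ℝ} {C : ℝ}
    (hφ : ContinuousOn φ S) (hb : ∀ y ∈ S, |φ y| ≤ C) (hS : ∀ t, 0 ≤ t → ∀ θ, f t θ ∈ S) :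
    B.Nice fun t θ => φ (f t θ) :=
  ⟨hφ.comp hf.1 fun p hp => hS p.1 hp.1 p.2,
    |C|, abs_nonneg C, 0, fun t ht θ => ((hb _ (hS t ht θ)).trans (le_abs_self C)).trans
      (le_mul_of_one_le_right (abs_nonneg C) (B.avg_gp_nonneg ht θ 0))⟩

theorem Nice.continuous {f : ℝ → E n → ℝ} (hf : B.Nice f) {t : ℝ} (ht : 0 ≤ t) :
    Continuous (f t) :=
  hf.1.comp_continuous (by fun_prop : Continuous fun θ : E n => (t, θ))
    fun θ => ⟨ht, mem_univ θ⟩

theorem Nice.gBound_Z_mul {f : ℝ → E n → ℝ} (hf : B.Nice f) :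
    GBound fun t θ => B.Z t θ * f t θ := by
  obtain ⟨-, C, hC, m, h⟩ := hf
  refine B.gBound_of_le_num (good_gp m).1.aestronglyMeasurable (good_gp m).2 C hC fun t ht θ => ?_
  rw [abs_mul, abs_of_pos (B.Z_pos ht θ), B.num_eq_avg_mul ht]
  calc _ ≤ B.Z t θ * (C * B.avg t θ (gp m)) :=
        mul_le_mul_of_nonneg_left (h t ht θ) (B.Z_pos ht θ).le
    _ = _ := by ring

variable (B)

/-- a regular jet -/
structure JOk (f : Jet n) : Prop where
  nice : B.Nice f.val
  nice_dt : B.Nice f.dt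
  nice1 : ∀ k, B.Nice (f.d1 k)
  nice2 : ∀ k, B.Nice (f.d2 k)
  deriv : ∀ (τ : ℝ → ℝ) (θ : ℝ → E n) (s τ' : ℝ) (θ' : E n), HasDerivAt τ τ' s →
    HasDerivAt θ θ' s → 0 < τ s → HasDerivAt (fun r => f.val (τ r) (θ r))
      (τ' * f.dt (τ s) (θ s) + ∑ k, θ' k * f.d1 k (τ s) (θ s)) s
  deriv2 : ∀ t, 0 < t → ∀ (θ : E n) k,
    HasDerivAt (fun r : ℝ => f.d1 k t (θ + r • eb k)) (f.d2 k t θ) 0

theorem hasDerivAt_avg_eb {t : ℝ} (ht : 0 < t) (θ : E n) {F : E n → ℝ} (hF : Good F) (k : Fin n) :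
    HasDerivAt (fun r : ℝ => B.avg t (θ + r • eb k) F)
      (B.avg t θ (fun x => F x * x k) - B.avg t θ F * B.avg t θ fun x => x k) 0 := by
  have hc : HasDerivAt (fun r : ℝ => θ + r • eb k) (eb k) (0 : ℝ) := by
    simpa using ((hasDerivAt_id (0 : ℝ)).smul_const (eb k)).const_add θ
  refine (B.hasDerivAt_avg hF.1 hF.2 (hasDerivAt_const (0 : ℝ) t) hc ht).congr_deriv ?_
  simp [real_inner_comm _ (eb k), inner_eb]

variable {B}

theorem JOk.deriv_eb {f : Jet n} (hf : B.JOk f) {t : ℝ} (ht : 0 < t) (θ : E n) (k : Fin n) :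
    HasDerivAt (fun r : ℝ => f.val t (θ + r • eb k)) (f.d1 k t θ) 0 := by
  have hc : HasDerivAt (fun r : ℝ => θ + r • eb k) (eb k) (0 : ℝ) := by
    simpa using ((hasDerivAt_id (0 : ℝ)).smul_const (eb k)).const_add θ
  refine (hf.deriv _ _ 0 0 _ (hasDerivAt_const (0 : ℝ) t) hc ht).congr_deriv ?_
  simp [eb, PiLp.single_apply]

theorem jok_const (B : Base n) (c : ℝ) : B.JOk (Jet.const n c) where
  nice := Nice.const B c
  nice_dt := Nice.const B 0
  nice1 _ := Nice.const B 0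
  nice2 _ := Nice.const B 0
  deriv τ θ s τ' θ' _ _ _ := by simpa [Jet.const] using hasDerivAt_const s c
  deriv2 t _ θ k := by simpa [Jet.const] using hasDerivAt_const (0 : ℝ) (0 : ℝ)

theorem JOk.sum {ι : Type*} (s : Finset ι) {f : ι → Jet n} (h : ∀ i ∈ s, B.JOk (f i)) :
    B.JOk (Jet.sum s f) where
  nice := Nice.sum s fun i hi => (h i hi).nice
  nice_dt := Nice.sum s fun i hi => (h i hi).nice_dt
  nice1 k := Nice.sum s fun i hi => (h i hi).nice1 k
  nice2 k := Nice.sum s fun i hi => (h i hi).nice2 k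
  deriv τ θ r τ' θ' hτ hθ hr := by
    refine (HasDerivAt.fun_sum fun i hi => (h i hi).deriv τ θ r τ' θ' hτ hθ hr).congr_deriv ?_
    simp only [Jet.sum, Finset.sum_add_distrib, Finset.mul_sum]
    rw [Finset.sum_comm]
  deriv2 t ht θ k := HasDerivAt.fun_sum fun i hi => (h i hi).deriv2 t ht θ k

theorem JOk.sub {f g : Jet n} (hf : B.JOk f) (hg : B.JOk g) : B.JOk (f.sub g) where
  nice := hf.nice.sub hg.nice
  nice_dt := hf.nice_dt.sub hg.nice_dt
  nice1 k := (hf.nice1 k).sub (hg.nice1 k)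
  nice2 k := (hf.nice2 k).sub (hg.nice2 k)
  deriv τ θ r τ' θ' hτ hθ hr := by
    refine ((hf.deriv τ θ r τ' θ' hτ hθ hr).sub (hg.deriv τ θ r τ' θ' hτ hθ hr)).congr_deriv ?_
    simp only [Jet.sub, mul_sub, Finset.sum_sub_distrib]
    ring
  deriv2 t ht θ k := (hf.deriv2 t ht θ k).sub (hg.deriv2 t ht θ k)

theorem JOk.mul {f g : Jet n} (hf : B.JOk f) (hg : B.JOk g) : B.JOk (f.mul g) where
  nice := hf.nice.mul hg.nice
  nice_dt := (hf.nice_dt.mul hg.nice).add (hf.nice.mul hg.nice_dt)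
  nice1 k := ((hf.nice1 k).mul hg.nice).add (hf.nice.mul (hg.nice1 k))
  nice2 k := (((hf.nice2 k).mul hg.nice).add (((hf.nice1 k).mul (hg.nice1 k)).const_mul 2)).add
    (hf.nice.mul (hg.nice2 k))
  deriv τ θ r τ' θ' hτ hθ hr := by
    refine ((hf.deriv τ θ r τ' θ' hτ hθ hr).mul (hg.deriv τ θ r τ' θ' hτ hθ hr)).congr_deriv ?_
    simp only [Jet.mul, mul_add, add_mul, Finset.sum_add_distrib, Finset.mul_sum, Finset.sum_mul,
      mul_assoc, mul_left_comm (f.val (τ r) (θ r))]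
    ring
  deriv2 t ht θ k := by
    refine (((hf.deriv2 t ht θ k).mul (hg.deriv_eb ht θ k)).add
      ((hf.deriv_eb ht θ k).mul (hg.deriv2 t ht θ k))).congr_deriv ?_
    simp only [Jet.mul, zero_smul, add_zero]
    ring

theorem JOk.comp {f : Jet n} (hf : B.JOk f) {φ φ1 φ2 : ℝ → ℝ} {S : Set ℝ} {C : ℝ}
    (hS : ∀ t, 0 ≤ t → ∀ θ, f.val t θ ∈ S)
    (h1 : ∀ y ∈ S, HasDerivAt φ (φ1 y) y) (h2 : ∀ y ∈ S, HasDerivAt φ1 (φ2 y) y)
    (hc : ContinuousOn φ2 S) (hb : ∀ y ∈ S, |φ y| ≤ C ∧ |φ1 y| ≤ C ∧ |φ2 y| ≤ C) :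
    B.JOk (f.comp φ φ1 φ2) where
  nice := hf.nice.comp (fun y hy => (h1 y hy).continuousAt.continuousWithinAt)
    (fun y hy => (hb y hy).1) hS
  nice_dt := (hf.nice.comp (fun y hy => (h2 y hy).continuousAt.continuousWithinAt)
    (fun y hy => (hb y hy).2.1) hS).mul hf.nice_dt
  nice1 k := (hf.nice.comp (fun y hy => (h2 y hy).continuousAt.continuousWithinAt)
    (fun y hy => (hb y hy).2.1) hS).mul (hf.nice1 k)
  nice2 k := by
    have a := (hf.nice.comp hc (fun y hy => (hb y hy).2.2) hS).mul ((hf.nice1 k).mul (hf.nice1 k))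
    have b := (hf.nice.comp (fun y hy => (h2 y hy).continuousAt.continuousWithinAt)
      (fun y hy => (hb y hy).2.1) hS).mul (hf.nice2 k)
    simpa only [Jet.comp, ← pow_two] using a.add b
  deriv τ θ r τ' θ' hτ hθ hr := by
    refine ((h1 _ (hS _ hr.le _)).comp r (hf.deriv τ θ r τ' θ' hτ hθ hr)).congr_deriv ?_
    simp only [Jet.comp, mul_add, Finset.mul_sum]
    congr 1
    · ring
    · exact Finset.sum_congr rfl fun k _ => by ring
  deriv2 t ht θ k := by
    refine (((h2 (f.val t (θ + (0 : ℝ) • eb k)) (hS _ ht.le _)).comp (0 : ℝ)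
      (hf.deriv_eb ht θ k)).mul
      (hf.deriv2 t ht θ k)).congr_deriv ?_
    simp only [Jet.comp, zero_smul, add_zero, Function.comp_apply]
    ring

variable (B)

theorem jok_avgJ {F : E n → ℝ} (hF : Poly F) : B.JOk (B.avgJ F) where
  nice := Nice.avg B hF
  nice_dt := ((Nice.avg B (hF.mul Poly.norm_sq)).sub
    ((Nice.avg B hF).mul (Nice.avg B Poly.norm_sq))).const_mul _
  nice1 k := (Nice.avg B (hF.mul (Poly.coord k))).sub
    ((Nice.avg B hF).mul (Nice.avg B (Poly.coord k)))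
  nice2 k :=
    have m := Nice.avg B (Poly.coord k)
    have a := Nice.avg B (hF.mul (Poly.coord k))
    ((Nice.avg B (hF.mul ((Poly.coord k).mul (Poly.coord k)))).sub (a.mul m)).sub
      (((a.sub ((Nice.avg B hF).mul m)).mul m).add ((Nice.avg B hF).mul
        ((Nice.avg B ((Poly.coord k).mul (Poly.coord k))).sub (m.mul m))))
  deriv τ θ r τ' θ' hτ hθ hr := by
    refine (B.hasDerivAt_avg hF.good.1 hF.good.2 hτ hθ hr).congr_deriv ?_
    rw [B.avg_mul_inner hr.le _ hF.good, B.avg_inner hr.le, Finset.mul_sum,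
      ← Finset.sum_sub_distrib]
    simp only [avgJ]
    rw [add_comm (τ' * _), sub_eq_add_neg _ (τ' / 2 * _)]
    congr 1
    · exact Finset.sum_congr rfl fun k _ => by ring
    · ring
  deriv2 t ht θ k := by
    have g := hF.good
    refine ((B.hasDerivAt_avg_eb ht θ (g.mul (Good.coord k)) k).sub
      ((B.hasDerivAt_avg_eb ht θ g k).mul
        (B.hasDerivAt_avg_eb ht θ (Good.coord k) k))).congr_deriv ?_
    simp only [avgJ, zero_smul, add_zero, mul_assoc]

/-- the generator `∂ₜ + Δ/2 + mean·∇` -/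
def drift (f : Jet n) (t : ℝ) (θ : E n) : ℝ :=
  f.dt t θ + ∑ k, (1 / 2 * f.d2 k t θ + B.avg t θ (fun x => x k) * f.d1 k t θ)

theorem drift_const (c : ℝ) (t : ℝ) (θ : E n) : B.drift (Jet.const n c) t θ = 0 := by
  simp [drift, Jet.const]

theorem drift_sub (f g : Jet n) (t : ℝ) (θ : E n) :
    B.drift (f.sub g) t θ = B.drift f t θ - B.drift g t θ := by
  simp only [drift, Jet.sub, mul_sub, Finset.sum_sub_distrib, Finset.sum_add_distrib]
  ring

theorem drift_sum {ι : Type*} (s : Finset ι) (f : ι → Jet n) (t : ℝ) (θ : E n) :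
    B.drift (Jet.sum s f) t θ = ∑ i ∈ s, B.drift (f i) t θ := by
  simp only [drift, Jet.sum, Finset.mul_sum, ← Finset.sum_add_distrib]
  rw [Finset.sum_comm, ← Finset.sum_add_distrib]

theorem drift_mul (f g : Jet n) (t : ℝ) (θ : E n) :
    B.drift (f.mul g) t θ = B.drift f t θ * g.val t θ + f.val t θ * B.drift g t θ
      + ∑ k, f.d1 k t θ * g.d1 k t θ := by
  simp only [drift, Jet.mul, add_mul, mul_add, Finset.sum_mul, Finset.mul_sum,
    Finset.sum_add_distrib]
  simp only [mul_assoc, mul_left_comm (f.val t θ), ← Finset.mul_sum]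
  ring

theorem drift_comp (φ φ1 φ2 : ℝ → ℝ) (f : Jet n) (t : ℝ) (θ : E n) :
    B.drift (f.comp φ φ1 φ2) t θ = φ1 (f.val t θ) * B.drift f t θ
      + φ2 (f.val t θ) / 2 * ∑ k, f.d1 k t θ ^ 2 := by
  simp only [drift, Jet.comp, mul_add, Finset.mul_sum, Finset.sum_add_distrib, add_assoc]
  simp only [mul_left_comm _ (φ1 (f.val t θ)), ← Finset.mul_sum]
  simp only [mul_left_comm (1 / 2 : ℝ), mul_left_comm _ (φ2 (f.val t θ)), ← Finset.mul_sum]
  ring

theorem drift_avgJ {t : ℝ} (ht : 0 ≤ t) (θ : E n) {F : E n → ℝ} (hF : Good F) :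
    B.drift (B.avgJ F) t θ = 0 := by
  have e1 : B.avg t θ (fun x => F x * ‖x‖ ^ 2) =
      ∑ k, B.avg t θ fun x => F x * (x k * x k) := by
    simp only [avg, B.num_mul_norm_sq ht θ hF, Finset.sum_div]
  have e2 : B.avg t θ (fun x => ‖x‖ ^ 2) = ∑ k, B.avg t θ fun x => x k * x k := by
    have := B.num_mul_norm_sq ht θ (Good.const 1)
    simp only [one_mul] at this
    simp only [avg, this, Finset.sum_div]
  simp only [drift, avgJ, e1, e2, Finset.mul_sum, ← Finset.sum_sub_distrib,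
    ← Finset.sum_add_distrib]
  exact Finset.sum_eq_zero fun k _ => by ring

theorem continuousOn_gam_Z_mul {f : ℝ → E n → ℝ} (hf : B.Nice f) :
    ContinuousOn (fun t => ∫ z, B.Z t (√t • z) * f t (√t • z) ∂gam n) (Ici 0) := by
  refine hf.gBound_Z_mul.continuousOn_integral (ContinuousOn.mul ?_ hf.1)
  simpa [num_one] using
    B.continuousOn_num (F := fun _ => (1 : ℝ)) (by fun_prop) (expGrowth_const 1)

theorem hasDerivAt_gam_Z_mul {f : Jet n} (hf : B.JOk f) {t : ℝ} (ht : 0 < t) :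
    HasDerivAt (fun s => ∫ z, B.Z s (√s • z) * f.val s (√s • z) ∂gam n)
      (∫ z, B.Z t (√t • z) * B.drift f t (√t • z) ∂gam n) t := by
  have m : ∀ k, B.Nice fun t θ => B.avg t θ fun x => x k := fun k => Nice.avg B (Poly.coord k)
  have q : ∀ k, B.Nice fun t θ => B.avg t θ fun x => x k * x k :=
    fun k => Nice.avg B ((Poly.coord k).mul (Poly.coord k))
  have r := Nice.avg B (Poly.norm_sq (n := n))
  have nt : B.Nice fun t θ =>
      -(1 / 2) * B.avg t θ (fun x => ‖x‖ ^ 2) * f.val t θ + f.dt t θ :=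
    ((r.const_mul _).mul hf.nice).add hf.nice_dt
  have n1 : ∀ k, B.Nice fun t θ => B.avg t θ (fun x => x k) * f.val t θ + f.d1 k t θ :=
    fun k => ((m k).mul hf.nice).add (hf.nice1 k)
  have n2 : ∀ k, B.Nice fun t θ => B.avg t θ (fun x => x k * x k) * f.val t θ
      + 2 * (B.avg t θ (fun x => x k) * f.d1 k t θ) + f.d2 k t θ :=
    fun k => (((q k).mul hf.nice).add (((m k).mul (hf.nice1 k)).const_mul 2)).add (hf.nice2 k)
  have h := hasDerivAt_gam_integral (G := fun t θ => B.Z t θ * f.val t θ)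
    (Gt := fun t θ => B.Z t θ *
      (-(1 / 2) * B.avg t θ (fun x => ‖x‖ ^ 2) * f.val t θ + f.dt t θ))
    (G1 := fun k t θ => B.Z t θ * (B.avg t θ (fun x => x k) * f.val t θ + f.d1 k t θ))
    (G2 := fun k t θ => B.Z t θ * (B.avg t θ (fun x => x k * x k) * f.val t θ
      + 2 * (B.avg t θ (fun x => x k) * f.d1 k t θ) + f.d2 k t θ))
    hf.nice.gBound_Z_mul nt.gBound_Z_mul (fun k => (n1 k).gBound_Z_mul)
    (fun k => (n2 k).gBound_Z_mul)
    (fun s hs => ⟨(B.continuous_Z hs.le).mul (hf.nice.continuous hs.le),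
      (B.continuous_Z hs.le).mul (nt.continuous hs.le), fun k =>
        ⟨(B.continuous_Z hs.le).mul ((n1 k).continuous hs.le),
          (B.continuous_Z hs.le).mul ((n2 k).continuous hs.le)⟩⟩)
    (fun τ θ s τ' θ' hτ hθ hs => by
      refine ((B.hasDerivAt_Z hτ hθ hs).mul (hf.deriv τ θ s τ' θ' hτ hθ hs)).congr_deriv ?_
      rw [B.num_eq_avg_mul hs.le, B.num_eq_avg_mul hs.le, B.avg_inner hs.le]
      simp only [mul_add, Finset.mul_sum, Finset.sum_mul, Finset.sum_add_distrib,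
        sub_mul, add_mul]
      simp only [mul_assoc, mul_comm, mul_left_comm]
      ring)
    (fun s hs θ k => by
      show HasDerivAt (fun r : ℝ => B.Z s (θ + r • eb k) *
        (B.avg s (θ + r • eb k) (fun x => x k) * f.val s (θ + r • eb k)
          + f.d1 k s (θ + r • eb k))) _ 0
      have hZ := B.hasDerivAt_num_eb hs θ (Good.const 1) k
      simp only [num_one, one_mul] at hZ
      refine (hZ.mul (((B.hasDerivAt_avg_eb hs θ (Good.coord k) k).mul
        (hf.deriv_eb hs θ k)).add (hf.deriv2 s hs θ k))).congr_deriv ?_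
      simp only [zero_smul, add_zero]
      rw [B.num_eq_avg_mul hs.le]
      simp only [Pi.add_apply, Pi.mul_apply, zero_smul, add_zero]
      ring)
    ht
  refine h.congr_deriv (integral_congr_ae (.of_forall fun z => ?_))
  have e2 : B.avg t (√t • z) (fun x => ‖x‖ ^ 2) =
      ∑ k, B.avg t (√t • z) fun x => x k * x k := by
    have := B.num_mul_norm_sq ht.le (√t • z) (Good.const 1)
    simp only [one_mul] at this
    simp only [avg, this, Finset.sum_div]
  have e3 : ∑ k, (B.avg t (√t • z) (fun x => x k * x k) * f.val t (√t • z)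
      + 2 * (B.avg t (√t • z) (fun x => x k) * f.d1 k t (√t • z)) + f.d2 k t (√t • z)) =
      (∑ k, B.avg t (√t • z) fun x => x k * x k) * f.val t (√t • z) + 2 * ∑ k,
        (1 / 2 * f.d2 k t (√t • z) + B.avg t (√t • z) (fun x => x k) * f.d1 k t (√t • z)) := by
    rw [Finset.sum_mul, Finset.mul_sum, ← Finset.sum_add_distrib]
    exact Finset.sum_congr rfl fun k _ => by ring
  simp only [← Finset.mul_sum, drift, e3, e2]
  ring

end Base

end Vale.Agent.P245.Local
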