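import Vale.Agent.P245.Local.Lich.Density

/-!
# P245: Lichnerowicz's inequality and its improvement through the covariance

For a density `exp (-V)` with `D²V ≥ t` whose covariance is at most `R` in every direction, the
Poincaré constant is at most `1 / t` and at most `√(R / t)`.
-/

open MeasureTheory Real Set Filter
open scoped RealInnerProductSpace ENNReal Topology ContDiff

noncomputable section

namespace Vale.Agent.P245.Local

variable {n : ℕ}

theorem Test.zero : Test (fun _ : E n => (0 : ℝ)) := ⟨contDiff_const, HasCompactSupport.zero⟩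

theorem Test.add {u v : E n → ℝ} (hu : Test u) (hv : Test v) : Test fun x => u x + v x :=
  ⟨hu.1.add hv.1, hu.2.add hv.2⟩

theorem Test.const_mul {u : E n → ℝ} (hu : Test u) (c : ℝ) : Test fun x => c * u x :=
  ⟨contDiff_const.mul hu.1, hu.2.mul_left⟩

theorem pd_add {f g : E n → ℝ} (hf : ContDiff ℝ 1 f) (hg : ContDiff ℝ 1 g) (k : Fin n) :
    pd k (fun y => f y + g y) = fun x => pd k f x + pd k g x := funext fun x => by
  simp [pd, fderiv_fun_add (hf.differentiable one_ne_zero x) (hg.differentiable one_ne_zero x)]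

theorem pd_const_mul {f : E n → ℝ} (hf : ContDiff ℝ 1 f) (c : ℝ) (k : Fin n) :
    pd k (fun y => c * f y) = fun x => c * pd k f x := funext fun x => by
  simp [pd, fderiv_const_mul (hf.differentiable one_ne_zero x)]

theorem pd_const (c : ℝ) (k : Fin n) : pd k (fun _ : E n => c) = fun _ => 0 := funext fun x => by
  simp [pd]

namespace Base

variable (B : Base n)

theorem gen_zero : B.gen (fun _ => (0 : ℝ)) = fun _ => 0 := funext fun x => by
  simp [gen, pd_const]

theorem gen_add {u v : E n → ℝ} (hu : Test u) (hv : Test v) (x : E n) :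
    B.gen (fun y => u y + v y) x = B.gen u x + B.gen v x := by
  simp only [gen, pd_add (hu.of_le 1) (hv.of_le 1),
    fun k => pd_add ((hu.pd k).of_le 1) ((hv.pd k).of_le 1) k, ← Finset.sum_add_distrib]
  exact Finset.sum_congr rfl fun k _ => by ring

theorem gen_const_mul {u : E n → ℝ} (hu : Test u) (c : ℝ) (x : E n) :
    B.gen (fun y => c * u y) x = c * B.gen u x := by
  simp only [gen, pd_const_mul (hu.of_le 1),
    fun k => pd_const_mul ((hu.pd k).of_le 1) c k, Finset.mul_sum]
  exact Finset.sum_congr rfl fun k _ => by ring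

theorem memLp_gen {u : E n → ℝ} (hu : Test u) : MemLp (B.gen u) 2 B.μ :=
  (B.contDiff_gen hu).continuous.memLp_of_hasCompactSupport (B.hasCompactSupport_gen hu)

/-- The range of the generator is dense among functions of mean zero. -/
theorem gen_dense {g : E n → ℝ} (hg : MemLp g 2 B.μ) (h0 : ∫ x, g x ∂B.μ = 0) {δ : ℝ}
    (hδ : 0 < δ) : ∃ u, Test u ∧ ∫ x, (g x - B.gen u x) ^ 2 ∂B.μ ≤ δ := by
  set S : Set (Lp ℝ 2 B.μ) :=
    {F | ∃ u c, Test u ∧ (F : E n → ℝ) =ᵐ[B.μ] fun x => B.gen u x + c} with hS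
  have hspan : ∀ F ∈ Submodule.span ℝ S, F ∈ S := fun F hF => by
    induction hF using Submodule.span_induction with
    | mem F h => exact h
    | zero =>
      refine ⟨fun _ => 0, 0, Test.zero, ?_⟩
      filter_upwards [Lp.coeFn_zero ℝ 2 B.μ] with x hx
      simp [hx, gen_zero]
    | add F F' _ _ h h' =>
      obtain ⟨u, c, hu, he⟩ := h
      obtain ⟨u', c', hu', he'⟩ := h'
      refine ⟨_, c + c', hu.add hu', ?_⟩
      filter_upwards [Lp.coeFn_add F F', he, he'] with x hx h1 h2
      rw [hx, Pi.add_apply, h1, h2, B.gen_add hu hu']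
      ring
    | smul a F _ h =>
      obtain ⟨u, c, hu, he⟩ := h
      refine ⟨_, a * c, hu.const_mul a, ?_⟩
      filter_upwards [Lp.coeFn_smul a F, he] with x hx h1
      rw [hx, Pi.smul_apply, smul_eq_mul, h1, B.gen_const_mul hu]
      ring
  have hbot : (Submodule.span ℝ S)ᗮ = ⊥ := by
    rw [Submodule.eq_bot_iff]
    intro F hF
    have hor : ∀ G ∈ S, ∫ x, (F : E n → ℝ) x * (G : E n → ℝ) x ∂B.μ = 0 := fun G hG => by
      have h := Submodule.inner_right_of_mem_orthogonal (Submodule.subset_span hG) hF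
      rw [L2.inner_def] at h
      rw [← h]
      exact integral_congr_ae (.of_forall fun x => by simp [mul_comm])
    have ho : B.Orth (F : E n → ℝ) := by
      refine ⟨Lp.aestronglyMeasurable F,
        (memLp_two_iff_integrable_sq (Lp.aestronglyMeasurable F)).1 (Lp.memLp F), fun u hu => ?_⟩
      rw [← hor ((B.memLp_gen hu).toLp _) ⟨u, 0, hu, ?_⟩]
      · refine integral_congr_ae ?_
        filter_upwards [(B.memLp_gen hu).coeFn_toLp] with x hx
        rw [hx]
      · filter_upwards [(B.memLp_gen hu).coeFn_toLp] with x hx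
        rw [hx, add_zero]
    obtain ⟨c, hc⟩ := ho.ae_const
    have hc' : ∀ᵐ x ∂B.μ, (F : E n → ℝ) x = c :=
      (withDensity_absolutelyContinuous _ _).ae_le hc
    have h1 : MemLp (fun _ : E n => (1 : ℝ)) 2 B.μ := memLp_const 1
    have h2 := hor (h1.toLp _) ⟨fun _ => 0, 1, Test.zero, by
      filter_upwards [h1.coeFn_toLp] with x hx
      simp [hx, gen_zero]⟩
    have h3 : ∫ x, (F : E n → ℝ) x * (h1.toLp _ : E n → ℝ) x ∂B.μ = c := by
      rw [integral_congr_ae (g := fun _ => c) ?_]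
      · simp
      · filter_upwards [hc', h1.coeFn_toLp] with x hx hx'
        rw [hx, hx', mul_one]
    rw [h3] at h2
    refine Lp.ext ?_
    filter_upwards [hc', Lp.coeFn_zero ℝ 2 B.μ] with x hx hx'
    rw [hx, hx', h2]
    rfl
  have hmem : hg.toLp g ∈ (Submodule.span ℝ S).topologicalClosure := by
    rw [Submodule.topologicalClosure_eq_top_iff.2 hbot]; exact Submodule.mem_top
  rw [← SetLike.mem_coe, Submodule.topologicalClosure_coe, Metric.mem_closure_iff] at hmem
  obtain ⟨F, hF, hd⟩ := hmem √δ (sqrt_pos.2 hδ)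
  obtain ⟨u, c, hu, he⟩ := hspan F hF
  refine ⟨u, hu, ?_⟩
  have e1 : ∫ x, (g x - B.gen u x - c) ^ 2 ∂B.μ = ‖hg.toLp g - F‖ ^ 2 := by
    rw [← real_inner_self_eq_norm_sq, L2.inner_def]
    refine integral_congr_ae ?_
    filter_upwards [Lp.coeFn_sub (hg.toLp g) F, hg.coeFn_toLp, he] with x hx h1 h2
    rw [hx, Pi.sub_apply, h1, h2]
    simp only [RCLike.inner_apply, conj_trivial]
    ring
  have e2 : ‖hg.toLp g - F‖ ^ 2 ≤ δ := by
    rw [← dist_eq_norm, ← sq_sqrt hδ.le]
    exact pow_le_pow_left₀ dist_nonneg hd.le 2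
  have hi : Integrable (fun x => g x - B.gen u x) B.μ :=
    (hg.integrable one_le_two).sub ((B.memLp_gen hu).integrable one_le_two)
  have hm : ∫ x, (g x - B.gen u x) ∂B.μ = 0 := by
    rw [integral_sub (hg.integrable one_le_two) ((B.memLp_gen hu).integrable one_le_two), h0,
      B.integral_gen hu, sub_zero]
  have hsq : Integrable (fun x => (g x - B.gen u x) ^ 2) B.μ := (hg.sub (B.memLp_gen hu)).integrable_sq
  have i1 : Integrable (fun x => (g x - B.gen u x) ^ 2 - 2 * c * (g x - B.gen u x)) B.μ :=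
    hsq.sub (hi.const_mul _)
  have e3 : ∀ x, (g x - B.gen u x - c) ^ 2 =
      (g x - B.gen u x) ^ 2 - 2 * c * (g x - B.gen u x) + c ^ 2 := fun x => by ring
  simp only [e3] at e1
  rw [integral_add i1 (integrable_const _), integral_sub hsq (hi.const_mul _), integral_const_mul,
    hm, integral_const, probReal_univ, one_smul] at e1
  nlinarith [sq_nonneg c]

/-- A Poincaré inequality with constant `C`. -/
def Valid (C : ℝ) : Prop :=
  ∀ f : E n → ℝ, ContDiff ℝ 1 f → ExpGrowth f → (ExpGrowth fun x => ‖fderiv ℝ f x‖) →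
    ∫ x, (f x - ∫ y, f y ∂B.μ) ^ 2 ∂B.μ ≤ C * ∫ x, ‖fderiv ℝ f x‖ ^ 2 ∂B.μ

theorem expGrowth_pd {f : E n → ℝ} (hg' : ExpGrowth fun x => ‖fderiv ℝ f x‖) (k : Fin n) :
    ExpGrowth (pd k f) :=
  hg'.of_abs_le fun x => by
    rw [abs_norm, ← Real.norm_eq_abs]
    refine ((fderiv ℝ f x).le_opNorm _).trans_eq ?_
    rw [norm_ei, mul_one]

theorem sum_integral_pd_sq {f : E n → ℝ} (hf : ContDiff ℝ 1 f)
    (hg' : ExpGrowth fun x => ‖fderiv ℝ f x‖) :
    ∑ k, ∫ x, pd k f x ^ 2 ∂B.μ = ∫ x, ‖fderiv ℝ f x‖ ^ 2 ∂B.μ := by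
  have hi : ∀ k, Integrable (fun x => pd k f x ^ 2) B.μ := fun k =>
    B.integrable_of_growth ((continuous_pd hf k).pow 2).aestronglyMeasurable (expGrowth_pd hg' k).sq
  rw [← integral_finsetSum _ fun k _ => hi k]
  simp only [sum_pd_sq]

/-- A bound on gradients by the generator gives a Poincaré inequality. -/
theorem valid_of_bound {K : ℝ} (hK : 0 ≤ K) (h : ∀ u, Test u → B.sizeD u ≤ K * B.sizeL u) :
    B.Valid K := by
  intro f hf hg hg'
  set m := ∫ y, f y ∂B.μ
  set g := fun x => f x - m with hgdef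
  have hgc : Continuous g := hf.continuous.sub continuous_const
  have hgg : ExpGrowth g := hg.sub (expGrowth_const m)
  have hsq : Integrable (fun x => g x ^ 2) B.μ :=
    B.integrable_of_growth (hgc.pow 2).aestronglyMeasurable hgg.sq
  have hfi : Integrable f B.μ := B.integrable_of_growth hf.continuous.aestronglyMeasurable hg
  have h0 : ∫ x, g x ∂B.μ = 0 := by
    simp only [hgdef]
    rw [integral_sub hfi (integrable_const _), integral_const, probReal_univ, one_smul, sub_self]
  set N := ∫ x, g x ^ 2 ∂B.μ with hN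
  set F := ∫ x, ‖fderiv ℝ f x‖ ^ 2 ∂B.μ with hFdef
  have hN0 : 0 ≤ N := integral_nonneg fun x => sq_nonneg _
  have hF0 : 0 ≤ F := integral_nonneg fun x => sq_nonneg _
  set s := √N with hsdef
  set q := √(K * F) with hqdef
  have main : ∀ η : ℝ, 0 < η → s ^ 2 ≤ s * q + η := by
    intro η hη
    have hsq' : (0 : ℝ) < s + q + 1 := by positivity
    obtain ⟨u, hu, hδ⟩ := B.gen_dense
      ((memLp_two_iff_integrable_sq hgc.aestronglyMeasurable).2 hsq) h0
      (show 0 < (η / (s + q + 1)) ^ 2 by positivity)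
    have hLc := (B.contDiff_gen hu).continuous
    have hLs := B.hasCompactSupport_gen hu
    set a := ∫ x, g x * (g x - B.gen u x) ∂B.μ
    set b := ∫ x, g x * B.gen u x ∂B.μ
    set e := ∫ x, (g x - B.gen u x) ^ 2 ∂B.μ
    have igL : Integrable (fun x => g x * B.gen u x) B.μ :=
      B.integrable_cc (hgc.mul hLc) hLs.mul_left
    have iga : Integrable (fun x => g x * (g x - B.gen u x)) B.μ :=
      (hsq.sub igL).congr (.of_forall fun x => show g x ^ 2 - g x * B.gen u x = _ by ring)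
    have ie : Integrable (fun x => (g x - B.gen u x) ^ 2) B.μ :=
      (iga.sub (igL.sub (B.memLp_gen hu).integrable_sq)).congr (.of_forall fun x =>
        show g x * (g x - B.gen u x) - (g x * B.gen u x - B.gen u x ^ 2) = _ by ring)
    have hab : N = a + b := by
      rw [← integral_add iga igL]; exact integral_congr_ae (.of_forall fun x => by ring)
    have hS : B.sizeL u = e - a + b := by
      have i5 : Integrable (fun x => (g x - B.gen u x) ^ 2 - g x * (g x - B.gen u x)) B.μ :=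
        ie.sub iga
      rw [← integral_sub ie iga, ← integral_add i5 igL]
      exact integral_congr_ae (.of_forall fun x => by ring)
    have he0 : 0 ≤ e := integral_nonneg fun x => sq_nonneg _
    have ha : |a| ≤ s * √e := by
      rw [hsdef, ← sqrt_mul hN0]
      exact abs_le_sqrt (sq_integral_mul_le hsq ie iga)
    have hb : b ^ 2 ≤ F * B.sizeD u := by
      have h1 : b = -∑ k, ∫ x, pd k f x * pd k u x ∂B.μ := by
        have := B.integral_mul_gen (f := g) (hf.sub contDiff_const) hu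
        simpa [hgdef, pd, fderiv_sub_const] using this
      rw [h1, neg_sq, hFdef, ← B.sum_integral_pd_sq hf hg', sizeD]
      refine Finset.sum_sq_le_sum_mul_sum_of_sq_le_mul _ (fun k _ => integral_nonneg fun x => sq_nonneg _)
        (fun k _ => integral_nonneg fun x => sq_nonneg _) fun k _ => ?_
      exact sq_integral_mul_le
        (B.integrable_of_growth ((continuous_pd hf k).pow 2).aestronglyMeasurable
          (expGrowth_pd hg' k).sq)
        (B.integrable_cc ((hu.pd k).1.continuous.pow 2)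
          ((hu.pd k).2.comp_left (g := fun r : ℝ => r ^ 2) (by norm_num)))
        (B.integrable_cc ((continuous_pd hf k).mul (hu.pd k).1.continuous) (hu.pd k).2.mul_left)
    have hs2 : s ^ 2 = N := sq_sqrt hN0
    have hS0 : 0 ≤ B.sizeL u := integral_nonneg fun x => sq_nonneg _
    have hb' : |b| ≤ q * √(B.sizeL u) := by
      rw [hqdef, ← sqrt_mul (mul_nonneg hK hF0)]
      refine abs_le_sqrt (hb.trans ?_)
      calc F * B.sizeD u ≤ F * (K * B.sizeL u) := mul_le_mul_of_nonneg_left (h u hu) hF0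
        _ = _ := by ring
    have hL : √(B.sizeL u) ≤ s + √e := by
      refine sqrt_le_iff.2 ⟨by positivity, ?_⟩
      rw [hS, add_sq, hs2, sq_sqrt he0]
      linarith [(abs_le.1 ha).1]
    have hee : √e ≤ η / (s + q + 1) := sqrt_le_iff.2 ⟨by positivity, hδ⟩
    have hfin : (s + q) * √e ≤ η := by
      refine (mul_le_mul_of_nonneg_left hee (by positivity)).trans ?_
      rw [mul_div_assoc', div_le_iff₀ hsq']
      nlinarith
    have := mul_le_mul_of_nonneg_left hL (sqrt_nonneg (K * F))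
    rw [← hqdef] at this
    nlinarith [le_abs_self a, le_abs_self b]
  have hfinal : s ^ 2 ≤ s * q := le_of_forall_pos_le_add main
  have hsq2 : s ^ 2 ≤ q ^ 2 := by
    nlinarith [sq_nonneg (s - q)]
  rw [hsdef, hqdef, sq_sqrt hN0, sq_sqrt (mul_nonneg hK hF0)] at hsq2
  exact hsq2

/-- One step of improvement. -/
theorem valid_improve {t R C : ℝ} (ht : 0 < t) (hs : B.Strong t) (hR : 0 ≤ R)
    (hcov : ∀ v : E n, ∫ x, (⟪v, x⟫ - ∫ y, ⟪v, y⟫ ∂B.μ) ^ 2 ∂B.μ ≤ R * ‖v‖ ^ 2)
    (hC0 : 0 ≤ C) (hC : B.Valid C) : B.Valid ((R + C) / (1 + t * C)) := by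
  refine B.valid_of_bound (by positivity) fun u hu => ?_
  have hH := B.bochner hs hu
  have hW := B.sum_mean_sq_le hR hcov hu
  have hk : ∀ k, ∫ x, pd k u x ^ 2 ∂B.μ - (∫ x, pd k u x ∂B.μ) ^ 2 ≤
      C * ∑ j, ∫ x, pd j (pd k u) x ^ 2 ∂B.μ := by
    intro k
    obtain ⟨b, hb⟩ := (hu.pd k).2.exists_bound_of_continuous (hu.pd k).1.continuous
    obtain ⟨b', hb'⟩ := ((hu.pd k).2.fderiv ℝ).exists_bound_of_continuous
      (((hu.pd k).of_le 1).continuous_fderiv one_ne_zero)
    have hg' : ExpGrowth fun x => ‖fderiv ℝ (pd k u) x‖ :=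
      expGrowth_bounded fun x => by rw [abs_norm]; exact hb' x
    have := hC (pd k u) ((hu.pd k).of_le 1)
      (expGrowth_bounded fun x => by simpa [Real.norm_eq_abs] using hb x) hg'
    rw [← B.sum_integral_pd_sq ((hu.pd k).of_le 1) hg'] at this
    refine le_trans (le_of_eq ?_) this
    set m := ∫ x, pd k u x ∂B.μ
    have i1 : Integrable (fun x => pd k u x ^ 2) B.μ :=
      B.integrable_cc ((hu.pd k).1.continuous.pow 2)
        ((hu.pd k).2.comp_left (g := fun r : ℝ => r ^ 2) (by norm_num))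
    have i2 : Integrable (pd k u) B.μ := B.integrable_cc (hu.pd k).1.continuous (hu.pd k).2
    have i3 : Integrable (fun x => pd k u x ^ 2 - 2 * m * pd k u x) B.μ := i1.sub (i2.const_mul _)
    have e : ∀ x, (pd k u x - m) ^ 2 = pd k u x ^ 2 - 2 * m * pd k u x + m ^ 2 := fun x => by ring
    simp only [e]
    rw [integral_add i3 (integrable_const _), integral_sub i1 (i2.const_mul _), integral_const_mul,
      integral_const, probReal_univ, one_smul]
    ring
  have hsum := Finset.sum_le_sum fun k (_ : k ∈ Finset.univ) => hk k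
  rw [Finset.sum_sub_distrib, ← Finset.mul_sum] at hsum
  change B.sizeD u - _ ≤ C * B.sizeH u at hsum
  have := mul_le_mul_of_nonneg_left hH hC0
  rw [div_mul_eq_mul_div, le_div_iff₀ (by positivity)]
  linarith

theorem valid_inv {t : ℝ} (ht : 0 < t) (hs : B.Strong t) : B.Valid t⁻¹ := by
  refine B.valid_of_bound (inv_nonneg.2 ht.le) fun u hu => ?_
  have hH := B.bochner hs hu
  have h0 : 0 ≤ B.sizeH u := Finset.sum_nonneg fun k _ => Finset.sum_nonneg fun j _ =>
    integral_nonneg fun x => sq_nonneg _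
  rw [inv_mul_eq_div, le_div_iff₀ ht]
  linarith

/-- Lichnerowicz's inequality. -/
theorem poincare_strong {t : ℝ} (ht : 0 < t) (hs : B.Strong t) {f : E n → ℝ}
    (hf : ContDiff ℝ 1 f) (hg : ExpGrowth f) (hg' : ExpGrowth fun x => ‖fderiv ℝ f x‖) :
    ∫ x, (f x - ∫ y, f y ∂B.μ) ^ 2 ∂B.μ ≤ t⁻¹ * ∫ x, ‖fderiv ℝ f x‖ ^ 2 ∂B.μ :=
  B.valid_inv ht hs f hf hg hg'

/-- The improved Lichnerowicz inequality. -/
theorem poincare_cov {t R : ℝ} (ht : 0 < t) (hs : B.Strong t) (hR : 0 ≤ R)
    (hcov : ∀ v : E n, ∫ x, (⟪v, x⟫ - ∫ y, ⟪v, y⟫ ∂B.μ) ^ 2 ∂B.μ ≤ R * ‖v‖ ^ 2) {f : E n → ℝ}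
    (hf : ContDiff ℝ 1 f) (hg : ExpGrowth f) (hg' : ExpGrowth fun x => ‖fderiv ℝ f x‖) :
    ∫ x, (f x - ∫ y, f y ∂B.μ) ^ 2 ∂B.μ ≤ √(R / t) * ∫ x, ‖fderiv ℝ f x‖ ^ 2 ∂B.μ := by
  set S := {C : ℝ | 0 ≤ C ∧ B.Valid C}
  have hne : S.Nonempty := ⟨t⁻¹, inv_nonneg.2 ht.le, B.valid_inv ht hs⟩
  have hbd : BddBelow S := ⟨0, fun C hC => hC.1⟩
  set c := sInf S
  have hc0 : 0 ≤ c := le_csInf hne fun C hC => hC.1
  have hcv : B.Valid c := fun f hf hg hg' => by
    have hF : 0 ≤ ∫ x, ‖fderiv ℝ f x‖ ^ 2 ∂B.μ := integral_nonneg fun x => sq_nonneg _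
    refine le_of_forall_pos_le_add fun η hη => ?_
    obtain ⟨C, hC, hlt⟩ := exists_lt_of_csInf_lt hne
      (lt_add_of_pos_right c (show 0 < η / ((∫ x, ‖fderiv ℝ f x‖ ^ 2 ∂B.μ) + 1) by positivity))
    refine (hC.2 f hf hg hg').trans ((mul_le_mul_of_nonneg_right hlt.le hF).trans ?_)
    rw [add_mul]
    gcongr
    rw [div_mul_eq_mul_div, div_le_iff₀ (by positivity)]
    nlinarith
  have hle : c ≤ (R + c) / (1 + t * c) :=
    csInf_le hbd ⟨by positivity, B.valid_improve ht hs hR hcov hc0 hcv⟩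
  have hcr : c ≤ √(R / t) := by
    rw [le_div_iff₀ (by positivity)] at hle
    refine le_sqrt_of_sq_le ?_
    rw [le_div_iff₀ ht]
    nlinarith
  exact (hcv f hf hg hg').trans
    (mul_le_mul_of_nonneg_right hcr (integral_nonneg fun x => sq_nonneg _))

end Base

end Vale.Agent.P245.Local
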