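import Vale.Agent.P245.Local.Criterion

/-!
# P245: log-Sobolev inequality from the good set
-/

open MeasureTheory Real Set Filter
open scoped RealInnerProductSpace ENNReal Topology

noncomputable section

namespace Vale.Agent.P245.Local

variable {n : ℕ}

/-- `(1+g)² log (1+g)² - (1+g)² + 1 ≤ 11 g² + 2 g² log⁺ g²` -/
theorem phi_le {g : ℝ} (hg : -1 < g) :
    (1 + g) ^ 2 * log ((1 + g) ^ 2) - (1 + g) ^ 2 + 1 ≤ 11 * g ^ 2 + 2 * (g ^ 2 * max 0 (log (g ^ 2))) := by
  have h1 : 0 < 1 + g := by linarith
  have hl : log ((1 + g) ^ 2) = 2 * log (1 + g) := by rw [log_pow]; norm_num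
  rcases le_or_gt g 4 with h4 | h4
  · have hb : log (1 + g) ≤ g := by linarith [log_le_sub_one_of_pos h1]
    have := mul_le_mul_of_nonneg_left hb (sq_nonneg (1 + g))
    have h2 : 0 ≤ g ^ 2 * max 0 (log (g ^ 2)) := mul_nonneg (sq_nonneg _) (le_max_left _ _)
    rw [hl]
    nlinarith [mul_nonneg (sq_nonneg g) (sub_nonneg.2 h4)]
  · have hg0 : 0 < g := by linarith
    have hlg : log (g ^ 2) = 2 * log g := by rw [log_pow]; norm_num
    have hlg1 : 1 < log g := by
      rw [lt_log_iff_exp_lt hg0]
      linarith [exp_one_lt_d9]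
    have hb : log (1 + g) ≤ log g + 1 / 4 := by
      have e : log (1 + g) = log g + log (1 + 1 / g) := by
        rw [← log_mul hg0.ne' (by positivity)]; congr 1; field_simp; ring
      have := log_le_sub_one_of_pos (by positivity : 0 < 1 + 1 / g)
      have : 1 / g ≤ 1 / 4 := by
        gcongr
      linarith
    rw [hl, hlg, max_eq_right (by linarith)]
    have hsq : (1 + g) ^ 2 ≤ 25 / 16 * g ^ 2 := by nlinarith
    have h3 : 0 ≤ log (1 + g) := log_nonneg (by linarith)
    have h5 := mul_le_mul hsq hb h3 (by positivity)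
    nlinarith [mul_le_mul_of_nonneg_left hlg1.le (sq_nonneg g)]

theorem ylogy_le {y G : ℝ} (hy : 0 ≤ y) (hG : 0 ≤ G) (h : y ≤ 2 + 2 * G) :
    y * log y ≤ 10 + 6 * G + 4 * (G * log G) := by
  have hlog4 : log 4 ≤ 1.4 := by
    have e : log (4:ℝ) = 2 * log 2 := by rw [← Real.log_rpow two_pos]; norm_num
    rw [e]; linarith [Real.log_two_lt_d9]
  have hGl := neg_one_le_mul_log hG
  rcases le_or_gt y 1 with h1 | h1
  · have := Real.mul_log_nonpos hy h1
    linarith
  rcases le_or_gt G 1 with hG1 | hG1
  · have : y * log y ≤ 4 * log 4 := mul_le_mul (by linarith) (log_le_log (by linarith) (by linarith))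
      (log_pos h1).le (by norm_num)
    linarith
  · have : y * log y ≤ (4 * G) * log (4 * G) := mul_le_mul (by linarith)
      (log_le_log (by linarith) (by linarith)) (log_pos h1).le (by linarith)
    rw [log_mul (by norm_num) (by linarith)] at this
    nlinarith [mul_le_mul_of_nonneg_left hlog4 hG]

theorem entr_le_of_pos {ν : Measure (E n)} [IsProbabilityMeasure ν] {h : E n → ℝ} {η K : ℝ}
    (hh : Nice h η K) {c : ℝ} (hc : 0 < c) :
    entr ν h ≤ ∫ x, (h x * log (h x / c) - h x + c) ∂ν := by
  set m := ∫ x, h x ∂ν with hm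
  have hm0 : 0 < m := integral_nice_pos ν hh
  have e : ∀ x, h x * log (h x / c) - h x + c =
      h x * log (h x) + (-(log c) - 1) * h x + c := fun x => by
    rw [log_div (hh.h_pos x).ne' hc.ne']; ring
  simp only [e]
  rw [integral_add (f := fun x => h x * log (h x) + (-(log c) - 1) * h x) (g := fun _ => c)
    ((integrable_bdd_comp (hh.bddM.mul hh.bddM_log)).add
      ((integrable_bdd_comp hh.bddM).const_mul _)) (integrable_const c),
    integral_add (integrable_bdd_comp (hh.bddM.mul hh.bddM_log))
      ((integrable_bdd_comp hh.bddM).const_mul _), integral_const_mul, integral_const,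
    probReal_univ, one_smul, entr, ← hm]
  have h2 := log_le_sub_one_of_pos (div_pos hc hm0)
  rw [log_div hc.ne' hm0.ne'] at h2
  have h3 := mul_le_mul_of_nonneg_left h2 hm0.le
  rw [mul_sub, mul_sub, mul_one, mul_div_cancel₀ _ hm0.ne'] at h3
  linarith

theorem BddM.max_zero {f : E n → ℝ} {L : ℝ} (hf : BddM f L) : BddM (fun x => max 0 (f x)) L :=
  ⟨measurable_const.max hf.1, fun x => by
    rw [abs_of_nonneg (le_max_left _ _)]
    exact max_le hf.nonneg ((le_abs_self _).trans (hf.2 x))⟩

/-- The criterion: the infimal-convolution property and a locally good set of measure `≥ 1/2`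
give a log-Sobolev inequality with constant `O(1/t)`. -/
theorem Base.lsi_of_dprop (B : Base n) (hP : PoincareStrongProp n) (hL : LsiStrongProp n) {t : ℝ}
    (ht : 0 < t) {G : Set (E n)} (hGm : MeasurableSet G)
    (hGs : ∀ g ∈ G, B.GoodLoc t (εcrit / t) g) (hG : 1 / 2 ≤ (B.qmeas t).real G)
    (hD : B.DProp (t / 12) 3) {h : E n → ℝ} {η K : ℝ}
    (hh : Nice h η K) : entr B.μ h ≤ 200 / t * fisher B.μ h := by
  set ν := B.μ with hν
  set f : E n → ℝ := fun x => √(h x) with hf
  have hfsq : ∀ x, f x ^ 2 = h x := fun x => Real.sq_sqrt (hh.h_pos x).le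
  have hfd : ∀ x, HasFDerivAt f ((1 / (2 * √(h x))) • fderiv ℝ h x) x := fun x =>
    (hh.smooth.differentiable one_ne_zero x).hasFDerivAt.sqrt (hh.h_pos x).ne'
  have hs : ∀ x, √η ≤ f x := fun x => Real.sqrt_le_sqrt (hh.lo x)
  have hsη : 0 < √η := Real.sqrt_pos.2 hh.pos
  set L := √K + K / √η with hL'
  have hK := hh.K_pos
  have hfs : Smth f L := by
    refine ⟨hh.smooth.sqrt fun x => (hh.h_pos x).ne', fun x => ?_, fun x => ?_⟩
    · rw [abs_of_pos (Real.sqrt_pos.2 (hh.h_pos x))]
      have : 0 ≤ K / √η := by positivity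
      linarith [Real.sqrt_le_sqrt (hh.hi x)]
    · rw [(hfd x).fderiv, norm_smul, norm_eq_abs, abs_of_pos (by
        have := Real.sqrt_pos.2 (hh.h_pos x); positivity)]
      have h0 : 0 ≤ √K := Real.sqrt_nonneg K
      have : 1 / (2 * √(h x)) ≤ 1 / √η := by
        refine one_div_le_one_div_of_le hsη ?_
        linarith [hs x, Real.sqrt_nonneg (h x)]
      calc _ ≤ 1 / √η * K := mul_le_mul this (hh.deriv x) (norm_nonneg _) (by positivity)
        _ ≤ L := by rw [hL', one_div_mul_eq_div]; linarith
  have hI : ∫ x, ‖fderiv ℝ f x‖ ^ 2 ∂ν = fisher ν h / 4 := by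
    rw [fisher, ← integral_div]
    congr 1; funext x
    have := hh.h_pos x
    rw [(hfd x).fderiv, norm_smul, norm_eq_abs, mul_pow, sq_abs, div_pow, mul_pow,
      Real.sq_sqrt this.le]
    ring
  set m := ∫ x, f x ∂ν with hm
  have hmpos : 0 < m := hsη.trans_le (by
    simpa using integral_mono (μ := ν) (integrable_const _) (integrable_bdd_comp hfs.bddM) hs)
  set g : E n → ℝ := fun x => f x - m with hg
  have hgd : ∀ x, fderiv ℝ g x = fderiv ℝ f x := fun x => fderiv_sub_const m
  have hgs : Smth g (L + |m|) := ⟨hfs.smooth.sub contDiff_const, (hfs.bddM.sub_const m).2,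
    fun x => by rw [hgd]; exact (hfs.deriv x).trans (le_add_of_nonneg_right (abs_nonneg m))⟩
  set v := ∫ x, g x ^ 2 ∂ν with hv
  set S := ∫ x, g x ^ 2 * log (g x ^ 2) ∂ν with hS
  have hv0 : 0 ≤ v := integral_nonneg fun x => sq_nonneg _
  set J := fisher ν h / 4 with hJ
  have hJ0 : 0 ≤ J := by rw [← hI]; exact integral_nonneg fun x => sq_nonneg _
  have hPv : v ≤ 13 / t * J := by
    rw [← hI]; exact B.poincare_of_good hP hL ht hGm hGs hG hD hfs
  have hEg : S - v * log v ≤ 96 / t * J + 3 * v := by
    have := B.sq_log_le hL (by linarith : 0 < t / 12) hD hgs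
    simp only [← hν, hgd, hI] at this
    rw [show 8 / (t / 12) = 96 / t by field_simp; ring] at this
    exact this
  have hml : BddM (fun x => g x ^ 2 * log (g x ^ 2)) _ := bddM_sq_mul_log hgs.bddM
  have hIh : ∫ x, h x ∂ν = m ^ 2 + v := by
    have := integral_var_eq (ν := ν) hfs.bddM
    simp only [hfsq, ← hm] at this
    have e : v = ∫ x, (f x - m) ^ 2 ∂ν := rfl
    linarith
  have hgoal : ∀ a b, a ≤ b / t * J → b ≤ 800 → a ≤ 200 / t * fisher ν h := fun a b hab hb => by
    refine hab.trans ?_
    rw [hJ]
    have : 0 ≤ fisher ν h / t := div_nonneg (by linarith) ht.le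
    have := mul_le_mul_of_nonneg_right hb this
    have e1 : b / t * (fisher ν h / 4) = b * (fisher ν h / t) / 4 := by ring
    have e2 : 200 / t * fisher ν h = 800 * (fisher ν h / t) / 4 := by ring
    rw [e1, e2]; linarith
  rcases le_or_gt v (m ^ 2) with hvm | hvm
  · -- small variance
    set P : E n → ℝ := fun x => max 0 (g x ^ 2 * log (g x ^ 2) - g x ^ 2 * log (m ^ 2)) with hPdef
    have hPb : BddM P _ :=
      BddM.max_zero (f := fun x => g x ^ 2 * log (g x ^ 2) - g x ^ 2 * log (m ^ 2))
        (L := _) ⟨hml.1.sub (hgs.bddM.sq.mul (L := |log (m ^ 2)|) ⟨measurable_const, fun _ => le_rfl⟩).1,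
          fun x => (abs_sub _ _).trans (add_le_add (hml.2 x)
            ((hgs.bddM.sq.mul (L := |log (m ^ 2)|) ⟨measurable_const, fun _ => le_rfl⟩).2 x))⟩
    have hpt : ∀ x, h x * log (h x / m ^ 2) - h x + m ^ 2 ≤ 11 * g x ^ 2 + 2 * P x := fun x => by
      have hfx : 0 < f x := hsη.trans_le (hs x)
      have hy : -1 < g x / m := by rw [lt_div_iff₀ hmpos]; simp only [hg]; linarith
      have e : h x / m ^ 2 = (1 + g x / m) ^ 2 := by
        rw [← hfsq, ← div_pow]; congr 1; simp only [hg]; field_simp; ring
      have e2 : h x = m ^ 2 * (1 + g x / m) ^ 2 := by rw [← e]; field_simp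
      have h1 := mul_le_mul_of_nonneg_left (phi_le hy) (sq_nonneg m)
      have e3 : m ^ 2 * ((g x / m) ^ 2 * max 0 (log ((g x / m) ^ 2))) = P x := by
        have hm2 : m ^ 2 * (g x / m) ^ 2 = g x ^ 2 := by field_simp
        rw [← mul_assoc, hm2, mul_max_of_nonneg _ _ (sq_nonneg _), mul_zero, hPdef]
        simp only
        rcases eq_or_ne (g x) 0 with h0 | h0
        · simp [h0]
        · rw [div_pow, log_div (pow_ne_zero 2 h0) (by positivity)]; ring_nf
      have hm2 : m ^ 2 * (g x / m) ^ 2 = g x ^ 2 := by field_simp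
      rw [e]
      rw [e2]
      nlinarith
    have i0 : Integrable (fun x => h x * log (h x / m ^ 2) - h x + m ^ 2) ν := by
      refine (((integrable_bdd_comp (hh.bddM.mul hh.bddM_log)).add
        ((integrable_bdd_comp hh.bddM).const_mul (-log (m ^ 2) - 1))).add
        (integrable_const (m ^ 2))).congr (.of_forall fun x => ?_)
      simp only [Pi.add_apply]
      rw [log_div (hh.h_pos x).ne' (by positivity)]; ring
    have hP2 : ∫ x, P x ∂ν ≤ (S - v * log v) + v := by
      rcases hv0.eq_or_lt with hz | hvp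
      · have hae : (fun x => g x ^ 2) =ᵐ[ν] 0 :=
          (integral_eq_zero_iff_of_nonneg (fun x => sq_nonneg _)
            (integrable_bdd_comp hgs.bddM.sq)).1 hz.symm
        have h1 : ∫ x, P x ∂ν = 0 := by
          refine integral_eq_zero_of_ae (hae.mono fun x hx => ?_)
          simp only [Pi.zero_apply] at hx
          simp [hPdef, hx]
        have h2 : S = 0 := by
          refine integral_eq_zero_of_ae (hae.mono fun x hx => ?_)
          simp only [Pi.zero_apply] at hx
          simp [hx]
        rw [h1, h2, ← hz]; simp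
      · have hb : ∀ x, P x ≤ g x ^ 2 * log (g x ^ 2) - g x ^ 2 * log v + v := fun x => by
          simp only [hPdef]
          refine max_le ?_ ?_
          · rcases eq_or_ne (g x) 0 with h0 | h0
            · simp [h0, hvp.le]
            · have hG : 0 < g x ^ 2 := by positivity
              have := neg_one_le_mul_log (y := g x ^ 2 / v) (by positivity)
              rw [log_div hG.ne' hvp.ne', div_mul_eq_mul_div, le_div_iff₀ hvp] at this
              linarith
          · have := mul_le_mul_of_nonneg_left (log_le_log hvp hvm) (sq_nonneg (g x))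
            linarith
        have i1 := integrable_bdd_comp (ν := ν) hml
        have i2 := (integrable_bdd_comp (ν := ν) hgs.bddM.sq).mul_const (log v)
        have := integral_mono (μ := ν) (integrable_bdd_comp hPb)
          ((i1.sub i2).add (integrable_const v)) hb
        rw [integral_add' (i1.sub i2) (integrable_const v), integral_sub' i1 i2, integral_mul_const,
          integral_const, probReal_univ, one_smul] at this
        exact this
    have h2 := integral_mono (μ := ν) i0 (((integrable_bdd_comp hgs.bddM.sq).const_mul 11).add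
      ((integrable_bdd_comp hPb).const_mul 2)) hpt
    rw [integral_add' ((integrable_bdd_comp hgs.bddM.sq).const_mul 11)
      ((integrable_bdd_comp hPb).const_mul 2), integral_const_mul, integral_const_mul, ← hv] at h2
    have h3 := entr_le_of_pos (ν := ν) hh (by positivity : 0 < m ^ 2)
    refine hgoal _ 439 ?_ (by norm_num)
    have e1 : 439 / t * J = 19 * (13 / t * J) + 2 * (96 / t * J) := by ring
    rw [e1]; linarith
  · -- large variance
    have hvp : 0 < v := lt_of_le_of_lt (sq_nonneg m) hvm
    have hpt : ∀ x, h x * log (h x) - h x * log v ≤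
        10 * v + 6 * g x ^ 2 + 4 * (g x ^ 2 * log (g x ^ 2) - g x ^ 2 * log v) := fun x => by
      have hx := hh.h_pos x
      have hle : h x / v ≤ 2 + 2 * (g x ^ 2 / v) := by
        rw [div_le_iff₀ hvp, add_mul, mul_assoc, div_mul_cancel₀ _ hvp.ne', ← hfsq]
        simp only [hg]
        nlinarith [sq_nonneg (f x - 2 * m)]
      have h1 := mul_le_mul_of_nonneg_left
        (ylogy_le (div_nonneg hx.le hvp.le) (div_nonneg (sq_nonneg _) hvp.le) hle) hvp.le
      rw [log_div hx.ne' hvp.ne'] at h1
      rcases eq_or_ne (g x) 0 with h0 | h0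
      · simp only [h0] at h1 ⊢
        simp only [ne_eq, OfNat.ofNat_ne_zero, not_false_eq_true, zero_pow, zero_div, mul_zero,
          add_zero, zero_mul, sub_zero] at h1 ⊢
        have e : v * (h x / v * (log (h x) - log v)) = h x * log (h x) - h x * log v := by
          field_simp
        rw [e] at h1; linarith
      · rw [log_div (pow_ne_zero 2 h0) hvp.ne'] at h1
        field_simp at h1
        linarith
    have i1 := integrable_bdd_comp (ν := ν) hml
    have i2 := (integrable_bdd_comp (ν := ν) hgs.bddM.sq).mul_const (log v)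
    have i3 := (integrable_bdd_comp (ν := ν) hgs.bddM.sq).const_mul 6
    have i4 := integrable_bdd_comp (ν := ν) (hh.bddM.mul hh.bddM_log)
    have i5 := (integrable_bdd_comp (ν := ν) hh.bddM).mul_const (log v)
    have h2 := integral_mono (μ := ν) (i4.sub i5)
      (((integrable_const (10 * v)).add i3).add ((i1.sub i2).const_mul 4)) hpt
    rw [integral_sub' i4 i5, integral_mul_const, hIh,
      integral_add' ((integrable_const (10 * v)).add i3) ((i1.sub i2).const_mul 4),
      integral_add' (integrable_const (10 * v)) i3, integral_const_mul, integral_const,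
      probReal_univ, one_smul] at h2
    simp only [Pi.sub_apply, integral_const_mul, integral_sub i1 i2, integral_mul_const] at h2
    have hlog : log v ≤ log (m ^ 2 + v) := log_le_log hvp (by linarith [sq_nonneg m])
    have h3 := mul_le_mul_of_nonneg_left hlog (by positivity : 0 ≤ m ^ 2 + v)
    refine hgoal _ 748 ?_ (by norm_num)
    rw [entr, hIh]
    have e1 : 748 / t * J = 28 * (13 / t * J) + 4 * (96 / t * J) := by ring
    rw [e1]; linarith

/-- The criterion: a good set of measure `≥ 1/2` gives a log-Sobolev inequality with constant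
`O(1/T)`. -/
theorem Base.lsi_of_good (B : Base n) (hP : PoincareStrongProp n) (hL : LsiStrongProp n) {t : ℝ}
    (ht : 0 < t) (hG : 1 / 2 ≤ (B.qmeas t).real (B.Good t (εcrit / t))) {h : E n → ℝ} {η K : ℝ}
    (hh : Nice h η K) : entr B.μ h ≤ 200 / t * fisher B.μ h :=
  B.lsi_of_dprop hP hL ht (B.measurableSet_good ht.le) (fun _ hg u _ => hg u) hG
    (B.dprop_of_good ht εcrit_pos εcrit_le hG) hh

end Vale.Agent.P245.Local
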