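import Vale.Agent.P245.Local.Calc
import Vale.Agent.P245.Local.Lich

/-!
# P245: log-Sobolev inequality for strongly log-concave measures, by localisation
-/

open MeasureTheory Real Set Filter
open scoped RealInnerProductSpace ENNReal Topology

noncomputable section

namespace Vale.Agent.P245.Local

variable {n : ℕ}

namespace Base

variable (B : Base n) {t s : ℝ}

/-! ### the tilted variance and moment generating function -/

theorem var_tilt_le (ht : 0 < t) (hs : B.Strong t) (hs0 : 0 ≤ s) (θ : E n) {f : E n → ℝ}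
    (hf : ContDiff ℝ 1 f) (hg : Good f) (hg' : Good fun x => ‖fderiv ℝ f x‖) :
    B.varAt s θ f ≤ (t + s)⁻¹ * B.avg s θ fun x => ‖fderiv ℝ f x‖ ^ 2 := by
  have h := (B.tilt s hs0 θ).poincare_strong (add_pos_of_pos_of_nonneg ht hs0)
    (B.strong_tilt hs s hs0 θ) hf hg.2 hg'.2
  simpa only [integral_tilt, varAt] using h

theorem hasFDerivAt_inner_left (u x : E n) :
    HasFDerivAt (fun y : E n => ⟪u, y⟫) (innerSL ℝ u) x :=
  (innerSL ℝ u).hasFDerivAt

theorem norm_fderiv_inner (u x : E n) : ‖fderiv ℝ (fun y : E n => ⟪u, y⟫) x‖ = ‖u‖ := by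
  rw [(hasFDerivAt_inner_left u x).fderiv, innerSL_apply_norm]

theorem var_inner_le (ht : 0 < t) (hs : B.Strong t) (hs0 : 0 ≤ s) (θ u : E n) :
    B.varAt s θ (fun x => ⟪u, x⟫) ≤ (t + s)⁻¹ * ‖u‖ ^ 2 := by
  have h := B.var_tilt_le ht hs hs0 θ (f := fun x => ⟪u, x⟫)
    (innerSL ℝ u).contDiff (Good.inner u) (by simpa only [norm_fderiv_inner] using Good.const ‖u‖)
  simpa only [norm_fderiv_inner, B.avg_const hs0] using h

theorem Lam_add_le (ht : 0 < t) (hs : B.Strong t) (hs0 : 0 < s) (θ u : E n) :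
    B.Lam s (θ + u) - B.Lam s θ ≤
      B.avg s θ (fun x => ⟪u, x⟫) + (t + s)⁻¹ * ‖u‖ ^ 2 / 2 := by
  set c := (t + s)⁻¹ * ‖u‖ ^ 2
  set L' : ℝ → ℝ := fun r => B.avg s (θ + r • u) fun x => ⟪u, x⟫ with hL'
  have hcurve : ∀ r : ℝ, HasDerivAt (fun r : ℝ => θ + r • u) u r := fun r => by
    simpa using ((hasDerivAt_id r).smul_const u).const_add θ
  have h1 : ∀ r, HasDerivAt (fun r => B.Lam s (θ + r • u)) (L' r) r := fun r => by
    refine ((B.hasDerivAt_Z (hasDerivAt_const r s) (hcurve r) hs0).log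
      (B.Z_pos hs0.le _).ne').congr_deriv ?_
    simp [hL', avg]
  have h2 : ∀ r, HasDerivAt L' (B.varAt s (θ + r • u) fun x => ⟪u, x⟫) r := fun r => by
    refine (B.hasDerivAt_avg (Good.inner u).1 (Good.inner u).2 (hasDerivAt_const r s) (hcurve r)
      hs0).congr_deriv ?_
    set a := B.avg s (θ + r • u) fun x => ⟪u, x⟫ with ha
    have e : (fun x : E n => (⟪u, x⟫ - a) ^ 2) =
        fun x => (⟪u, x⟫ * ⟪u, x⟫ - 2 * a * ⟪u, x⟫) - -(a ^ 2) := by
      funext x; ring
    rw [varAt, ← ha, e, B.avg_sub hs0.le _ (((Good.inner u).mul (Good.inner u)).sub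
      ((Good.inner u).const_mul _)) (Good.const _), B.avg_sub hs0.le _
      ((Good.inner u).mul (Good.inner u)) ((Good.inner u).const_mul _), B.avg_const_mul,
      B.avg_const hs0.le]
    ring
  have h3 : ∀ r, 0 ≤ r → L' r - r * c - L' 0 ≤ 0 := by
    have hd : ∀ r, HasDerivAt (fun r => L' r - r * c)
        ((B.varAt s (θ + r • u) fun x => ⟪u, x⟫) - c) r :=
      fun r => ((h2 r).sub ((hasDerivAt_id r).mul_const c)).congr_deriv (by ring)
    have hanti : Antitone fun r => L' r - r * c :=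
      antitone_of_deriv_nonpos (fun r => (hd r).differentiableAt) fun r => by
        rw [(hd r).deriv]; linarith [B.var_inner_le ht hs hs0.le (θ + r • u) u]
    intro r hr
    have := hanti hr
    simp only [zero_mul, sub_zero] at this
    linarith
  have hd : ∀ r, HasDerivAt (fun r => B.Lam s (θ + r • u) - r ^ 2 * c / 2 - r * L' 0)
      (L' r - r * c - L' 0) r := fun r =>
    (((h1 r).sub (((hasDerivAt_pow 2 r).mul_const c).div_const 2)).sub
      ((hasDerivAt_id r).mul_const (L' 0))).congr_deriv (by ring)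
  have hanti : AntitoneOn (fun r => B.Lam s (θ + r • u) - r ^ 2 * c / 2 - r * L' 0) (Ici 0) :=
    antitoneOn_of_deriv_nonpos (convex_Ici 0) (fun r _ => (hd r).continuousAt.continuousWithinAt)
      (fun r _ => (hd r).differentiableAt.differentiableWithinAt) fun r hr => by
        rw [(hd r).deriv]; exact h3 r (interior_subset hr)
  have h4 := hanti self_mem_Ici (mem_Ici.2 zero_le_one) (zero_le_one' ℝ)
  simp only [one_smul, zero_smul, add_zero, one_pow, one_mul, zero_mul,
    zero_pow two_ne_zero, zero_div, sub_zero, hL'] at h4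
  linarith

/-! ### entropy bounds -/

theorem avg_exp_inner (hs0 : 0 ≤ s) (θ u : E n) :
    B.avg s θ (fun x => exp ⟪u, x⟫) = exp (B.Lam s (θ + u) - B.Lam s θ) := by
  rw [Lam, Lam, exp_sub, exp_log (B.Z_pos hs0 _), exp_log (B.Z_pos hs0 _), avg, num, Z, Z]
  congr 1
  congr 1; funext x
  rw [W, W, ← exp_add, inner_add_left]
  ring_nf

/-- entropy in the tilted measure -/
def entAt (s : ℝ) (θ : E n) (h : E n → ℝ) : ℝ :=
  B.avg s θ (fun x => h x * log (h x)) - B.avg s θ h * log (B.avg s θ h)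

theorem young {a : ℝ} (ha : 0 < a) (b : ℝ) : a * b ≤ a * log a - a + exp b := by
  have h := add_one_le_exp (b - log a)
  have h2 : exp b = a * exp (b - log a) := by
    rw [exp_sub, exp_log ha]; field_simp
  nlinarith [mul_le_mul_of_nonneg_left h ha.le]

theorem donsker (hs0 : 0 ≤ s) (θ u : E n) {h : E n → ℝ} (hh : Good h)
    (hhl : Good fun x => h x * log (h x)) (hpos : ∀ x, 0 < h x) (hM : 0 < B.avg s θ h) :
    B.avg s θ (fun x => h x * ⟪u, x⟫) ≤
      B.entAt s θ h + B.avg s θ h * (B.Lam s (θ + u) - B.Lam s θ) := by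
  set M := B.avg s θ h with hMdef
  set L := B.Lam s (θ + u) - B.Lam s θ
  have hm := B.avg_mono hs0 θ ((hh.mul (Good.inner u)).add (hh.const_mul (log M - L)))
    ((hhl.sub hh).add ((Good.exp_inner u).const_mul (exp (log M - L))))
    fun x => by
      have := young (hpos x) (⟪u, x⟫ + (log M - L))
      rw [exp_add] at this
      linarith
  rw [B.avg_add hs0 θ (hh.mul (Good.inner u)).1.aestronglyMeasurable (hh.mul (Good.inner u)).2
      (hh.const_mul _).1.aestronglyMeasurable (hh.const_mul _).2,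
    B.avg_add hs0 θ (hhl.sub hh).1.aestronglyMeasurable (hhl.sub hh).2
      ((Good.exp_inner u).const_mul _).1.aestronglyMeasurable ((Good.exp_inner u).const_mul _).2,
    B.avg_sub hs0 θ hhl hh, B.avg_const_mul, B.avg_const_mul, B.avg_exp_inner hs0,
    ← exp_add, sub_add_cancel, exp_log hM] at hm
  rw [entAt, ← hMdef]
  linarith

/-- the covariance of `h` with the coordinates in the tilted measure -/
def covCoord (s : ℝ) (θ : E n) (h : E n → ℝ) (k : Fin n) : ℝ :=
  B.avg s θ (fun x => h x * x k) - B.avg s θ h * B.avg s θ (fun x => x k)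

theorem sum_covCoord_le (ht : 0 < t) (hs : B.Strong t) (hs0 : 0 < s) (θ : E n) {h : E n → ℝ}
    (hh : Good h) (hhl : Good fun x => h x * log (h x)) (hpos : ∀ x, 0 < h x)
    (hM : 0 < B.avg s θ h) :
    (∑ k, B.covCoord s θ h k ^ 2) / B.avg s θ h ≤ 2 * (t + s)⁻¹ * B.entAt s θ h := by
  set M := B.avg s θ h with hMdef
  set c := t + s
  have hc : 0 < c := add_pos ht hs0
  set lam := c / M with hlam
  set u : E n := WithLp.toLp 2 fun k => lam * B.covCoord s θ h k with hu
  have huk : ∀ k, u k = lam * B.covCoord s θ h k := fun k => rfl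
  have hn : ‖u‖ ^ 2 = lam ^ 2 * ∑ k, B.covCoord s θ h k ^ 2 := by
    simp only [EuclideanSpace.norm_sq_eq, Real.norm_eq_abs, sq_abs, huk, mul_pow, Finset.mul_sum]
  have h1 := B.donsker hs0.le θ u hh hhl hpos hM
  have h2 := mul_le_mul_of_nonneg_left (B.Lam_add_le ht hs hs0 θ u) hM.le
  rw [← hMdef] at h1
  rw [B.avg_mul_inner hs0.le θ hh u] at h1
  rw [B.avg_inner hs0.le θ u, hn] at h2
  have h3 : ∑ k, u k * B.avg s θ (fun x => h x * x k) - M * ∑ k, u k * B.avg s θ (fun x => x k) =
      lam * ∑ k, B.covCoord s θ h k ^ 2 := by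
    simp only [Finset.mul_sum, ← Finset.sum_sub_distrib, huk, covCoord, ← hMdef]
    exact Finset.sum_congr rfl fun k _ => by ring
  set S := ∑ k, B.covCoord s θ h k ^ 2
  have e1 : lam * S = c / M * S := rfl
  have e2 : M * (c⁻¹ * (lam ^ 2 * S) / 2) = c / M * S / 2 := by rw [hlam]; field_simp
  have e3 : S / M = 2 * c⁻¹ * (c / M * S / 2) := by field_simp
  rw [e3]
  refine mul_le_mul_of_nonneg_left ?_ (by positivity)
  linarith

theorem entAt_le_var (hs0 : 0 ≤ s) (θ : E n) {h : E n → ℝ} (hh : Good h)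
    (hhl : Good fun x => h x * log (h x)) (hpos : ∀ x, 0 < h x) (hM : 0 < B.avg s θ h) :
    B.entAt s θ h ≤ B.varAt s θ h / B.avg s θ h := by
  set M := B.avg s θ h with hMdef
  have hm := B.avg_mono hs0 θ hhl (((hh.mul hh).const_mul M⁻¹).add (hh.const_mul (log M - 1)))
    fun x => by
      have h1 := log_le_sub_one_of_pos (div_pos (hpos x) hM)
      rw [log_div (hpos x).ne' hM.ne'] at h1
      have h2 := mul_le_mul_of_nonneg_left h1 (hpos x).le
      have h3 : h x * (h x / M - 1) = M⁻¹ * (h x * h x) - h x := by ring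
      linarith
  rw [B.avg_add hs0 θ ((hh.mul hh).const_mul _).1.aestronglyMeasurable
      ((hh.mul hh).const_mul _).2 (hh.const_mul _).1.aestronglyMeasurable (hh.const_mul _).2,
    B.avg_const_mul, B.avg_const_mul, ← hMdef] at hm
  have e : (fun x => (h x - M) ^ 2) = fun x => (h x * h x - 2 * M * h x) - -(M ^ 2) := by
    funext x; ring
  rw [entAt, varAt, ← hMdef, e, B.avg_sub hs0 θ ((hh.mul hh).sub (hh.const_mul _)) (Good.const _),
    B.avg_sub hs0 θ (hh.mul hh) (hh.const_mul _), B.avg_const_mul, B.avg_const hs0, ← hMdef]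
  have e2 : (B.avg s θ (fun x => h x * h x) - 2 * M * M - -M ^ 2) / M =
      M⁻¹ * B.avg s θ (fun x => h x * h x) - M := by field_simp; ring
  rw [e2]
  linarith

/-- Log-Sobolev inequality with constant `1/t` for `t`-strongly log-concave measures. -/
theorem lsi_strong (B : Base n) {t : ℝ} (ht : 0 < t) (hs : B.Strong t) {h : E n → ℝ}
    (hh : ContDiff ℝ 1 h) {η K : ℝ} (hη : 0 < η) (hlo : ∀ x, η ≤ h x) (hhi : ∀ x, h x ≤ K)
    (hD : ∀ x, ‖fderiv ℝ h x‖ ≤ K) :
    (∫ x, h x * log (h x) ∂B.μ) - (∫ x, h x ∂B.μ) * log (∫ x, h x ∂B.μ)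
      ≤ t⁻¹ * ∫ x, ‖fderiv ℝ h x‖ ^ 2 / h x ∂B.μ := by
  have hηK : η ≤ K := (hlo 0).trans (hhi 0)
  have hK : 0 < K := hη.trans_le hηK
  have hpos : ∀ x, 0 < h x := fun x => hη.trans_le (hlo x)
  have habs : ∀ x, |h x| ≤ K := fun x => by rw [abs_of_pos (hpos x)]; exact hhi x
  have gh : Good h := Good.bdd hh.continuous habs
  set ℓ := |log η| + |log K| with hℓ
  have hlog : ∀ y, η ≤ y → y ≤ K → |log y| ≤ ℓ := fun y h1 h2 => abs_le.2
    ⟨by linarith [log_le_log hη h1, neg_abs_le (log η), abs_nonneg (log K)],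
      by linarith [log_le_log (hη.trans_le h1) h2, le_abs_self (log K), abs_nonneg (log η)]⟩
  have ghl : Good fun x => h x * log (h x) :=
    Good.bdd (hh.continuous.mul (hh.continuous.log fun x => (hpos x).ne')) (C := K * ℓ) fun x => by
      rw [abs_mul]
      exact mul_le_mul (habs x) (hlog _ (hlo x) (hhi x)) (abs_nonneg _) hK.le
  have gd : Good fun x => ‖fderiv ℝ h x‖ :=
    Good.bdd (hh.continuous_fderiv one_ne_zero).norm (C := K) fun x => by simpa using hD x
  have gdh : Good fun x => ‖fderiv ℝ h x‖ ^ 2 / h x :=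
    Good.bdd (((hh.continuous_fderiv one_ne_zero).norm.pow 2).div hh.continuous fun x => (hpos x).ne')
      (C := K ^ 2 / η) fun x => by
      rw [abs_of_nonneg (by have := (hpos x).le; positivity)]
      exact div_le_div₀ (sq_nonneg K) (pow_le_pow_left₀ (norm_nonneg _) (hD x) 2) hη (hlo x)
  have hNpos : ∀ s, 0 ≤ s → ∀ θ, η * B.Z s θ ≤ B.num s θ h ∧ B.num s θ h ≤ K * B.Z s θ :=
    fun s hs0 θ => by
      constructor
      · have := B.num_mono hs0 θ (Good.const η) gh hlo
        rw [show (fun _ : E n => η) = fun _ => η * 1 by simp, B.num_const_mul, num_one] at this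
        exact this
      · have := B.num_mono hs0 θ gh (Good.const K) hhi
        rw [show (fun _ : E n => K) = fun _ => K * 1 by simp, B.num_const_mul, num_one] at this
        exact this
  have hN0 : ∀ s, 0 ≤ s → ∀ θ, 0 < B.num s θ h := fun s hs0 θ =>
    lt_of_lt_of_le (mul_pos hη (B.Z_pos hs0 θ)) (hNpos s hs0 θ).1
  have hMb : ∀ s, 0 ≤ s → ∀ θ, η ≤ B.avg s θ h ∧ B.avg s θ h ≤ K := fun s hs0 θ =>
    ⟨(le_div_iff₀ (B.Z_pos hs0 θ)).2 (hNpos s hs0 θ).1,
      (div_le_iff₀ (B.Z_pos hs0 θ)).2 (hNpos s hs0 θ).2⟩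
  set L : ℝ → E n → ℝ := fun s θ => log (B.num s θ h) - log (B.Z s θ) with hLdef
  have hL : ∀ s, 0 ≤ s → ∀ θ, L s θ = log (B.avg s θ h) := fun s hs0 θ =>
    (log_div (hN0 s hs0 θ).ne' (B.Z_pos hs0 θ).ne').symm
  have hLb : ∀ s, 0 ≤ s → ∀ θ, |L s θ| ≤ ℓ := fun s hs0 θ => by
    rw [hL s hs0]; exact hlog _ (hMb s hs0 θ).1 (hMb s hs0 θ).2
  set G : ℝ → E n → ℝ := fun s θ => B.num s θ h * L s θ with hG
  set G1 : Fin n → ℝ → E n → ℝ := fun k s θ => B.num s θ (fun x => h x * x k) * (L s θ + 1)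
    - B.num s θ h / B.Z s θ * B.num s θ (fun x => x k) with hG1
  set Gt : ℝ → E n → ℝ := fun s θ =>
    -(1 / 2) * B.num s θ (fun x => h x * ‖x‖ ^ 2) * (L s θ + 1)
    - B.num s θ h / B.Z s θ * (-(1 / 2) * B.num s θ fun x => ‖x‖ ^ 2) with hGt
  set G2 : Fin n → ℝ → E n → ℝ := fun k s θ =>
    B.num s θ (fun x => h x * (x k * x k)) * (L s θ + 1)
    - B.num s θ h / B.Z s θ * B.num s θ (fun x => x k * x k)
    + (B.num s θ (fun x => h x * x k) - B.num s θ h / B.Z s θ * B.num s θ (fun x => x k)) ^ 2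
      / B.num s θ h with hG2
  have hb : ∀ {F : E n → ℝ}, Good F → ∀ s, 0 ≤ s → ∀ θ,
      |B.num s θ (fun x => h x * F x) * (L s θ + 1) - B.num s θ h / B.Z s θ * B.num s θ F|
        ≤ K * (ℓ + 2) * B.num s θ fun x => |F x| := by
    intro F hF s hs0 θ
    have a1 : |B.num s θ (fun x => h x * F x)| ≤ K * B.num s θ fun x => |F x| := by
      rw [← B.num_const_mul]
      refine B.abs_num_le hs0 θ (gh.mul hF) (hF.abs.const_mul K) fun x => ?_
      rw [abs_mul]; exact mul_le_mul_of_nonneg_right (habs x) (abs_nonneg _)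
    have a2 := B.abs_num_le hs0 θ hF hF.abs fun x => le_refl |F x|
    have a3 : |L s θ + 1| ≤ ℓ + 1 := (abs_add_le _ _).trans (by simpa using hLb s hs0 θ)
    have a4 : |B.num s θ h / B.Z s θ| ≤ K :=
      abs_le.2 ⟨by linarith [(hMb s hs0 θ).1, show B.avg s θ h = B.num s θ h / B.Z s θ from rfl],
        (hMb s hs0 θ).2⟩
    refine (abs_sub _ _).trans ?_
    rw [abs_mul, abs_mul]
    calc _ ≤ K * B.num s θ (fun x => |F x|) * (ℓ + 1) + K * B.num s θ fun x => |F x| :=
          add_le_add (mul_le_mul a1 a3 (abs_nonneg _)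
            (mul_nonneg hK.le (B.num_nonneg s θ fun x => abs_nonneg _)))
            (mul_le_mul a4 a2 (abs_nonneg _) hK.le)
      _ = _ := by ring
  have hsq : ∀ k s, 0 ≤ s → ∀ θ,
      (B.num s θ (fun x => h x * x k) - B.num s θ h / B.Z s θ * B.num s θ (fun x => x k)) ^ 2
        / B.num s θ h = B.Z s θ * (B.covCoord s θ h k ^ 2 / B.avg s θ h) := by
    intro k s hs0 θ
    have := (B.Z_pos hs0 θ).ne'
    have := (hN0 s hs0 θ).ne'
    simp only [covCoord, avg]
    field_simp
  have hsqb : ∀ k s, 0 ≤ s → ∀ θ,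
      B.covCoord s θ h k ^ 2 / B.avg s θ h ≤ K ^ 2 / η * B.avg s θ fun x => x k * x k := by
    intro k s hs0 θ
    set M := B.avg s θ h with hM
    have e : B.covCoord s θ h k = B.avg s θ fun x => (h x - M) * x k := by
      rw [show (fun x => (h x - M) * x k) = fun x => h x * x k - M * x k by funext x; ring,
        B.avg_sub hs0 θ (gh.mul (Good.coord k)) ((Good.coord k).const_mul M), B.avg_const_mul]
      rfl
    have hle : B.covCoord s θ h k ^ 2 ≤ K ^ 2 * B.avg s θ fun x => x k * x k := by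
      rw [e, ← B.avg_const_mul]
      refine (B.sq_avg_le hs0 θ ((gh.sub (Good.const M)).mul (Good.coord k))).trans
        (B.avg_mono hs0 θ ((gh.sub (Good.const M)).mul (Good.coord k)).sq
          (((Good.coord k).mul (Good.coord k)).const_mul _) fun x => ?_)
      have h1 : |h x - M| ≤ K := abs_le.2
        ⟨by linarith [hpos x, (hMb s hs0 θ).2], by linarith [hhi x, (hMb s hs0 θ).1]⟩
      rw [mul_pow, ← pow_two (x k)]
      refine mul_le_mul_of_nonneg_right ?_ (sq_nonneg _)
      rw [← sq_abs (h x - M)]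
      exact pow_le_pow_left₀ (abs_nonneg _) h1 2
    calc _ ≤ (K ^ 2 * B.avg s θ fun x => x k * x k) / η :=
          div_le_div₀ ((sq_nonneg _).trans hle) hle hη (hMb s hs0 θ).1
      _ = _ := by ring
  have bG : GBound G := B.gBound_of_le_num (F := fun _ => (1 : ℝ)) (by fun_prop)
    (expGrowth_const 1) (K * ℓ) (by positivity) fun s hs0 θ => by
      rw [num_one]
      calc |G s θ| = |B.num s θ h| * |L s θ| := abs_mul _ _
        _ ≤ (K * B.Z s θ) * ℓ := mul_le_mul
            (by rw [abs_of_pos (hN0 s hs0 θ)]; exact (hNpos s hs0 θ).2) (hLb s hs0 θ)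
            (abs_nonneg _) (mul_nonneg hK.le (B.Z_pos hs0 θ).le)
        _ = _ := by ring
  have bG1 : ∀ k, GBound (G1 k) := fun k =>
    B.gBound_of_le_num (Good.coord k).abs.1.aestronglyMeasurable (Good.coord k).abs.2
      (K * (ℓ + 2)) (by positivity) fun s hs0 θ => hb (Good.coord k) s hs0 θ
  have bGt : GBound Gt :=
    B.gBound_of_le_num (Good.norm_sq (n := n)).abs.1.aestronglyMeasurable
      (Good.norm_sq (n := n)).abs.2 (K * (ℓ + 2)) (by positivity) fun s hs0 θ => by
      have h1 := hb Good.norm_sq s hs0 θ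
      rw [show Gt s θ = -(1 / 2) * (B.num s θ (fun x => h x * ‖x‖ ^ 2) * (L s θ + 1)
        - B.num s θ h / B.Z s θ * B.num s θ fun x => ‖x‖ ^ 2) by simp only [hGt]; ring, abs_mul]
      have : |(-(1 / 2) : ℝ)| = 1 / 2 := by norm_num
      rw [this]
      linarith [abs_nonneg (B.num s θ (fun x => h x * ‖x‖ ^ 2) * (L s θ + 1)
        - B.num s θ h / B.Z s θ * B.num s θ fun x => ‖x‖ ^ 2)]
  have bG2 : ∀ k, GBound (G2 k) := fun k =>
    B.gBound_of_le_num ((Good.coord k).mul (Good.coord k)).1.aestronglyMeasurable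
      ((Good.coord k).mul (Good.coord k)).2 (K * (ℓ + 2) + K ^ 2 / η) (by positivity)
      fun s hs0 θ => by
      refine (abs_add_le _ _).trans ?_
      rw [add_mul]
      refine add_le_add ?_ ?_
      · refine (hb ((Good.coord k).mul (Good.coord k)) s hs0 θ).trans_eq ?_
        simp only [abs_mul_self]
      · rw [hsq k s hs0, abs_of_nonneg (mul_nonneg (B.Z_pos hs0 θ).le
          (div_nonneg (sq_nonneg _) (hη.le.trans (hMb s hs0 θ).1))), B.num_eq_avg_mul hs0,
          ← mul_assoc (K ^ 2 / η), mul_comm (B.Z s θ)]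
        exact mul_le_mul_of_nonneg_right (hsqb k s hs0 θ) (B.Z_pos hs0 θ).le
  have hcL : ∀ s, 0 ≤ s → Continuous (L s) := fun s hs0 =>
    ((B.continuous_num_good hs0 gh).log fun θ => (hN0 s hs0 θ).ne').sub
      ((B.continuous_Z hs0).log fun θ => (B.Z_pos hs0 θ).ne')
  have hcM : ∀ s, 0 ≤ s → Continuous fun θ => B.num s θ h / B.Z s θ := fun s hs0 =>
    B.continuous_avg hs0 gh.1.aestronglyMeasurable gh.2
  have cG : ∀ s, 0 ≤ s → Continuous (G s) := fun s hs0 =>
    (B.continuous_num_good hs0 gh).mul (hcL s hs0)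
  have cG1 : ∀ k s, 0 ≤ s → Continuous (G1 k s) := fun k s hs0 =>
    ((B.continuous_num_good hs0 (gh.mul (Good.coord k))).mul ((hcL s hs0).add continuous_const)).sub
      ((hcM s hs0).mul (B.continuous_num_good hs0 (Good.coord k)))
  have cGt : ∀ s, 0 ≤ s → Continuous (Gt s) := fun s hs0 =>
    (((B.continuous_num_good hs0 (gh.mul Good.norm_sq)).const_mul _).mul
      ((hcL s hs0).add continuous_const)).sub
      ((hcM s hs0).mul ((B.continuous_num_good hs0 Good.norm_sq).const_mul _))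
  have cG2 : ∀ k s, 0 ≤ s → Continuous (G2 k s) := fun k s hs0 =>
    (((B.continuous_num_good hs0 (gh.mul ((Good.coord k).mul (Good.coord k)))).mul
      ((hcL s hs0).add continuous_const)).sub
      ((hcM s hs0).mul (B.continuous_num_good hs0 ((Good.coord k).mul (Good.coord k))))).add
      ((((B.continuous_num_good hs0 (gh.mul (Good.coord k))).sub
        ((hcM s hs0).mul (B.continuous_num_good hs0 (Good.coord k)))).pow 2).div
        (B.continuous_num_good hs0 gh) fun θ => (hN0 s hs0 θ).ne')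
  set P : ℝ → ℝ := fun s => ∫ z, G s (√s • z) ∂gam n with hP
  set H : ℝ → E n → ℝ := fun s θ => Gt s θ + 1 / 2 * ∑ k, G2 k s θ with hH
  have hder : ∀ s, 0 < s → HasDerivAt P (∫ z, H s (√s • z) ∂gam n) s := fun s hs0 => by
    refine hasDerivAt_gam_integral bG bGt bG1 bG2
      (fun s hs0 => ⟨cG s hs0.le, cGt s hs0.le, fun k => ⟨cG1 k s hs0.le, cG2 k s hs0.le⟩⟩)
      ?_ ?_ hs0
    · intro τ θ r τ' θ' hτ hθ hr
      have hN := B.hasDerivAt_num gh.1 gh.2 hτ hθ hr
      have hZ := B.hasDerivAt_Z hτ hθ hr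
      have hN' := (hN0 _ hr.le (θ r)).ne'
      have hZ' := (B.Z_pos hr.le (θ r)).ne'
      refine (hN.mul ((hN.log hN').sub (hZ.log hZ'))).congr_deriv ?_
      have e1 := B.num_mul_inner hr.le (θ r) gh θ'
      have e2 : B.num (τ r) (θ r) (fun x => ⟪θ', x⟫) =
          ∑ k, θ' k * B.num (τ r) (θ r) (fun x => x k) := by
        simpa using B.num_mul_inner hr.le (θ r) (Good.const 1) θ'
      have e3 : ∑ k, θ' k * G1 k (τ r) (θ r) =
          (L (τ r) (θ r) + 1) * ∑ k, θ' k * B.num (τ r) (θ r) (fun x => h x * x k)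
          - B.num (τ r) (θ r) h / B.Z (τ r) (θ r) *
            ∑ k, θ' k * B.num (τ r) (θ r) (fun x => x k) := by
        simp only [hG1, Finset.mul_sum, ← Finset.sum_sub_distrib]
        exact Finset.sum_congr rfl fun k _ => by ring
      rw [e1, e2, e3]
      simp only [hGt, hLdef, Pi.sub_apply]
      field_simp
      ring
    · intro s hs0 θ k
      show HasDerivAt (fun r : ℝ => G1 k s (θ + r • eb k)) _ 0
      have hN := B.hasDerivAt_num_eb hs0 θ gh k
      have hN1 := B.hasDerivAt_num_eb hs0 θ (gh.mul (Good.coord k)) k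
      have hZ1 := B.hasDerivAt_num_eb hs0 θ (Good.coord k) k
      have hZ : HasDerivAt (fun r : ℝ => B.Z s (θ + r • eb k)) (B.num s θ fun x => x k) 0 := by
        simpa [num_one] using B.hasDerivAt_num_eb hs0 θ (Good.const 1) k
      have hN' : B.num s (θ + (0 : ℝ) • eb k) h ≠ 0 := (hN0 s hs0.le _).ne'
      have hZ' : B.Z s (θ + (0 : ℝ) • eb k) ≠ 0 := (B.Z_pos hs0.le _).ne'
      refine ((hN1.mul (((hN.log hN').sub (hZ.log hZ')).add_const 1)).sub
        ((hN.div hZ hZ').mul hZ1)).congr_deriv ?_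
      rw [zero_smul, add_zero] at hN' hZ'
      simp only [zero_smul, add_zero, hG2, hLdef, mul_assoc, Pi.sub_apply, Pi.div_apply]
      field_simp
      ring
  have hcont : ContinuousOn P (Ici 0) := by
    refine bG.continuousOn_integral ?_
    have hcZ : ContinuousOn (fun p : ℝ × E n => B.Z p.1 p.2) (Ici 0 ×ˢ univ) := by
      simpa [num_one] using
        B.continuousOn_num (F := fun _ => (1 : ℝ)) (by fun_prop) (expGrowth_const 1)
    have hcN := B.continuousOn_num gh.1.aestronglyMeasurable gh.2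
    exact hcN.mul ((hcN.log fun p hp => (hN0 p.1 hp.1 p.2).ne').sub
      (hcZ.log fun p hp => (B.Z_pos hp.1 p.2).ne'))
  have hEnt : ∀ s, 0 ≤ s → ∀ θ, B.Z s θ * B.entAt s θ h =
      B.num s θ (fun x => h x * log (h x)) - G s θ := fun s hs0 θ => by
    simp only [hG, hL s hs0, entAt]
    rw [B.num_eq_avg_mul hs0, B.num_eq_avg_mul hs0 θ h]
    ring
  set A := ∫ x, h x * log (h x) ∂B.μ with hA
  have hint : ∀ s, 0 ≤ s →
      Integrable (fun z => B.Z s (√s • z) * B.entAt s (√s • z) h) (gam n) ∧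
      ∫ z, B.Z s (√s • z) * B.entAt s (√s • z) h ∂gam n = A - P s := fun s hs0 => by
    simp only [hEnt s hs0]
    have i1 := (B.gBound_good ghl).integrable hs0 (B.continuous_num_good hs0 ghl)
    exact ⟨i1.sub (bG.integrable hs0 (cG s hs0)),
      by rw [integral_sub i1 (bG.integrable hs0 (cG s hs0)), B.integral_num_gam hs0 ghl]⟩
  have hHle : ∀ s, 0 < s → ∫ z, H s (√s • z) ∂gam n ≤ (t + s)⁻¹ * (A - P s) := fun s hs0 => by
    obtain ⟨i1, i2⟩ := hint s hs0.le
    rw [← i2, ← integral_const_mul]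
    refine integral_mono ((bGt.add ((GBound.sum _ fun k _ => bG2 k).const_mul _)).integrable hs0.le
      ((cGt s hs0.le).add ((continuous_finset_sum _ fun k _ => cG2 k s hs0.le).const_mul _)))
      (i1.const_mul _) fun z => ?_
    set θ := √s • z
    have e : H s θ = 1 / 2 * (B.Z s θ * ((∑ k, B.covCoord s θ h k ^ 2) / B.avg s θ h)) := by
      have q1 := B.num_mul_norm_sq hs0.le θ gh
      have q2 : B.num s θ (fun x => ‖x‖ ^ 2) = ∑ k, B.num s θ fun x => x k * x k := by
        simpa using B.num_mul_norm_sq hs0.le θ (Good.const 1)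
      simp only [hH, hG2, hGt, hsq _ s hs0.le, q1, q2, Finset.sum_div, Finset.mul_sum,
        Finset.sum_mul, ← Finset.sum_sub_distrib, ← Finset.sum_add_distrib]
      exact Finset.sum_congr rfl fun k _ => by ring
    rw [e]
    have := mul_le_mul_of_nonneg_left (B.sum_covCoord_le ht hs hs0 θ gh ghl hpos
      (hη.trans_le (hMb s hs0.le θ).1)) (B.Z_pos hs0.le θ).le
    linarith
  set I := ∫ x, ‖fderiv ℝ h x‖ ^ 2 / h x ∂B.μ with hI
  set C := K ^ 2 / η ^ 2 * K
  have hlarge : ∀ s, 0 < s → (t + s) * (A - P s) ≤ I + C / √(t + s) := fun s hs0 => by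
    obtain ⟨i1, i2⟩ := hint s hs0.le
    have hc : 0 < t + s := add_pos ht hs0
    have hpt : ∀ θ, (t + s) * (B.Z s θ * B.entAt s θ h) ≤
        B.num s θ (fun x => ‖fderiv ℝ h x‖ ^ 2 / h x) + C / √(t + s) * B.Z s θ := fun θ => by
      set M := B.avg s θ h with hM
      have hM0 : 0 < M := hη.trans_le (hMb s hs0.le θ).1
      have h1 := B.entAt_le_var hs0.le θ gh ghl hpos hM0
      have h2 := B.var_tilt_le ht hs hs0.le θ hh gh gd
      have h3 := B.avg_mono hs0.le θ (gd.sq.const_mul M⁻¹)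
        (gdh.add ((gh.sub (Good.const M)).abs.const_mul (K ^ 2 / η ^ 2))) fun x => by
        set D := ‖fderiv ℝ h x‖ ^ 2
        have hx := (hpos x).ne'
        have e : M⁻¹ * D = D / h x + D * ((h x - M) / (M * h x)) := by field_simp; ring
        rw [e, div_mul_eq_mul_div (K ^ 2)]
        gcongr
        rw [mul_div_assoc', mul_comm M]
        refine (div_le_div_of_nonneg_right
          (mul_le_mul_of_nonneg_left (le_abs_self _) (sq_nonneg _))
          (mul_pos (hpos x) hM0).le).trans (div_le_div₀ (by positivity)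
            (mul_le_mul_of_nonneg_right (pow_le_pow_left₀ (norm_nonneg _) (hD x) 2) (abs_nonneg _))
            (pow_pos hη 2) ?_)
        rw [pow_two]
        exact mul_le_mul (hlo x) (hMb s hs0.le θ).1 hη.le (hpos x).le
      rw [B.avg_const_mul, B.avg_add hs0.le θ gdh.1.aestronglyMeasurable gdh.2
        (((gh.sub (Good.const M)).abs.const_mul _)).1.aestronglyMeasurable
        (((gh.sub (Good.const M)).abs.const_mul _)).2, B.avg_const_mul] at h3
      have h4 : B.avg s θ (fun x => |h x - M|) ≤ K / √(t + s) := by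
        refine abs_le_of_sq_le_sq' ?_ (by positivity) |>.2
        rw [div_pow, sq_sqrt hc.le]
        refine (B.sq_avg_le hs0.le θ (gh.sub (Good.const M)).abs).trans ?_
        simp only [sq_abs]
        refine (le_of_eq rfl).trans (h2.trans ?_)
        rw [← div_eq_inv_mul]
        refine div_le_div_of_nonneg_right ?_ hc.le
        calc _ ≤ B.avg s θ (fun _ => K ^ 2) := B.avg_mono hs0.le θ gd.sq (Good.const _)
              fun x => pow_le_pow_left₀ (norm_nonneg _) (hD x) 2
          _ = _ := B.avg_const hs0.le θ _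
      have h5 : (t + s) * B.entAt s θ h ≤
          B.avg s θ (fun x => ‖fderiv ℝ h x‖ ^ 2 / h x) + C / √(t + s) := by
        have h6 := mul_le_mul_of_nonneg_left
          (h1.trans (div_le_div_of_nonneg_right h2 hM0.le)) hc.le
        have h7 : (t + s) * ((t + s)⁻¹ * B.avg s θ (fun x => ‖fderiv ℝ h x‖ ^ 2) / M) =
            M⁻¹ * B.avg s θ (fun x => ‖fderiv ℝ h x‖ ^ 2) := by
          field_simp
        have h8 : K ^ 2 / η ^ 2 * B.avg s θ (fun x => |h x - M|) ≤ C / √(t + s) := by
          rw [show C / √(t + s) = K ^ 2 / η ^ 2 * (K / √(t + s)) from mul_div_assoc _ _ _]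
          exact mul_le_mul_of_nonneg_left h4 (by positivity)
        linarith
      rw [B.num_eq_avg_mul hs0.le]
      calc _ = (t + s) * B.entAt s θ h * B.Z s θ := by ring
        _ ≤ _ := mul_le_mul_of_nonneg_right h5 (B.Z_pos hs0.le θ).le
        _ = _ := add_mul _ _ _
    rw [← i2, ← integral_const_mul]
    have j1 := (B.gBound_good gdh).integrable hs0.le (B.continuous_num_good hs0.le gdh)
    have j2 : Integrable (fun z => B.Z s (√s • z)) (gam n) := by
      simpa [num_one] using (B.gBound_good (Good.const (n := n) 1)).integrable hs0.le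
        (B.continuous_num_good hs0.le (Good.const 1))
    refine (integral_mono (i1.const_mul _) (j1.add (j2.const_mul (C / √(t + s))))
      fun z => hpt _).trans_eq ?_
    simp only [Pi.add_apply]
    rw [integral_add j1 (j2.const_mul _), B.integral_num_gam hs0.le gdh, integral_const_mul]
    have : ∫ z, B.Z s (√s • z) ∂gam n = 1 := by
      simpa [num_one] using B.integral_num_gam hs0.le (Good.const (n := n) 1)
    rw [this, mul_one]
  have hmono : MonotoneOn (fun s => (t + s) * (A - P s)) (Ici 0) := by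
    have hd : ∀ s, 0 < s → HasDerivAt (fun s => (t + s) * (A - P s))
        ((A - P s) + (t + s) * (-∫ z, H s (√s • z) ∂gam n)) s := fun s hs0 =>
      (((hasDerivAt_id s).const_add t).mul ((hder s hs0).const_sub A)).congr_deriv (by
        simp)
    refine monotoneOn_of_deriv_nonneg (convex_Ici 0)
      ((continuousOn_const.add continuousOn_id).mul (continuousOn_const.sub hcont)) ?_ ?_
    · rw [interior_Ici]; exact fun s hs0 => (hd s hs0).differentiableAt.differentiableWithinAt
    · rw [interior_Ici]; intro s hs0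
      rw [(hd s hs0).deriv]
      have := mul_le_mul_of_nonneg_left (hHle s hs0) (add_pos ht hs0).le
      rw [← mul_assoc, mul_inv_cancel₀ (add_pos ht hs0).ne', one_mul] at this
      linarith
  have hP0 : P 0 = (∫ x, h x ∂B.μ) * log (∫ x, h x ∂B.μ) := by
    simp [hP, hG, hLdef, B.num_eq_zero_F, B.Z_zero]
  have hfin : t * (A - P 0) ≤ I + 0 := by
    have hlim : Tendsto (fun s => I + C / √(t + s)) atTop (𝓝 (I + 0)) :=
      tendsto_const_nhds.add (tendsto_const_nhds.div_atTop
        (tendsto_sqrt_atTop.comp (tendsto_atTop_add_const_left _ t tendsto_id)))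
    refine ge_of_tendsto hlim ?_
    filter_upwards [eventually_gt_atTop 0] with s hs0
    have := hmono self_mem_Ici (mem_Ici.2 hs0.le) hs0.le
    simp only [add_zero] at this
    exact this.trans (hlarge s hs0)
  rw [hP0, add_zero] at hfin
  exact (le_inv_mul_iff₀ ht).2 hfin

end Base

end Vale.Agent.P245.Local
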