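import Mathlib

/-!
# P245: second-order bound for `tr A ^ q` along `dA = D·dθ`, `L A = -A²`
-/

open Matrix Finset

noncomputable section

namespace Vale.Agent.P245.Local

variable {n : ℕ}

/-- square real matrices -/
abbrev Mat (n : ℕ) := Matrix (Fin n) (Fin n) ℝ

/-- first derivative of `A ^ m` -/
def pD (A : Mat n) (D : Fin n → Mat n) : ℕ → Fin n → Mat n
  | 0, _ => 0
  | m + 1, k => pD A D m k * A + A ^ m * D k

/-- the generator applied to `A ^ m` -/
def pL (A : Mat n) (D : Fin n → Mat n) : ℕ → Mat n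
  | 0 => 0
  | m + 1 => pL A D m * A + A ^ m * (-(A * A)) + ∑ k, pD A D m k * D k

/-- orthogonal conjugation -/
def conjU (U X : Mat n) : Mat n := Uᵀ * X * U

theorem conjU_mul {U : Mat n} (hU : U * Uᵀ = 1) (X Y : Mat n) :
    conjU U (X * Y) = conjU U X * conjU U Y := by
  unfold conjU
  calc Uᵀ * (X * Y) * U = Uᵀ * X * (U * Uᵀ) * Y * U := by
        rw [hU, Matrix.mul_one]; simp only [Matrix.mul_assoc]
    _ = _ := by simp only [Matrix.mul_assoc]

theorem conjU_add (U X Y : Mat n) : conjU U (X + Y) = conjU U X + conjU U Y := by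
  simp [conjU, Matrix.mul_add, Matrix.add_mul]

theorem conjU_neg (U X : Mat n) : conjU U (-X) = -conjU U X := by simp [conjU]

theorem conjU_zero (U : Mat n) : conjU U 0 = 0 := by simp [conjU]

theorem conjU_sum {ι : Type*} (U : Mat n) (s : Finset ι) (X : ι → Mat n) :
    conjU U (∑ i ∈ s, X i) = ∑ i ∈ s, conjU U (X i) := by
  simp [conjU, Matrix.mul_sum, Matrix.sum_mul]

theorem conjU_pow {U : Mat n} (hU : U * Uᵀ = 1) (hU' : Uᵀ * U = 1) (X : Mat n) :
    ∀ m, conjU U (X ^ m) = conjU U X ^ m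
  | 0 => by simp [conjU, hU']
  | m + 1 => by rw [pow_succ, conjU_mul hU, conjU_pow hU hU' X m, pow_succ]

theorem trace_conjU {U : Mat n} (hU : U * Uᵀ = 1) (X : Mat n) : (conjU U X).trace = X.trace := by
  rw [conjU, Matrix.trace_mul_cycle, hU, Matrix.one_mul]

theorem pD_conjU {U : Mat n} (hU : U * Uᵀ = 1) (hU' : Uᵀ * U = 1) (A : Mat n) (D : Fin n → Mat n) :
    ∀ m k, conjU U (pD A D m k) = pD (conjU U A) (fun k => conjU U (D k)) m k
  | 0, k => by simp [pD, conjU_zero]
  | m + 1, k => by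
    simp only [pD, conjU_add, conjU_mul hU, conjU_pow hU hU', pD_conjU hU hU' A D m k]

theorem pL_conjU {U : Mat n} (hU : U * Uᵀ = 1) (hU' : Uᵀ * U = 1) (A : Mat n) (D : Fin n → Mat n) :
    ∀ m, conjU U (pL A D m) = pL (conjU U A) (fun k => conjU U (D k)) m
  | 0 => by simp [pL, conjU_zero]
  | m + 1 => by
    simp only [pL, conjU_add, conjU_mul hU, conjU_neg, conjU_sum, conjU_pow hU hU',
      pD_conjU hU hU', pL_conjU hU hU' A D m]

/-- `cpow m x y = ∑_{a+b=m-1} x^a y^b` -/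
def cpow : ℕ → ℝ → ℝ → ℝ
  | 0, _, _ => 0
  | m + 1, x, y => cpow m x y * y + x ^ m

/-- weight of `D_ij²` in the diagonal of `pL` -/
def epow : ℕ → ℝ → ℝ → ℝ
  | 0, _, _ => 0
  | m + 1, x, y => epow m x y * x + cpow m x y

theorem cpow_le {x y : ℝ} (hx : 0 ≤ x) (hy : 0 ≤ y) :
    ∀ m : ℕ, cpow (m + 1) x y ≤ (m + 1) * max x y ^ m
  | 0 => by simp [cpow]
  | m + 1 => by
    have h := cpow_le hx hy m
    have hM : 0 ≤ max x y := le_max_of_le_left hx
    have h1 : cpow (m + 1) x y * y ≤ (m + 1) * max x y ^ m * max x y :=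
      mul_le_mul h (le_max_right _ _) hy (by positivity)
    have h2 : x ^ (m + 1) ≤ max x y ^ (m + 1) := pow_le_pow_left₀ hx (le_max_left _ _) _
    have e : ((m : ℝ) + 1) * max x y ^ m * max x y = (m + 1) * max x y ^ (m + 1) := by ring
    rw [cpow]
    push_cast
    linarith

theorem epow_le {x y : ℝ} (hx : 0 ≤ x) (hy : 0 ≤ y) :
    ∀ m : ℕ, epow (m + 2) x y ≤ (m + 2) ^ 2 * max x y ^ m
  | 0 => by norm_num [epow, cpow]
  | m + 1 => by
    have h := epow_le hx hy m
    have hM : 0 ≤ max x y := le_max_of_le_left hx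
    have h1 : epow (m + 2) x y * x ≤ (m + 2) ^ 2 * max x y ^ m * max x y :=
      mul_le_mul h (le_max_left _ _) hx (by positivity)
    have h2 := cpow_le hx hy (m + 1)
    have h3 : 0 ≤ ((m : ℝ) + 3) * max x y ^ (m + 1) := by positivity
    have e : ((m : ℝ) + 2) ^ 2 * max x y ^ m * max x y + (m + 1 + 1) * max x y ^ (m + 1) +
        (m + 3) * max x y ^ (m + 1) = (m + 1 + 2) ^ 2 * max x y ^ (m + 1) := by ring
    rw [epow]
    push_cast at h2 ⊢
    linarith

theorem pD_diagonal (l : Fin n → ℝ) (D : Fin n → Mat n) :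
    ∀ m k i j, pD (diagonal l) D m k i j = cpow m (l i) (l j) * D k i j
  | 0, k, i, j => by simp [pD, cpow]
  | m + 1, k, i, j => by
    simp only [pD, cpow, Matrix.add_apply, Matrix.mul_diagonal, diagonal_pow, Matrix.diagonal_mul,
      Pi.pow_apply, pD_diagonal l D m k i j]
    ring

theorem pL_diagonal_le {l : Fin n → ℝ} (hl : ∀ i, 0 ≤ l i) {D : Fin n → Mat n}
    (hD : ∀ k i j, D k i j = D k j i) :
    ∀ m i, pL (diagonal l) D m i i ≤ ∑ k, ∑ j, epow m (l i) (l j) * D k i j ^ 2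
  | 0, i => by simp [pL, epow]
  | m + 1, i => by
    have h := mul_le_mul_of_nonneg_right (pL_diagonal_le hl hD m i) (hl i)
    have h2 : 0 ≤ l i ^ m * (l i * l i) := mul_nonneg (pow_nonneg (hl i) m) (mul_self_nonneg _)
    have e : pL (diagonal l) D (m + 1) i i = pL (diagonal l) D m i i * l i - l i ^ m * (l i * l i)
        + ∑ k, ∑ j, cpow m (l i) (l j) * D k i j ^ 2 := by
      simp only [pL, Matrix.add_apply, Matrix.mul_diagonal, diagonal_pow, Matrix.diagonal_mul,
        Pi.pow_apply, Matrix.neg_apply, diagonal_apply_eq, Matrix.sum_apply]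
      simp only [Matrix.mul_apply, pD_diagonal]
      congr 1
      · ring
      · refine Finset.sum_congr rfl fun k _ => Finset.sum_congr rfl fun j _ => ?_
        rw [hD k j i]; ring
    rw [e]
    simp only [epow, add_mul, Finset.sum_add_distrib, Finset.sum_mul] at h ⊢
    have e2 : ∀ k j, epow m (l i) (l j) * D k i j ^ 2 * l i =
        epow m (l i) (l j) * l i * D k i j ^ 2 := fun k j => by ring
    simp only [e2] at h
    linarith

/-- The bound on the generator of `tr A ^ (p + 2)`. -/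
theorem trace_pL_le {A U : Mat n} {l : Fin n → ℝ} (hU : U * Uᵀ = 1) (hU' : Uᵀ * U = 1)
    (hA : conjU U A = diagonal l) (hl : ∀ i, 0 ≤ l i) {D : Fin n → Mat n}
    (hD : ∀ k, (D k)ᵀ = D k) (p : ℕ) :
    (pL A D (p + 2)).trace ≤
      2 * (p + 2 : ℝ) ^ 2 * ∑ i, l i ^ p * ∑ k, ∑ a, (Uᵀ * D k) i a ^ 2 := by
  set D' := fun k => conjU U (D k) with hD'
  have hs : ∀ k i j, D' k i j = D' k j i := fun k i j => by
    have : (D' k)ᵀ = D' k := by
      simp [hD', conjU, Matrix.transpose_mul, hD, Matrix.mul_assoc]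
    conv_lhs => rw [← this]
    rfl
  rw [← trace_conjU hU, pL_conjU hU hU', hA]
  have hrow : ∀ k i, ∑ j, D' k i j ^ 2 = ∑ a, (Uᵀ * D k) i a ^ 2 := by
    intro k i
    have e : ∀ X : Mat n, ∑ j, X i j ^ 2 = (X * Xᵀ) i i := fun X => by
      simp [Matrix.mul_apply, pow_two]
    rw [e, e]
    simp only [hD', conjU]
    rw [Matrix.transpose_mul _ U, Matrix.mul_assoc, ← Matrix.mul_assoc U, hU, Matrix.one_mul]
  have hmax : ∀ x y : ℝ, 0 ≤ x → 0 ≤ y → max x y ^ p ≤ x ^ p + y ^ p := fun x y hx hy => by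
    rcases le_total x y with h | h
    · rw [max_eq_right h]; linarith [pow_nonneg hx p]
    · rw [max_eq_left h]; linarith [pow_nonneg hy p]
  calc (pL (diagonal l) D' (p + 2)).trace
      ≤ ∑ i, ∑ k, ∑ j, epow (p + 2) (l i) (l j) * D' k i j ^ 2 :=
        Finset.sum_le_sum fun i _ => pL_diagonal_le hl hs (p + 2) i
    _ ≤ ∑ i, ∑ k, ∑ j, (p + 2 : ℝ) ^ 2 * (l i ^ p + l j ^ p) * D' k i j ^ 2 := by
        gcongr with i _ k _ j _
        exact (epow_le (hl i) (hl j) p).trans
          (mul_le_mul_of_nonneg_left (hmax _ _ (hl i) (hl j)) (by positivity))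
    _ = ∑ i, ∑ k, ∑ j, (p + 2 : ℝ) ^ 2 * l i ^ p * D' k i j ^ 2
        + ∑ i, ∑ k, ∑ j, (p + 2 : ℝ) ^ 2 * l j ^ p * D' k i j ^ 2 := by
        simp only [mul_add, add_mul, Finset.sum_add_distrib]
    _ = 2 * ∑ i, ∑ k, ∑ j, (p + 2 : ℝ) ^ 2 * l i ^ p * D' k i j ^ 2 := by
        rw [two_mul]
        congr 1
        rw [Finset.sum_comm, Finset.sum_comm (f := fun i k => ∑ j, (p + 2 : ℝ) ^ 2 * l i ^ p * D' k i j ^ 2)]
        refine Finset.sum_congr rfl fun k _ => ?_
        rw [Finset.sum_comm]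
        exact Finset.sum_congr rfl fun i _ => Finset.sum_congr rfl fun j _ => by rw [hs k j i]
    _ = _ := by
        simp only [← hrow, Finset.mul_sum]
        exact Finset.sum_congr rfl fun i _ => Finset.sum_congr rfl fun k _ =>
          Finset.sum_congr rfl fun j _ => by ring

end Vale.Agent.P245.Local
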