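import Vale.Agent.P245.Local.Tau

/-!
# P245: Gaussian smoothing of a log-concave measure is a `Base`

For a probability measure `μ` with log-concave density and a finite Gaussian moment, the law of
`(X + s G) / b` is the measure of a `Base n`: the potential is smooth, convex (Prékopa–Leindler)
and has Hessian at most `(b / s) ^ 2`.
-/

open MeasureTheory Real Set Filter
open scoped RealInnerProductSpace ENNReal Topology

noncomputable section

namespace Vale.Agent.P245.Local

variable {n : ℕ}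

/-! ### Convexity tools -/

/-- A continuous midpoint convex function is convex. -/
theorem convexOn_of_mid {g : E n → ℝ} (hg : Continuous g)
    (hmid : ∀ x y, g ((2 : ℝ)⁻¹ • (x + y)) ≤ (g x + g y) / 2) : ConvexOn ℝ univ g := by
  refine ⟨convex_univ, fun x _ y _ p q hp hq hpq => ?_⟩
  obtain rfl : p = 1 - q := by linarith
  simp only [smul_eq_mul]
  set φ : ℝ → ℝ := fun t => g ((1 - t) • x + t • y) - ((1 - t) * g x + t * g y) with hφ
  have hc : Continuous φ := by rw [hφ]; fun_prop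
  suffices hs : φ q ≤ 0 by simp only [hφ] at hs; linarith
  by_contra hpos
  push Not at hpos
  have hqI : q ∈ Icc (0 : ℝ) 1 := ⟨hq, by linarith⟩
  obtain ⟨tm, htm, hmax⟩ := isCompact_Icc.exists_isMaxOn ⟨q, hqI⟩ hc.continuousOn
  have hS : IsCompact (Icc (0 : ℝ) 1 ∩ φ ⁻¹' {φ tm}) :=
    isCompact_Icc.inter_right (isClosed_singleton.preimage hc)
  obtain ⟨t0, ⟨ht0, ht0'⟩, hmin⟩ := hS.exists_isLeast ⟨tm, htm, rfl⟩
  have hM : 0 < φ t0 := by
    rw [mem_preimage, mem_singleton_iff] at ht0'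
    rw [ht0']; exact hpos.trans_le (hmax hqI)
  have e0 : φ 0 = 0 := by simp [hφ]
  have e1 : φ 1 = 0 := by simp [hφ]
  have h0 : 0 < t0 := lt_of_le_of_ne ht0.1 fun h => by rw [← h, e0] at hM; exact lt_irrefl _ hM
  have h1 : t0 < 1 := lt_of_le_of_ne ht0.2 fun h => by rw [h, e1] at hM; exact lt_irrefl _ hM
  set d := min t0 (1 - t0) with hd
  have hd0 : 0 < d := lt_min h0 (by linarith)
  have hd1 := min_le_left t0 (1 - t0)
  have hd2 := min_le_right t0 (1 - t0)
  have hl : t0 - d ∈ Icc (0 : ℝ) 1 := ⟨by linarith, by linarith⟩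
  have hr : t0 + d ∈ Icc (0 : ℝ) 1 := ⟨by linarith, by linarith⟩
  rw [mem_preimage, mem_singleton_iff] at ht0'
  have hlt : φ (t0 - d) < φ t0 := by
    refine lt_of_le_of_ne ((hmax hl).trans_eq ht0'.symm) fun h => ?_
    have := hmin ⟨hl, h.trans ht0'⟩
    linarith
  have hle : φ (t0 + d) ≤ φ t0 := (hmax hr).trans_eq ht0'.symm
  have hm := hmid ((1 - (t0 - d)) • x + (t0 - d) • y) ((1 - (t0 + d)) • x + (t0 + d) • y)
  have e : (2 : ℝ)⁻¹ • ((1 - (t0 - d)) • x + (t0 - d) • y + ((1 - (t0 + d)) • x + (t0 + d) • y)) =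
      (1 - t0) • x + t0 • y := by module
  rw [e] at hm
  simp only [hφ] at hlt hle
  linarith

/-- A convex `C²` function has nonnegative Hessian. -/
theorem hess_nonneg_of_convexOn {g : E n → ℝ} (hg : ContDiff ℝ 2 g) (hc : ConvexOn ℝ univ g)
    (x v : E n) : 0 ≤ hess g x v v := by
  have hd : ∀ s : ℝ, HasDerivAt (fun s : ℝ => g (x + s • v)) (fderiv ℝ g (x + s • v) v) s := by
    intro s
    have h1 : HasDerivAt (fun s : ℝ => x + s • v) v s := by
      simpa using ((hasDerivAt_id s).smul_const v).const_add x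
    exact (hg.differentiable (by norm_num) _).hasFDerivAt.comp_hasDerivAt s h1
  have hconv : ConvexOn ℝ univ fun s : ℝ => g (x + s • v) :=
    ⟨convex_univ, fun a _ b _ p q hp hq hpq => by
      have h := hc.2 (mem_univ (x + a • v)) (mem_univ (x + b • v)) hp hq hpq
      refine le_of_eq_of_le ?_ h
      simp only [smul_eq_mul]
      congr 1
      calc x + (p * a + q * b) • v = (p + q) • x + (p * a + q * b) • v := by rw [hpq, one_smul]
        _ = _ := by module⟩
  have hmono : Monotone fun s : ℝ => fderiv ℝ g (x + s • v) v := by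
    have := hconv.monotoneOn_deriv (fun s _ => (hd s).differentiableAt)
    intro a b hab
    simpa [(hd a).deriv, (hd b).deriv] using this (mem_univ a) (mem_univ b) hab
  have hd2 : HasDerivAt (fun s : ℝ => fderiv ℝ g (x + s • v) v) (hess g x v v) 0 := by
    have h1 : HasDerivAt (fun s : ℝ => x + s • v) v (0 : ℝ) := by
      simpa using ((hasDerivAt_id (0:ℝ)).smul_const v).const_add x
    have h2 := ((hg.fderiv_right (m := 1) le_rfl).differentiable (by norm_num)
      (x + (0:ℝ) • v)).hasFDerivAt.comp_hasDerivAt (0:ℝ) h1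
    have h3 := h2.clm_apply (hasDerivAt_const (0:ℝ) v)
    simpa [hess] using h3
  rw [← hd2.deriv]; exact hmono.deriv_nonneg

/-! ### The partition function of a finite measure -/

/-- `∫ exp (⟪θ, x⟫ - τ ‖x‖² / 2) dμ`. -/
def part (μ : Measure (E n)) (τ : ℝ) (θ : E n) : ℝ := ∫ x, Base.W τ θ x ∂μ

theorem W_mul_growth_le {τ : ℝ} (hτ : 0 < τ) (r : ℝ) {θ : E n} (hθ : ‖θ‖ ≤ r) (x : E n) :
    Base.W τ θ x * (1 + ‖x‖) ^ 2 ≤ exp ((r + 2) ^ 2 / (2 * τ)) := by
  have h1 : (1 + ‖x‖) ^ 2 ≤ exp (2 * ‖x‖) := by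
    rw [two_mul, exp_add, pow_two]
    have := add_one_le_exp ‖x‖
    gcongr <;> linarith
  refine (mul_le_mul_of_nonneg_left h1 (Base.W_pos τ θ x).le).trans ?_
  rw [Base.W, ← exp_add]
  refine exp_le_exp.2 ?_
  have h2 := real_inner_le_norm θ x
  have h3 : ‖θ‖ * ‖x‖ ≤ r * ‖x‖ := mul_le_mul_of_nonneg_right hθ (norm_nonneg x)
  have h4 := exp_norm_le_sq (half_pos hτ) (r + 2) x
  rw [show (r + 2) ^ 2 / (2 * τ) = (r + 2) ^ 2 / (4 * (τ / 2)) by ring]
  linarith

theorem continuous_W (τ : ℝ) (θ : E n) : Continuous (Base.W τ θ) := by unfold Base.W; fun_prop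

theorem continuous_W_param (τ : ℝ) (x : E n) : Continuous fun θ => Base.W τ θ x := by
  unfold Base.W; fun_prop

theorem hasFDerivAt_W (τ : ℝ) (θ x : E n) :
    HasFDerivAt (fun η => Base.W τ η x) (Base.W τ θ x • innerSL ℝ x) θ := by
  have e : (fun η => Base.W τ η x) = fun η => exp (innerSL ℝ x η - τ / 2 * ‖x‖ ^ 2) := by
    funext η
    simp only [Base.W, innerSL_apply_apply, real_inner_comm η x]
  rw [e]
  have h := (((innerSL ℝ x).hasFDerivAt (x := θ)).sub_const (τ / 2 * ‖x‖ ^ 2)).exp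
  simpa [Base.W, innerSL_apply_apply, real_inner_comm θ x] using h

variable {μ : Measure (E n)}

theorem integrable_W_smul [IsFiniteMeasure μ] {τ : ℝ} (hτ : 0 < τ) (θ : E n) {F : Type*}
    [NormedAddCommGroup F] [NormedSpace ℝ F] {T : E n → F} (hT : Continuous T)
    (hb : ∀ x, ‖T x‖ ≤ (1 + ‖x‖) ^ 2) : Integrable (fun x => Base.W τ θ x • T x) μ := by
  refine (integrable_const (exp ((‖θ‖ + 2) ^ 2 / (2 * τ)))).mono'
    ((continuous_W τ θ).smul hT).aestronglyMeasurable (.of_forall fun x => ?_)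
  rw [norm_smul, Real.norm_eq_abs, abs_of_pos (Base.W_pos τ θ x)]
  exact (mul_le_mul_of_nonneg_left (hb x) (Base.W_pos τ θ x).le).trans
    (W_mul_growth_le hτ _ le_rfl x)

theorem one_le_growth (x : E n) : (1 : ℝ) ≤ (1 + ‖x‖) ^ 2 := by
  nlinarith [norm_nonneg x]

theorem norm_innerSL_le (x : E n) : ‖innerSL ℝ x‖ ≤ (1 + ‖x‖) ^ 2 := by
  rw [innerSL_apply_norm]
  nlinarith [norm_nonneg x]

theorem norm_sq_innerSL_le (x : E n) :
    ‖(innerSL ℝ x).smulRight (innerSL ℝ x)‖ ≤ (1 + ‖x‖) ^ 2 := by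
  rw [ContinuousLinearMap.norm_smulRight_apply, innerSL_apply_norm]
  nlinarith [norm_nonneg x]

theorem integrable_W_part [IsFiniteMeasure μ] {τ : ℝ} (hτ : 0 < τ) (θ : E n) :
    Integrable (fun x => Base.W τ θ x) μ := by
  simpa using integrable_W_smul hτ θ (T := fun _ => (1 : ℝ)) continuous_const
    (fun x => by simpa using one_le_growth x)

theorem contDiff_part [IsFiniteMeasure μ] {τ : ℝ} (hτ : 0 < τ) : ContDiff ℝ 2 (part μ τ) := by
  have hc1 : Continuous fun x : E n => (innerSL ℝ x : E n →L[ℝ] ℝ) := by fun_prop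
  have hc2 : Continuous fun x : E n => ((innerSL ℝ x).smulRight (innerSL ℝ x) :
      E n →L[ℝ] E n →L[ℝ] ℝ) :=
    (ContinuousLinearMap.smulRightL ℝ (E n) (E n →L[ℝ] ℝ)).continuous₂.comp (hc1.prodMk hc1)
  have h1 : ∀ θ, HasFDerivAt (part μ τ) (∫ x, Base.W τ θ x • innerSL ℝ x ∂μ) θ := by
    intro θ
    refine hasFDerivAt_integral_of_dominated_of_fderiv_le (Metric.ball_mem_nhds θ one_pos)
      (.of_forall fun η => (continuous_W τ η).aestronglyMeasurable) (integrable_W_part hτ θ)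
      (integrable_W_smul hτ θ hc1 norm_innerSL_le).aestronglyMeasurable
      (bound := fun _ => exp ((‖θ‖ + 1 + 2) ^ 2 / (2 * τ))) (.of_forall fun x η hη => ?_)
      (integrable_const _) (.of_forall fun x η _ => hasFDerivAt_W τ η x)
    rw [Metric.mem_ball, dist_eq_norm] at hη
    have hn : ‖η‖ ≤ ‖θ‖ + 1 := by
      have := norm_le_norm_add_norm_sub' η θ
      linarith
    rw [norm_smul, Real.norm_eq_abs, abs_of_pos (Base.W_pos τ η x)]
    exact (mul_le_mul_of_nonneg_left (norm_innerSL_le x) (Base.W_pos τ η x).le).trans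
      (W_mul_growth_le hτ _ hn x)
  have h2 : ∀ θ, HasFDerivAt (fun η => ∫ x, Base.W τ η x • innerSL ℝ x ∂μ)
      (∫ x, Base.W τ θ x • (innerSL ℝ x).smulRight (innerSL ℝ x) ∂μ) θ := by
    intro θ
    refine hasFDerivAt_integral_of_dominated_of_fderiv_le (Metric.ball_mem_nhds θ one_pos)
      (.of_forall fun η => ((continuous_W τ η).smul hc1).aestronglyMeasurable)
      (integrable_W_smul hτ θ hc1 norm_innerSL_le)
      (F' := fun η x => Base.W τ η x • (innerSL ℝ x).smulRight (innerSL ℝ x))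
      (integrable_W_smul hτ θ hc2 norm_sq_innerSL_le).aestronglyMeasurable
      (bound := fun _ => exp ((‖θ‖ + 1 + 2) ^ 2 / (2 * τ))) (.of_forall fun x η hη => ?_)
      (integrable_const _) (.of_forall fun x η _ => ?_)
    · rw [Metric.mem_ball, dist_eq_norm] at hη
      have hn : ‖η‖ ≤ ‖θ‖ + 1 := by
        have := norm_le_norm_add_norm_sub' η θ
        linarith
      rw [norm_smul, Real.norm_eq_abs, abs_of_pos (Base.W_pos τ η x)]
      exact (mul_le_mul_of_nonneg_left (norm_sq_innerSL_le x) (Base.W_pos τ η x).le).trans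
        (W_mul_growth_le hτ _ hn x)
    · refine ((hasFDerivAt_W τ η x).smul_const (innerSL ℝ x)).congr_fderiv ?_
      ext v w
      simp [mul_assoc]
  have hfd : fderiv ℝ (part μ τ) = fun η => ∫ x, Base.W τ η x • innerSL ℝ x ∂μ :=
    funext fun θ => (h1 θ).fderiv
  rw [show (2 : WithTop ℕ∞) = 1 + 1 by norm_num, contDiff_succ_iff_fderiv]
  refine ⟨fun θ => (h1 θ).differentiableAt, by simp, ?_⟩
  rw [hfd, contDiff_one_iff_fderiv]
  refine ⟨fun θ => (h2 θ).differentiableAt, ?_⟩
  rw [show fderiv ℝ (fun η => ∫ x, Base.W τ η x • innerSL ℝ x ∂μ) =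
    fun θ => ∫ x, Base.W τ θ x • (innerSL ℝ x).smulRight (innerSL ℝ x) ∂μ from
      funext fun θ => (h2 θ).fderiv]
  refine continuous_iff_continuousAt.2 fun θ => ?_
  refine continuousAt_of_dominated (bound := fun _ => exp ((‖θ‖ + 1 + 2) ^ 2 / (2 * τ)))
    (.of_forall fun η => ((continuous_W τ η).smul hc2).aestronglyMeasurable) ?_
    (integrable_const _) (.of_forall fun x => ((continuous_W_param τ x).smul
      continuous_const).continuousAt)
  filter_upwards [Metric.ball_mem_nhds θ one_pos] with η hη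
  filter_upwards with x
  rw [Metric.mem_ball, dist_eq_norm] at hη
  have hn : ‖η‖ ≤ ‖θ‖ + 1 := by
    have := norm_le_norm_add_norm_sub' η θ
    linarith
  rw [norm_smul, Real.norm_eq_abs, abs_of_pos (Base.W_pos τ η x)]
  exact (mul_le_mul_of_nonneg_left (norm_sq_innerSL_le x) (Base.W_pos τ η x).le).trans
    (W_mul_growth_le hτ _ hn x)

theorem part_pos [IsProbabilityMeasure μ] {τ : ℝ} (hτ : 0 < τ) (θ : E n) : 0 < part μ τ θ := by
  refine (integral_pos_iff_support_of_nonneg (fun x => (Base.W_pos τ θ x).le)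
    (integrable_W_part hτ θ)).2 ?_
  simp [Function.support, (Base.W_pos τ θ _).ne']

theorem log_part_mid [IsProbabilityMeasure μ] {τ : ℝ} (hτ : 0 < τ) (θ₁ θ₂ : E n) :
    log (part μ τ ((2 : ℝ)⁻¹ • (θ₁ + θ₂))) ≤ (log (part μ τ θ₁) + log (part μ τ θ₂)) / 2 := by
  have hp1 := part_pos (μ := μ) hτ θ₁
  have hp2 := part_pos (μ := μ) hτ θ₂
  set J1 := part μ τ θ₁ with hJ1
  set J2 := part μ τ θ₂ with hJ2
  set l := √(J2 / J1) with hl
  have hl0 : 0 < l := Real.sqrt_pos.2 (div_pos hp2 hp1)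
  have hpt : ∀ x, Base.W τ ((2 : ℝ)⁻¹ • (θ₁ + θ₂)) x ≤
      l / 2 * Base.W τ θ₁ x + l⁻¹ / 2 * Base.W τ θ₂ x := by
    intro x
    have e : Base.W τ ((2 : ℝ)⁻¹ • (θ₁ + θ₂)) x ^ 2 = Base.W τ θ₁ x * Base.W τ θ₂ x := by
      simp only [Base.W, ← exp_add, pow_two]
      congr 1
      rw [real_inner_smul_left, inner_add_left]
      ring
    set A := l / 2 * Base.W τ θ₁ x with hA
    set B := l⁻¹ / 2 * Base.W τ θ₂ x with hB
    have h4 : 4 * (A * B) = Base.W τ θ₁ x * Base.W τ θ₂ x := by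
      rw [hA, hB]; field_simp; ring
    have hA0 : 0 ≤ A := mul_nonneg (by positivity) (Base.W_pos _ _ _).le
    have hB0 : 0 ≤ B := mul_nonneg (by positivity) (Base.W_pos _ _ _).le
    nlinarith [sq_nonneg (A - B), Base.W_pos τ ((2 : ℝ)⁻¹ • (θ₁ + θ₂)) x]
  have hi1 := (integrable_W_part (μ := μ) hτ θ₁).const_mul (l / 2)
  have hi2 := (integrable_W_part (μ := μ) hτ θ₂).const_mul (l⁻¹ / 2)
  have hle : part μ τ ((2 : ℝ)⁻¹ • (θ₁ + θ₂)) ≤ l / 2 * J1 + l⁻¹ / 2 * J2 := by
    refine (integral_mono (integrable_W_part hτ _) (hi1.add hi2) hpt).trans_eq ?_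
    rw [Pi.add_def, integral_add hi1 hi2, integral_const_mul, integral_const_mul]
    rfl
  have hsq : l / 2 * J1 + l⁻¹ / 2 * J2 = √(J1 * J2) := by
    rw [hl, Real.sqrt_div hp2.le, Real.sqrt_mul hp1.le]
    have a1 := Real.sqrt_pos.2 hp1
    have a2 := Real.sqrt_pos.2 hp2
    field_simp
    nlinarith [Real.mul_self_sqrt hp1.le, Real.mul_self_sqrt hp2.le]
  rw [hsq] at hle
  refine (log_le_log (part_pos hτ _) hle).trans_eq ?_
  rw [Real.log_sqrt (mul_pos hp1 hp2).le, Real.log_mul hp1.ne' hp2.ne']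

/-! ### The smoothed measure -/

/-- The smoothing map. -/
def smap (b s : ℝ) (p : E n × E n) : E n := b⁻¹ • (p.1 + s • p.2)

theorem measurable_smap (b s : ℝ) : Measurable (smap (n := n) b s) := by unfold smap; fun_prop

/-- The potential of the smoothed measure. -/
def spot (μ : Measure (E n)) (b s : ℝ) (y : E n) : ℝ :=
  (b / s) ^ 2 / 2 * ‖y‖ ^ 2 - log (part μ (s ^ 2)⁻¹ ((b / s ^ 2) • y))
    + log (√(2 * π) ^ n / (b / s) ^ n)

theorem exp_neg_spot [IsProbabilityMeasure μ] {b s : ℝ} (hb : 0 < b) (hs : 0 < s) (y : E n) :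
    exp (-spot μ b s y) = ∫ x, (b / s) ^ n * gdens (s⁻¹ • (b • y - x)) ∂μ := by
  have hτ : (0 : ℝ) < (s ^ 2)⁻¹ := by positivity
  have e : ∀ x, (b / s) ^ n * gdens (s⁻¹ • (b • y - x)) =
      ((b / s) ^ n / √(2 * π) ^ n * exp (-((b / s) ^ 2 / 2 * ‖y‖ ^ 2))) *
        Base.W (s ^ 2)⁻¹ ((b / s ^ 2) • y) x := by
    intro x
    rw [gdens, Base.W, norm_smul, mul_pow, norm_sub_sq_real, norm_smul, real_inner_smul_left,
      real_inner_smul_left, mul_pow, mul_assoc ((b / s) ^ n / √(2 * π) ^ n), ← exp_add,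
      Real.norm_eq_abs, Real.norm_eq_abs, sq_abs, sq_abs, ← mul_assoc, div_eq_mul_inv]
    congr 2
    field_simp
    ring
  simp only [e, integral_const_mul]
  change _ = _ * part μ _ _
  have hJ := part_pos (μ := μ) hτ ((b / s ^ 2) • y)
  unfold spot
  rw [neg_add, neg_sub, sub_eq_add_neg, exp_add, exp_add, exp_log hJ, exp_neg (log _),
    exp_log (by positivity), inv_div]
  ring

theorem contDiff_spot [IsProbabilityMeasure μ] {b s : ℝ} (hs : 0 < s) :
    ContDiff ℝ 2 (spot μ b s) := by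
  have hτ : (0 : ℝ) < (s ^ 2)⁻¹ := by positivity
  unfold spot
  refine ((contDiff_const.mul (contDiff_norm_sq ℝ)).sub ?_).add contDiff_const
  exact ((contDiff_part hτ).comp (contDiff_const_smul (b / s ^ 2))).log
    fun y => (part_pos hτ _).ne'

theorem hess_spot_le [IsProbabilityMeasure μ] {b s : ℝ} (hs : 0 < s) (x v : E n) :
    hess (spot μ b s) x v v ≤ (b / s) ^ 2 * ‖v‖ ^ 2 := by
  have hτ : (0 : ℝ) < (s ^ 2)⁻¹ := by positivity
  set V := spot μ b s with hV
  set g : E n → ℝ := fun y => (b / s) ^ 2 / 2 * ‖y‖ ^ 2 - V y with hg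
  have hgc : ContDiff ℝ 2 g :=
    (contDiff_const.mul (contDiff_norm_sq ℝ)).sub (contDiff_spot hs)
  have hconv : ConvexOn ℝ univ g := by
    refine convexOn_of_mid hgc.continuous fun y z => ?_
    have h := log_part_mid (μ := μ) hτ ((b / s ^ 2) • y) ((b / s ^ 2) • z)
    rw [show (2 : ℝ)⁻¹ • ((b / s ^ 2) • y + (b / s ^ 2) • z) =
      (b / s ^ 2) • ((2 : ℝ)⁻¹ • (y + z)) by module] at h
    simp only [hg, hV, spot]
    linarith
  have h0 := hess_nonneg_of_convexOn hgc hconv x v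
  obtain ⟨L, hL, hL'⟩ := Base.hasFDerivAt_innerSL x
  have hV2 := contDiff_spot (μ := μ) (b := b) hs
  have h1 : fderiv ℝ g = fun y => (b / s) ^ 2 • innerSL ℝ y - fderiv ℝ V y := by
    funext y
    have a := (hasStrictFDerivAt_norm_sq y).hasFDerivAt.const_mul ((b / s) ^ 2 / 2)
    have c := (hV2.differentiable (by norm_num) y).hasFDerivAt
    refine ((a.sub c).congr_fderiv ?_).fderiv
    ext u
    simp
    ring
  have h2 : HasFDerivAt (fderiv ℝ g) ((b / s) ^ 2 • L - fderiv ℝ (fderiv ℝ V) x) x := by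
    rw [h1]
    exact (hL'.const_smul ((b / s) ^ 2 : ℝ)).sub
      ((hV2.fderiv_right (m := 1) le_rfl).differentiable (by norm_num) x).hasFDerivAt
  have h3 : hess g x v v = (b / s) ^ 2 * ‖v‖ ^ 2 - hess V x v v := by
    unfold hess
    rw [h2.fderiv]
    simp [hL]
  linarith

theorem convexOn_spot [IsProbabilityMeasure μ] {ρ : E n → ℝ} (hρm : Measurable ρ)
    (hρ0 : ∀ x, 0 ≤ ρ x) (hcs : Convex ℝ {x | 0 < ρ x})
    (hlc : ConcaveOn ℝ {x | 0 < ρ x} fun x => log (ρ x))
    (hμ : μ = volume.withDensity fun x => ENNReal.ofReal (ρ x))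
    {b s : ℝ} (hb : 0 < b) (hs : 0 < s) : ConvexOn ℝ univ (spot μ b s) := by
  refine convexOn_of_mid (contDiff_spot hs).continuous fun y z => ?_
  set k : E n → E n → ℝ := fun y x => (b / s) ^ n * gdens (s⁻¹ • (b • y - x)) with hk
  have hk0 : ∀ y x, 0 ≤ k y x := fun y x => mul_nonneg (by positivity) (gdens_pos _).le
  have hkm : ∀ y, Continuous (k y) := fun y => by
    simp only [hk]; exact continuous_const.mul (continuous_gdens.comp (by fun_prop))
  have hrep : ∀ w, ENNReal.ofReal (exp (-spot μ b s w)) =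
      ∫⁻ x, ENNReal.ofReal (ρ x * k w x) := by
    intro w
    have hint : Integrable (k w) μ :=
      (integrable_const ((b / s) ^ n * (√(2 * π) ^ n)⁻¹)).mono' (hkm w).aestronglyMeasurable
        (.of_forall fun x => by
          rw [Real.norm_eq_abs, abs_of_nonneg (hk0 w x)]
          simp only [hk, gdens]
          refine mul_le_mul_of_nonneg_left (mul_le_of_le_one_right (by positivity)
            (exp_le_one_iff.2 ?_)) (by positivity)
          exact neg_nonpos.2 (by positivity))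
    rw [exp_neg_spot hb hs, ofReal_integral_eq_lintegral_ofReal hint (.of_forall (hk0 w))]
    conv_lhs => rw [hμ]
    rw [lintegral_withDensity_eq_lintegral_mul _ hρm.ennreal_ofReal
      (hkm w).measurable.ennreal_ofReal]
    simp [ENNReal.ofReal_mul (hρ0 _), Pi.mul_apply]
  set w := (2 : ℝ)⁻¹ • (y + z) with hw
  have hpl : (∫⁻ x, ENNReal.ofReal (ρ x * k y x)) * (∫⁻ x, ENNReal.ofReal (ρ x * k z x)) ≤
      (∫⁻ x, ENNReal.ofReal (ρ x * k w x)) ^ 2 := by
    refine pl_E (hρm.mul (hkm y).measurable).ennreal_ofReal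
      (hρm.mul (hkm z).measurable).ennreal_ofReal
      (hρm.mul (hkm w).measurable).ennreal_ofReal fun x x' => ?_
    rw [← ENNReal.ofReal_mul (mul_nonneg (hρ0 x) (hk0 y x)),
      ← ENNReal.ofReal_pow (mul_nonneg (hρ0 _) (hk0 _ _))]
    refine ENNReal.ofReal_le_ofReal ?_
    set m := (2 : ℝ)⁻¹ • (x + x') with hm
    have hρle : ρ x * ρ x' ≤ ρ m ^ 2 := by
      rcases (hρ0 x).eq_or_lt with hx | hx
      · rw [← hx, zero_mul]; positivity
      rcases (hρ0 x').eq_or_lt with hx' | hx'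
      · rw [← hx', mul_zero]; positivity
      have h := hlc.2 (show x ∈ {x | 0 < ρ x} from hx) (show x' ∈ {x | 0 < ρ x} from hx')
        (show (0 : ℝ) ≤ 2⁻¹ by norm_num) (show (0 : ℝ) ≤ 2⁻¹ by norm_num) (by norm_num)
      have hmem : m ∈ {x | 0 < ρ x} := by
        rw [hm, smul_add]
        exact hcs hx hx' (by norm_num) (by norm_num) (by norm_num)
      simp only [smul_eq_mul, ← smul_add, ← hm] at h
      rw [← exp_log hx, ← exp_log hx', ← exp_log hmem, ← exp_add, ← exp_nat_mul]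
      exact exp_le_exp.2 (by push_cast; linarith)
    have hkle : k y x * k z x' ≤ k w m ^ 2 := by
      simp only [hk]
      rw [mul_pow, pow_two, show s⁻¹ • (b • w - m) =
        (2 : ℝ)⁻¹ • (s⁻¹ • (b • y - x) + s⁻¹ • (b • z - x')) by rw [hw, hm]; module]
      set u := s⁻¹ • (b • y - x)
      set u' := s⁻¹ • (b • z - x')
      rw [mul_mul_mul_comm]
      refine mul_le_mul_of_nonneg_left ?_ (by positivity)
      simp only [gdens, mul_pow, ← exp_nat_mul]
      rw [mul_mul_mul_comm, ← exp_add, ← pow_two (√(2 * π) ^ n)⁻¹]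
      refine mul_le_mul_of_nonneg_left (exp_le_exp.2 ?_) (by positivity)
      rw [norm_smul (2 : ℝ)⁻¹ (u + u'), mul_pow, norm_add_sq_real, Real.norm_eq_abs, abs_inv,
        abs_two]
      have h := norm_sub_sq_real u u'
      have h2 := sq_nonneg ‖u - u'‖
      push_cast
      linarith
    calc ρ x * k y x * (ρ x' * k z x') = (ρ x * ρ x') * (k y x * k z x') := by ring
      _ ≤ ρ m ^ 2 * k w m ^ 2 :=
          mul_le_mul hρle hkle (mul_nonneg (hk0 _ _) (hk0 _ _)) (sq_nonneg _)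
      _ = (ρ m * k w m) ^ 2 := by ring
  rw [← hrep, ← hrep, ← hrep, ← ENNReal.ofReal_mul (exp_pos _).le,
    ← ENNReal.ofReal_pow (exp_pos _).le, ENNReal.ofReal_le_ofReal_iff (by positivity),
    ← exp_add, ← exp_nat_mul, exp_le_exp] at hpl
  push_cast at hpl
  linarith

theorem lintegral_spot [IsProbabilityMeasure μ] {b s : ℝ} (hb : 0 < b) (hs : 0 < s)
    {G : E n → ℝ≥0∞} (hG : Measurable G) :
    ∫⁻ y, ENNReal.ofReal (exp (-spot μ b s y)) * G y =
      ∫⁻ x, ∫⁻ z, G (smap b s (x, z)) ∂gam n ∂μ := by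
  set r := b / s with hr
  have hr0 : 0 < r := by positivity
  have hrep : ∀ y, ENNReal.ofReal (exp (-spot μ b s y)) * G y =
      ∫⁻ x, ENNReal.ofReal (r ^ n * gdens (s⁻¹ • (b • y - x))) * G y ∂μ := by
    intro y
    have hm : Measurable fun x : E n => ENNReal.ofReal (r ^ n * gdens (s⁻¹ • (b • y - x))) :=
      ((continuous_const.mul (continuous_gdens.comp (by fun_prop))).measurable).ennreal_ofReal
    rw [lintegral_mul_const _ hm, exp_neg_spot hb hs,
      ofReal_integral_eq_lintegral_ofReal]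
    · refine (integrable_const (r ^ n * (√(2 * π) ^ n)⁻¹)).mono'
        (continuous_const.mul (continuous_gdens.comp (by fun_prop))).aestronglyMeasurable
        (.of_forall fun x => ?_)
      rw [Real.norm_eq_abs, abs_of_nonneg (mul_nonneg (by positivity) (gdens_pos _).le)]
      refine mul_le_mul_of_nonneg_left (mul_le_of_le_one_right (by positivity)
        (exp_le_one_iff.2 (neg_nonpos.2 (by positivity)))) (by positivity)
    · exact .of_forall fun x => mul_nonneg (by positivity) (gdens_pos _).le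
  simp only [hrep]
  rw [lintegral_lintegral_swap ((((continuous_const.mul (continuous_gdens.comp
    (by fun_prop : Continuous fun p : E n × E n => s⁻¹ • (b • p.1 - p.2)))).measurable).ennreal_ofReal.mul
      (hG.comp measurable_fst)).aemeasurable)]
  refine lintegral_congr fun x => ?_
  rw [lintegral_gam]
  set H : E n → ℝ≥0∞ := fun z => ENNReal.ofReal (gdens z) * G (smap b s (x, z)) with hH
  have hHm : Measurable H :=
    continuous_gdens.measurable.ennreal_ofReal.mul
      (hG.comp ((measurable_smap b s).comp (by fun_prop)))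
  have e : ∀ y, ENNReal.ofReal (r ^ n * gdens (s⁻¹ • (b • y - x))) * G y =
      ENNReal.ofReal (r ^ n) * H (r • (y - b⁻¹ • x)) := by
    intro y
    have e1 : r • (y - b⁻¹ • x) = s⁻¹ • (b • y - x) := by
      rw [smul_sub, smul_sub, smul_smul, smul_smul, hr]
      congr 2 <;> field_simp
    have e2 : smap b s (x, s⁻¹ • (b • y - x)) = y := by
      simp only [smap, smul_smul, mul_inv_cancel₀ hs.ne', one_smul, add_sub_cancel,
        inv_mul_cancel₀ hb.ne']
    rw [e1, hH, ENNReal.ofReal_mul (by positivity), mul_assoc]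
    simp only [e2]
  simp only [e]
  rw [lintegral_const_mul' _ _ ENNReal.ofReal_ne_top,
    lintegral_sub_right_eq_self (μ := (volume : Measure (E n))) (fun y => H (r • y)) (b⁻¹ • x),
    ← lintegral_map hHm (by fun_prop : Measurable fun y : E n => r • y),
    Measure.map_addHaar_smul volume hr0.ne', lintegral_smul_measure, finrank_euclideanSpace_fin,
    smul_eq_mul, ← mul_assoc, ← ENNReal.ofReal_mul (by positivity),
    abs_of_pos (by positivity : (0 : ℝ) < (r ^ n)⁻¹), mul_inv_cancel₀ (by positivity),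
    ENNReal.ofReal_one, one_mul]

/-- The law of `(X + s G) / b` is the measure of a `Base`. -/
theorem exists_smoothed [IsProbabilityMeasure μ] {ρ : E n → ℝ} (hρm : Measurable ρ)
    (hρ0 : ∀ x, 0 ≤ ρ x) (hcs : Convex ℝ {x | 0 < ρ x})
    (hlc : ConcaveOn ℝ {x | 0 < ρ x} fun x => log (ρ x))
    (hμ : μ = volume.withDensity fun x => ENNReal.ofReal (ρ x))
    (hexp : ∃ c : ℝ, 0 < c ∧ Integrable (fun x => exp (c * ‖x‖ ^ 2)) μ)
    {b s : ℝ} (hb : 0 < b) (hs : 0 < s) :
    ∃ B : Base n, B.μ = (μ.prod (gam n)).map (smap b s) := by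
  have hcont : Continuous fun y => exp (-spot μ b s y) :=
    continuous_exp.comp (contDiff_spot hs).continuous.neg
  have hmass : ∫ y, exp (-spot μ b s y) = 1 := by
    rw [integral_eq_lintegral_of_nonneg_ae (.of_forall fun y => (exp_pos _).le)
      hcont.aestronglyMeasurable]
    have := lintegral_spot (μ := μ) hb hs (G := fun _ => 1) measurable_const
    simp only [mul_one, lintegral_const, measure_univ] at this
    rw [this]
    rfl
  have htail : ∃ α : ℝ, 0 < α ∧
      Integrable fun y => exp (α * ‖y‖ ^ 2 - spot μ b s y) := by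
    obtain ⟨c, hc, hci⟩ := hexp
    set α := min c (1 / (8 * s ^ 2)) * b ^ 2 / 2 with hα
    have hα0 : 0 < α := by
      rw [hα]; have : 0 < min c (1 / (8 * s ^ 2)) := lt_min hc (by positivity)
      positivity
    refine ⟨α, hα0, ⟨(continuous_exp.comp ((by fun_prop : Continuous fun y : E n =>
      α * ‖y‖ ^ 2).sub (contDiff_spot hs).continuous)).aestronglyMeasurable, ?_⟩⟩
    have e : ∀ y, ‖exp (α * ‖y‖ ^ 2 - spot μ b s y)‖ₑ =
        ENNReal.ofReal (exp (-spot μ b s y)) * ENNReal.ofReal (exp (α * ‖y‖ ^ 2)) := by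
      intro y
      rw [Real.enorm_of_nonneg (exp_pos _).le, ← ENNReal.ofReal_mul (exp_pos _).le, ← exp_add,
        neg_add_eq_sub]
    simp only [HasFiniteIntegral, e]
    rw [lintegral_spot hb hs (by fun_prop)]
    have hle : ∀ x z : E n, ENNReal.ofReal (exp (α * ‖smap b s (x, z)‖ ^ 2)) ≤
        ENNReal.ofReal (exp (c * ‖x‖ ^ 2)) * ENNReal.ofReal (exp (1 / 8 * ‖z‖ ^ 2)) := by
      intro x z
      rw [← ENNReal.ofReal_mul (exp_pos _).le, ← exp_add]
      refine ENNReal.ofReal_le_ofReal (exp_le_exp.2 ?_)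
      simp only [smap, norm_smul, Real.norm_eq_abs, abs_inv, abs_of_pos hb]
      have h1 : ‖x + s • z‖ ^ 2 ≤ 2 * ‖x‖ ^ 2 + 2 * (s ^ 2 * ‖z‖ ^ 2) := by
        have h := norm_add_sq_real x (s • z)
        have h' := norm_sub_sq_real x (s • z)
        have e : ‖s • z‖ ^ 2 = s ^ 2 * ‖z‖ ^ 2 := by
          rw [norm_smul, mul_pow, Real.norm_eq_abs, sq_abs]
        nlinarith [sq_nonneg ‖x - s • z‖]
      have m1 := min_le_left c (1 / (8 * s ^ 2))
      have m2 := min_le_right c (1 / (8 * s ^ 2))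
      have m0 : 0 ≤ min c (1 / (8 * s ^ 2)) := le_min hc.le (by positivity)
      calc α * (b⁻¹ * ‖x + s • z‖) ^ 2
          = min c (1 / (8 * s ^ 2)) / 2 * ‖x + s • z‖ ^ 2 := by rw [hα]; field_simp
        _ ≤ min c (1 / (8 * s ^ 2)) / 2 * (2 * ‖x‖ ^ 2 + 2 * (s ^ 2 * ‖z‖ ^ 2)) :=
            mul_le_mul_of_nonneg_left h1 (by linarith)
        _ ≤ c * ‖x‖ ^ 2 + 1 / (8 * s ^ 2) * (s ^ 2 * ‖z‖ ^ 2) := by
            have a1 := mul_le_mul_of_nonneg_right m1 (sq_nonneg ‖x‖)
            have a2 := mul_le_mul_of_nonneg_right m2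
              (show 0 ≤ s ^ 2 * ‖z‖ ^ 2 by positivity)
            linarith
        _ = _ := by field_simp
    refine lt_of_le_of_lt (lintegral_mono fun x => lintegral_mono fun z => hle x z) ?_
    have hz : ∀ x : E n, ∫⁻ z, ENNReal.ofReal (exp (c * ‖x‖ ^ 2)) *
        ENNReal.ofReal (exp (1 / 8 * ‖z‖ ^ 2)) ∂gam n = ENNReal.ofReal (exp (c * ‖x‖ ^ 2)) *
          ∫⁻ z, ENNReal.ofReal (exp (1 / 8 * ‖z‖ ^ 2)) ∂gam n := fun x =>
      lintegral_const_mul _ (by fun_prop)
    simp only [hz]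
    rw [lintegral_mul_const _ (by fun_prop)]
    have hg : Integrable (fun z : E n => exp (1 / 8 * ‖z‖ ^ 2)) (gam n) := by
      simpa using integrable_gam_exp (n := n) (show (1 / 8 : ℝ) < 1 / 2 by norm_num) 0
    exact ENNReal.mul_lt_top hci.lintegral_lt_top hg.lintegral_lt_top
  let B : Base n :=
    { V := spot μ b s
      smooth := contDiff_spot hs
      convex := convexOn_spot hρm hρ0 hcs hlc hμ hb hs
      hessBound := ⟨(b / s) ^ 2, fun x v => hess_spot_le hs x v⟩
      mass := hmass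
      tail := htail }
  refine ⟨B, Measure.ext fun t ht => ?_⟩
  rw [← lintegral_indicator_one ht, ← lintegral_indicator_one ht, B.lintegral_μ,
    lintegral_map (measurable_one.indicator ht) (measurable_smap b s),
    lintegral_prod (fun p => t.indicator (1 : E n → ℝ≥0∞) (smap b s p))
      ((measurable_one.indicator ht).comp (measurable_smap b s)).aemeasurable]
  exact lintegral_spot hb hs (measurable_one.indicator ht)

end Vale.Agent.P245.Local
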