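import Vale.Agent.P245.Local.Basics
import Vale.Agent.P047.PrekopaLeindler

/-!
# P245: infimal convolution and the Prékopa–Leindler form of property (τ)
-/

open MeasureTheory Real Set Filter
open scoped RealInnerProductSpace ENNReal Topology

noncomputable section

namespace Vale.Agent.P245.Local

variable {n : ℕ}

theorem pl_E {f g h : E n → ℝ≥0∞} (hf : Measurable f) (hg : Measurable g) (hh : Measurable h)
    (H : ∀ x y, f x * g y ≤ h ((2 : ℝ)⁻¹ • (x + y)) ^ 2) :
    (∫⁻ x, f x) * (∫⁻ x, g x) ≤ (∫⁻ x, h x) ^ 2 := by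
  have e := PiLp.volume_preserving_toLp (Fin n)
  have hm : Measurable (WithLp.toLp 2 : (Fin n → ℝ) → E n) := e.measurable
  have hint : ∀ u : E n → ℝ≥0∞, Measurable u →
      ∫⁻ x, u x = ∫⁻ x : Fin n → ℝ, u (WithLp.toLp 2 x) := fun u hu =>
    (e.lintegral_comp hu).symm
  rw [hint f hf, hint g hg, hint h hh]
  refine P047.pl_midpoint (hf.comp hm) (hg.comp hm) (hh.comp hm) fun x y => ?_
  simpa using H (WithLp.toLp 2 x) (WithLp.toLp 2 y)

/-- bounded measurable -/
def BddM (h : E n → ℝ) (K : ℝ) : Prop := Measurable h ∧ ∀ x, |h x| ≤ K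

theorem BddM.nonneg {h : E n → ℝ} {K : ℝ} (hh : BddM h K) : 0 ≤ K :=
  (abs_nonneg _).trans (hh.2 0)

/-- infimal convolution with `κ‖·‖²` -/
def Qc (κ : ℝ) (h : E n → ℝ) (x : E n) : ℝ := ⨅ y, (h y + κ * ‖x - y‖ ^ 2)

variable {κ : ℝ} {h : E n → ℝ} {K : ℝ}

theorem bddBelow_Qc (hκ : 0 ≤ κ) (hh : BddM h K) (x : E n) :
    BddBelow (range fun y => h y + κ * ‖x - y‖ ^ 2) :=
  ⟨-K, by
    rintro _ ⟨y, rfl⟩
    have h1 := (abs_le.1 (hh.2 y)).1
    have : 0 ≤ κ * ‖x - y‖ ^ 2 := by positivity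
    simp only; linarith⟩

theorem Qc_le (hκ : 0 ≤ κ) (hh : BddM h K) (x y : E n) : Qc κ h x ≤ h y + κ * ‖x - y‖ ^ 2 :=
  ciInf_le (bddBelow_Qc hκ hh x) y

theorem Qc_le_self (hκ : 0 ≤ κ) (hh : BddM h K) (x : E n) : Qc κ h x ≤ h x := by
  simpa using Qc_le hκ hh x x

theorem le_Qc {x : E n} {c : ℝ} (H : ∀ y, c ≤ h y + κ * ‖x - y‖ ^ 2) : c ≤ Qc κ h x := le_ciInf H

theorem measurable_Qc (hκ : 0 ≤ κ) (hh : BddM h K) : Measurable (Qc κ h) := by
  refine UpperSemicontinuous.measurable ?_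
  exact upperSemicontinuous_ciInf (fun x => bddBelow_Qc hκ hh x)
    fun y => (by fun_prop : Continuous fun x : E n => h y + κ * ‖x - y‖ ^ 2).upperSemicontinuous

theorem bddM_Qc (hκ : 0 ≤ κ) (hh : BddM h K) : BddM (Qc κ h) K :=
  ⟨measurable_Qc hκ hh, fun x => abs_le.2
    ⟨le_Qc fun y => by
      have h1 := (abs_le.1 (hh.2 y)).1
      have : 0 ≤ κ * ‖x - y‖ ^ 2 := by positivity
      linarith,
    (Qc_le_self hκ hh x).trans (abs_le.1 (hh.2 x)).2⟩⟩

theorem BddM.neg (hh : BddM h K) : BddM (fun x => -h x) K :=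
  ⟨hh.1.neg, fun x => by rw [abs_neg]; exact hh.2 x⟩

theorem BddM.const_mul (hh : BddM h K) (c : ℝ) : BddM (fun x => c * h x) (|c| * K) :=
  ⟨hh.1.const_mul c, fun x => by rw [abs_mul]; exact mul_le_mul_of_nonneg_left (hh.2 x) (abs_nonneg c)⟩

theorem Qc_mono {κ' : ℝ} (hκ : 0 ≤ κ) (hle : κ ≤ κ') (hh : BddM h K) (x : E n) :
    Qc κ h x ≤ Qc κ' h x :=
  le_Qc fun y => (Qc_le hκ hh x y).trans (by
    have := mul_le_mul_of_nonneg_right hle (sq_nonneg ‖x - y‖); linarith)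

theorem Qc_const_mul {c : ℝ} (hc : 0 < c) (hκ : 0 ≤ κ) (hh : BddM h K) (x : E n) :
    Qc (c * κ) (fun y => c * h y) x = c * Qc κ h x := by
  refine le_antisymm ?_ (le_Qc fun y => ?_)
  · rw [← div_le_iff₀' hc]
    exact le_Qc fun y => by
      rw [div_le_iff₀' hc]
      exact (Qc_le (mul_nonneg hc.le hκ) (hh.const_mul c) x y).trans_eq (by ring)
  · calc c * Qc κ h x ≤ c * (h y + κ * ‖x - y‖ ^ 2) :=
          mul_le_mul_of_nonneg_left (Qc_le hκ hh x y) hc.le
      _ = _ := by ring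

theorem neg_le_Qc_neg_Qc (hκ : 0 ≤ κ) (hh : BddM h K) (x : E n) :
    -h x ≤ Qc κ (fun y => -Qc κ h y) x :=
  le_Qc fun y => by
    have := Qc_le hκ hh y x
    rw [norm_sub_rev] at this
    linarith

theorem Qc_series {a b c : ℝ} (hc : 0 ≤ c) (hh : BddM h K)
    (habc : ∀ p q : ℝ, c * (p + q) ^ 2 ≤ a * p ^ 2 + b * q ^ 2) (x : E n) :
    Qc c h x ≤ Qc a (Qc b h) x :=
  le_Qc fun y => by
    rw [← sub_le_iff_le_add]
    refine le_Qc fun z => ?_
    have h1 := Qc_le hc hh x z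
    have h2 : ‖x - z‖ ≤ ‖x - y‖ + ‖y - z‖ := norm_sub_le_norm_sub_add_norm_sub x y z
    have h3 : c * ‖x - z‖ ^ 2 ≤ c * (‖x - y‖ + ‖y - z‖) ^ 2 :=
      mul_le_mul_of_nonneg_left (by gcongr) hc
    linarith [habc ‖x - y‖ ‖y - z‖]

/-- midpoint strong convexity -/
def MidConvex (U : E n → ℝ) (t : ℝ) : Prop :=
  ∀ x y, 2 * U ((2 : ℝ)⁻¹ • (x + y)) + t / 4 * ‖x - y‖ ^ 2 ≤ U x + U y

theorem midConvex_add_sq {U : E n → ℝ} (hU : ConvexOn ℝ univ U) (t : ℝ) (θ : E n) (c : ℝ) :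
    MidConvex (fun y => U y + (t / 2 * ‖y‖ ^ 2 - ⟪θ, y⟫) + c) t := fun x y => by
  have h := hU.2 (mem_univ x) (mem_univ y) (by norm_num : (0:ℝ) ≤ 2⁻¹) (by norm_num : (0:ℝ) ≤ 2⁻¹)
    (by norm_num)
  simp only [smul_eq_mul, ← smul_add] at h
  have hp : ‖(2 : ℝ)⁻¹ • (x + y)‖ ^ 2 = (‖x‖ ^ 2 + ‖y‖ ^ 2) / 2 - ‖x - y‖ ^ 2 / 4 := by
    have := parallelogram_law_with_norm ℝ x y
    rw [norm_smul, mul_pow, norm_inv, Real.norm_ofNat]; linarith
  simp only [hp, real_inner_smul_right, inner_add_right]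
  linarith

theorem integrable_bdd_comp {ν : Measure (E n)} [IsFiniteMeasure ν] (hh : BddM h K) :
    Integrable h ν :=
  Integrable.mono' (integrable_const K) hh.1.aestronglyMeasurable
    (.of_forall fun x => by simpa using hh.2 x)

theorem BddM.exp (hh : BddM h K) : BddM (fun x => Real.exp (h x)) (Real.exp K) :=
  ⟨hh.1.exp, fun x => by rw [abs_exp]; exact exp_le_exp.2 (abs_le.1 (hh.2 x)).2⟩

/-- Prékopa–Leindler gives property (τ) for a midpoint strongly convex potential. -/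
theorem tau_density {U : E n → ℝ} (hU : Measurable U) {t : ℝ} (ht : 0 ≤ t) (hm : MidConvex U t)
    [IsProbabilityMeasure (volume.withDensity fun x => ENNReal.ofReal (Real.exp (-U x)))]
    (hh : BddM h K) :
    (∫ x, Real.exp (Qc (t / 4) h x) ∂volume.withDensity fun x => ENNReal.ofReal (Real.exp (-U x)))
      * (∫ x, Real.exp (-h x) ∂volume.withDensity fun x => ENNReal.ofReal (Real.exp (-U x))) ≤ 1 := by
  have hq := bddM_Qc (by linarith : 0 ≤ t / 4) hh
  set ν := volume.withDensity fun x => ENNReal.ofReal (Real.exp (-U x)) with hν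
  have hρm : Measurable fun x => ENNReal.ofReal (Real.exp (-U x)) := hU.neg.exp.ennreal_ofReal
  have key : ∀ g : E n → ℝ, Measurable g →
      ∫⁻ x, ENNReal.ofReal (Real.exp (-U x + g x)) = ∫⁻ x, ENNReal.ofReal (Real.exp (g x)) ∂ν := by
    intro g hg
    rw [hν, lintegral_withDensity_eq_lintegral_mul _ hρm hg.exp.ennreal_ofReal]
    congr 1; funext x
    simp only [Pi.mul_apply]
    rw [← ENNReal.ofReal_mul (exp_pos _).le, ← exp_add]
  have hpl := pl_E (f := fun x => ENNReal.ofReal (Real.exp (-U x + Qc (t / 4) h x)))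
    (g := fun x => ENNReal.ofReal (Real.exp (-U x + -h x)))
    (h := fun x => ENNReal.ofReal (Real.exp (-U x + 0)))
    (hU.neg.add hq.1).exp.ennreal_ofReal (hU.neg.add hh.1.neg).exp.ennreal_ofReal
    (hU.neg.add measurable_const).exp.ennreal_ofReal fun x y => by
      rw [← ENNReal.ofReal_mul (exp_pos _).le, ← ENNReal.ofReal_pow (exp_pos _).le, ← exp_add,
        ← exp_nat_mul]
      refine ENNReal.ofReal_le_ofReal (exp_le_exp.2 ?_)
      have h1 := Qc_le (by linarith : 0 ≤ t / 4) hh x y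
      have h2 := hm x y
      push_cast
      linarith
  rw [key _ hq.1, key (fun x => -h x) hh.1.neg, key (fun _ => 0) measurable_const,
    ← ofReal_integral_eq_lintegral_ofReal (integrable_bdd_comp hq.exp)
      (.of_forall fun x => (exp_pos _).le),
    ← ofReal_integral_eq_lintegral_ofReal (integrable_bdd_comp hh.neg.exp)
      (.of_forall fun x => (exp_pos _).le), ← ENNReal.ofReal_mul
      (integral_nonneg fun x => (exp_pos _).le)] at hpl
  simp only [Real.exp_zero, ENNReal.ofReal_one, lintegral_one, measure_univ, one_pow] at hpl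
  exact ENNReal.ofReal_le_one.1 hpl

theorem exp_integral_le {ν : Measure (E n)} [IsProbabilityMeasure ν] (hh : BddM h K) :
    Real.exp (∫ x, h x ∂ν) ≤ ∫ x, Real.exp (h x) ∂ν :=
  convexOn_exp.map_integral_le continuous_exp.continuousOn isClosed_univ (by simp)
    (integrable_bdd_comp hh) (integrable_bdd_comp hh.exp)

namespace Base

variable (B : Base n)

theorem midConvex_tilt (t : ℝ) (ht : 0 ≤ t) (θ : E n) : MidConvex (B.tilt t ht θ).V t :=
  midConvex_add_sq B.convex t θ (B.Lam t θ)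

/-- (τ) for the tilted measures. -/
theorem tau_tilt {t : ℝ} (ht : 0 ≤ t) (θ : E n) (hh : BddM h K) :
    B.avg t θ (fun x => Real.exp (Qc (t / 4) h x)) * B.avg t θ (fun x => Real.exp (-h x)) ≤ 1 := by
  rw [← B.integral_tilt t ht θ, ← B.integral_tilt t ht θ]
  have : IsProbabilityMeasure (volume.withDensity fun x =>
      ENNReal.ofReal (Real.exp (-(B.tilt t ht θ).V x))) := (B.tilt t ht θ).isProbabilityMeasure_μ
  exact tau_density (B.tilt t ht θ).continuous_V.measurable ht (B.midConvex_tilt t ht θ) hh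

/-- first Jensen consequence -/
theorem tau_tilt_exp {t : ℝ} (ht : 0 ≤ t) (θ : E n) (hh : BddM h K) :
    B.avg t θ (fun x => Real.exp (Qc (t / 4) h x)) ≤ Real.exp (B.avg t θ h) := by
  have h1 := B.tau_tilt ht θ hh
  have h2 : Real.exp (-B.avg t θ h) ≤ B.avg t θ fun x => Real.exp (-h x) := by
    rw [← B.integral_tilt t ht θ, ← B.integral_tilt t ht θ, ← integral_neg]
    exact exp_integral_le hh.neg
  have h3 : 0 ≤ B.avg t θ fun x => Real.exp (Qc (t / 4) h x) := by
    rw [← B.integral_tilt t ht θ]; exact integral_nonneg fun x => (exp_pos _).le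
  have h4 := (mul_le_mul_of_nonneg_left h2 h3).trans h1
  rwa [Real.exp_neg, ← div_eq_mul_inv, div_le_one (exp_pos _)] at h4

/-- second Jensen consequence -/
theorem tau_tilt_avg {t : ℝ} (ht : 0 ≤ t) (θ : E n) (hh : BddM h K) :
    B.avg t θ (fun x => Real.exp (-h x)) ≤ Real.exp (-B.avg t θ (Qc (t / 4) h)) := by
  have h1 := B.tau_tilt ht θ hh
  have h2 : Real.exp (B.avg t θ (Qc (t / 4) h)) ≤ B.avg t θ fun x => Real.exp (Qc (t / 4) h x) := by
    rw [← B.integral_tilt t ht θ, ← B.integral_tilt t ht θ]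
    exact exp_integral_le (bddM_Qc (by linarith) hh)
  have h3 : 0 ≤ B.avg t θ fun x => Real.exp (-h x) := by
    rw [← B.integral_tilt t ht θ]; exact integral_nonneg fun x => (exp_pos _).le
  have h4 := (mul_le_mul_of_nonneg_right h2 h3).trans h1
  rw [Real.exp_neg, ← one_div, le_div_iff₀ (exp_pos _), mul_comm]
  exact h4

end Base

/-- (τ) for the Gaussian. -/
theorem tau_gam (hh : BddM h K) :
    (∫ z, Real.exp (Qc (1 / 4) h z) ∂gam n) * (∫ z, Real.exp (-h z) ∂gam n) ≤ 1 := by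
  set U : E n → ℝ := fun z => (0 : ℝ) + ((1:ℝ) / 2 * ‖z‖ ^ 2 - ⟪(0 : E n), z⟫) +
    Real.log (√(2 * π) ^ n) with hUdef
  have hU : gam n = volume.withDensity fun z => ENNReal.ofReal (Real.exp (-U z)) := by
    rw [gam]; congr 1; funext z
    congr 1
    simp only [hUdef, inner_zero_left, sub_zero, zero_add]
    rw [neg_add, exp_add, Real.exp_neg (Real.log _), exp_log (by positivity), gdens]
    ring_nf
  have : IsProbabilityMeasure (volume.withDensity fun z => ENNReal.ofReal (Real.exp (-U z))) := by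
    rw [← hU]; infer_instance
  rw [hU]
  exact tau_density (by fun_prop) zero_le_one (midConvex_add_sq (convexOn_const 0 convex_univ) 1 0 _) hh

end Vale.Agent.P245.Local
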