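import Vale.Agent.P245.Local.Jet
import Vale.Agent.P245.Local.Lich
import Vale.Agent.P245.Local.PowTrace

/-!
# P245: covariance and third moment tensor of the tilted measure
-/

open MeasureTheory Real Set Matrix
open scoped RealInnerProductSpace ENNReal

noncomputable section

namespace Vale.Agent.P245.Local

variable {n : ℕ}

namespace Base

variable (B : Base n) {t : ℝ}

/-- jet of the `(i,j)` covariance -/
def covJ (i j : Fin n) : Jet n :=
  (B.avgJ fun x => x i * x j).sub ((B.avgJ fun x => x i).mul (B.avgJ fun x => x j))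

/-- covariance matrix of `μ_{θ,t}` -/
def covM (t : ℝ) (θ : E n) : Mat n := Matrix.of fun i j => (B.covJ i j).val t θ

/-- third cumulant tensor of `μ_{θ,t}` -/
def thirdM (t : ℝ) (θ : E n) (k : Fin n) : Mat n := Matrix.of fun i j => (B.covJ i j).d1 k t θ

/-- centred coordinate -/
def zc (t : ℝ) (θ : E n) (a : Fin n) (x : E n) : ℝ := x a - B.avg t θ fun y => y a

theorem good_zc (t : ℝ) (θ : E n) (a : Fin n) : Good (B.zc t θ a) :=
  (Good.coord a).sub (Good.const _)

theorem jok_covJ (i j : Fin n) : B.JOk (B.covJ i j) :=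
  (B.jok_avgJ ((Poly.coord i).mul (Poly.coord j))).sub
    ((B.jok_avgJ (Poly.coord i)).mul (B.jok_avgJ (Poly.coord j)))

theorem covM_apply (t : ℝ) (θ : E n) (a b : Fin n) : B.covM t θ a b =
    B.avg t θ (fun x => x a * x b) - B.avg t θ (fun x => x a) * B.avg t θ fun x => x b := rfl

theorem drift_covJ (ht : 0 ≤ t) (θ : E n) (i j : Fin n) :
    B.drift (B.covJ i j) t θ = (-(B.covM t θ * B.covM t θ)) i j := by
  rw [covJ, B.drift_sub, B.drift_mul, B.drift_avgJ ht θ ((Good.coord i).mul (Good.coord j)),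
    B.drift_avgJ ht θ (Good.coord i), B.drift_avgJ ht θ (Good.coord j), zero_mul, mul_zero,
    add_zero, zero_add, zero_sub, Matrix.neg_apply, Matrix.mul_apply]
  congr 1
  refine Finset.sum_congr rfl fun k _ => ?_
  simp only [avgJ, covM_apply]
  have e : (fun x : E n => x j * x k) = fun x => x k * x j := funext fun x => mul_comm _ _
  rw [e]; ring

theorem avg_zc_mul (ht : 0 ≤ t) (θ : E n) (a : Fin n) {P : E n → ℝ} (hP : Good P) :
    B.avg t θ (fun x => B.zc t θ a x * P x) =
      B.avg t θ (fun x => x a * P x) - B.avg t θ (fun x => x a) * B.avg t θ P := by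
  simp only [zc, sub_mul]
  rw [B.avg_sub ht θ ((Good.coord a).mul hP) (hP.const_mul _), B.avg_const_mul]

theorem avg_zc (ht : 0 ≤ t) (θ : E n) (a : Fin n) : B.avg t θ (B.zc t θ a) = 0 := by
  have h := B.avg_zc_mul ht θ a (Good.const 1)
  simpa [B.avg_const ht] using h

theorem covM_eq (ht : 0 ≤ t) (θ : E n) (a b : Fin n) :
    B.covM t θ a b = B.avg t θ fun x => B.zc t θ a x * B.zc t θ b x := by
  rw [B.avg_zc_mul ht θ a (B.good_zc t θ b), B.avg_zc ht, mul_zero, sub_zero]
  have e : (fun x : E n => x a * B.zc t θ b x) = fun x => B.zc t θ b x * x a :=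
    funext fun x => mul_comm _ _
  rw [e, B.avg_zc_mul ht θ b (Good.coord a), covM_apply]
  have e2 : (fun x : E n => x b * x a) = fun x => x a * x b := funext fun x => mul_comm _ _
  rw [e2]; ring

theorem covM_symm (t : ℝ) (θ : E n) (a b : Fin n) : B.covM t θ a b = B.covM t θ b a := by
  simp only [covM_apply]
  have e2 : (fun x : E n => x b * x a) = fun x => x a * x b := funext fun x => mul_comm _ _
  rw [e2]; ring

theorem thirdM_eq (ht : 0 ≤ t) (θ : E n) (k a b : Fin n) :
    B.thirdM t θ k a b =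
      B.avg t θ fun x => B.zc t θ a x * (B.zc t θ b x * B.zc t θ k x) := by
  have g := B.good_zc t θ
  have h0 : B.avg t θ (fun x => B.zc t θ b x * B.zc t θ k x) = B.covM t θ b k :=
    (B.covM_eq ht θ b k).symm
  have h1 : B.avg t θ (fun x => x a * (B.zc t θ b x * B.zc t θ k x)) =
      B.avg t θ (fun x => x b * (x a * B.zc t θ k x)) -
        B.avg t θ (fun x => x b) * B.avg t θ fun x => x a * B.zc t θ k x := by
    rw [← B.avg_zc_mul ht θ b ((Good.coord a).mul (g k))]
    congr 1; funext x; ring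
  have h2 : B.avg t θ (fun x => x a * B.zc t θ k x) = B.covM t θ a k := by
    rw [show (fun x : E n => x a * B.zc t θ k x) = fun x => B.zc t θ k x * x a from
      funext fun x => mul_comm _ _, B.avg_zc_mul ht θ k (Good.coord a), covM_apply]
    have e : (fun x : E n => x k * x a) = fun x => x a * x k := funext fun x => mul_comm _ _
    rw [e]; ring
  have h3 : B.avg t θ (fun x => x b * (x a * B.zc t θ k x)) =
      B.avg t θ (fun x => x a * x b * x k) -
        B.avg t θ (fun x => x k) * B.avg t θ fun x => x a * x b := by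
    rw [show (fun x : E n => x b * (x a * B.zc t θ k x)) = fun x => B.zc t θ k x * (x a * x b) from
      funext fun x => by ring, B.avg_zc_mul ht θ k ((Good.coord a).mul (Good.coord b))]
    congr 2; funext x; ring
  rw [B.avg_zc_mul ht θ a ((g b).mul (g k)), h0, h1, h2, h3]
  simp only [thirdM, Matrix.of_apply, covJ, Jet.sub, Jet.mul, avgJ, covM_apply]
  ring

theorem thirdM_symm (ht : 0 ≤ t) (θ : E n) (k : Fin n) :
    (B.thirdM t θ k)ᵀ = B.thirdM t θ k := by
  ext a b
  rw [Matrix.transpose_apply, B.thirdM_eq ht, B.thirdM_eq ht]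
  congr 1; funext x; ring

theorem avg_lin_sq (ht : 0 ≤ t) (θ : E n) (w : Fin n → ℝ) :
    B.avg t θ (fun x => (∑ a, w a * B.zc t θ a x) ^ 2) = w ⬝ᵥ (B.covM t θ *ᵥ w) := by
  have g := B.good_zc t θ
  have e : (fun x => (∑ a, w a * B.zc t θ a x) ^ 2) =
      fun x => ∑ a, ∑ b, w a * w b * (B.zc t θ a x * B.zc t θ b x) := by
    funext x
    rw [pow_two, Finset.sum_mul_sum]
    exact Finset.sum_congr rfl fun a _ => Finset.sum_congr rfl fun b _ => by ring
  rw [e, B.avg_sum _ ht θ fun a _ => Good.sum _ fun b _ => ((g a).mul (g b)).const_mul _]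
  simp only [dotProduct, Matrix.mulVec, Finset.mul_sum]
  refine Finset.sum_congr rfl fun a _ => ?_
  rw [B.avg_sum _ ht θ fun b _ => ((g a).mul (g b)).const_mul _]
  refine Finset.sum_congr rfl fun b _ => ?_
  rw [B.avg_const_mul, B.covM_eq ht]; ring

theorem quad_nonneg (ht : 0 ≤ t) (θ : E n) (w : Fin n → ℝ) : 0 ≤ w ⬝ᵥ (B.covM t θ *ᵥ w) := by
  rw [← B.avg_lin_sq ht θ w]
  refine (B.avg_const ht θ 0).symm.le.trans (B.avg_mono ht θ (Good.const 0) ?_ fun x => sq_nonneg _)
  exact (Good.sum _ fun a _ => (B.good_zc t θ a).const_mul _).sq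

theorem inner_sub_avg (ht : 0 ≤ t) (θ v x : E n) :
    ⟪v, x⟫ - B.avg t θ (fun y => ⟪v, y⟫) = ∑ a, v a * B.zc t θ a x := by
  rw [inner_eq_sum, B.avg_inner ht, ← Finset.sum_sub_distrib]
  exact Finset.sum_congr rfl fun a _ => by rw [zc]; ring

theorem varAt_inner_eq (ht : 0 ≤ t) (θ v : E n) :
    B.varAt t θ (fun x => ⟪v, x⟫) = (fun a => v a) ⬝ᵥ (B.covM t θ *ᵥ fun a => v a) := by
  simp only [varAt, B.inner_sub_avg ht θ v, ← B.avg_lin_sq ht θ]

theorem avg_cs (ht : 0 ≤ t) (θ : E n) {P R : E n → ℝ} (hP : Good P) (hR : Good R) :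
    B.avg t θ (fun x => P x * R x) ^ 2 ≤
      B.avg t θ (fun x => P x ^ 2) * B.avg t θ fun x => R x ^ 2 := by
  have h : ∀ r : ℝ, 0 ≤ B.avg t θ (fun x => P x ^ 2) * (r * r)
      + 2 * B.avg t θ (fun x => P x * R x) * r + B.avg t θ fun x => R x ^ 2 := fun r => by
    have h1 := B.avg_mono ht θ (Good.const 0) ((hP.const_mul r).add hR).sq fun x => sq_nonneg _
    have e : (fun x => (r * P x + R x) ^ 2) =
        fun x => (r * r * P x ^ 2 + 2 * r * (P x * R x)) + R x ^ 2 := funext fun x => by ring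
    have g1 := (hP.sq.const_mul (r * r))
    have g2 := (hP.mul hR).const_mul (2 * r)
    rw [B.avg_const ht, e, B.avg_add ht θ (g1.add g2).1.aestronglyMeasurable (g1.add g2).2
        hR.sq.1.aestronglyMeasurable hR.sq.2,
      B.avg_add ht θ g1.1.aestronglyMeasurable g1.2 g2.1.aestronglyMeasurable g2.2,
      B.avg_const_mul, B.avg_const_mul] at h1
    linarith
  have := discrim_le_zero h
  rw [discrim] at this
  linarith

/-- The third moment tensor is controlled by the covariance. -/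
theorem third_le (ht : 0 < t) (θ : E n) {R : ℝ} (hR : 0 ≤ R)
    (hA : ∀ w : Fin n → ℝ, w ⬝ᵥ (B.covM t θ *ᵥ w) ≤ R * (w ⬝ᵥ w)) (u : Fin n → ℝ) :
    ∑ k, ∑ a, (∑ c, u c * B.thirdM t θ k c a) ^ 2
      ≤ 4 * (u ⬝ᵥ (B.covM t θ *ᵥ u)) * R * √(R / t) := by
  have g := B.good_zc t θ
  set G : Fin n → Fin n → ℝ := fun k a => ∑ c, u c * B.thirdM t θ k c a with hG
  set S := ∑ k, ∑ a, G k a ^ 2 with hS
  set y : E n → ℝ := fun x => ∑ c, u c * B.zc t θ c x
  set Q : E n → ℝ := fun x => ∑ k, ∑ a, G k a * (B.zc t θ a x * B.zc t θ k x) with hQ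
  have gy : Good y := Good.sum _ fun c _ => (g c).const_mul _
  have gQ : Good Q := Good.sum _ fun k _ => Good.sum _ fun a _ => ((g a).mul (g k)).const_mul _
  have hGeq : ∀ k a, G k a = B.avg t θ fun x => y x * (B.zc t θ a x * B.zc t θ k x) := by
    intro k a
    simp only [hG, B.thirdM_eq ht.le]
    rw [show (fun x => y x * (B.zc t θ a x * B.zc t θ k x)) =
      fun x => ∑ c, u c * (B.zc t θ c x * (B.zc t θ a x * B.zc t θ k x)) from funext fun x => by
        simp only [y, Finset.sum_mul, mul_assoc],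
      B.avg_sum _ ht.le θ fun c _ => ((g c).mul ((g a).mul (g k))).const_mul _]
    simp only [B.avg_const_mul]
  have hSeq : S = B.avg t θ fun x => y x * Q x := by
    have e : (fun x => y x * Q x) =
        fun x => ∑ k, ∑ a, G k a * (y x * (B.zc t θ a x * B.zc t θ k x)) := funext fun x => by
      simp only [hQ, Finset.mul_sum, mul_left_comm (y x)]
    rw [e, B.avg_sum _ ht.le θ fun k _ =>
      Good.sum _ fun a _ => (gy.mul ((g a).mul (g k))).const_mul _]
    refine Finset.sum_congr rfl fun k _ => ?_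
    rw [B.avg_sum _ ht.le θ fun a _ => (gy.mul ((g a).mul (g k))).const_mul _]
    refine Finset.sum_congr rfl fun a _ => ?_
    rw [B.avg_const_mul, ← hGeq, pow_two]
  have hy0 : B.avg t θ y = 0 := by
    simp only [y]
    rw [B.avg_sum _ ht.le θ fun c _ => (g c).const_mul _]
    simp [B.avg_const_mul, B.avg_zc ht.le]
  set qb := B.avg t θ Q
  have hSeq2 : S = B.avg t θ fun x => y x * (Q x - qb) := by
    rw [show (fun x => y x * (Q x - qb)) = fun x => y x * Q x - qb * y x from
      funext fun x => by ring, B.avg_sub ht.le θ (gy.mul gQ) (gy.const_mul _), B.avg_const_mul,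
      hy0, hSeq, mul_zero, sub_zero]
  -- the gradient of `Q`
  set w : Fin n → Fin n → ℝ := fun a k => G k a + G a k with hw
  set gr : Fin n → E n → ℝ := fun a x => ∑ k, w a k * B.zc t θ k x with hgr
  set gv : E n → E n := fun x => WithLp.toLp 2 fun a => gr a x with hgv
  have hd : ∀ x, HasFDerivAt Q (innerSL ℝ (gv x)) x := by
    intro x
    have hz : ∀ a, HasFDerivAt (B.zc t θ a) (EuclideanSpace.proj a : E n →L[ℝ] ℝ) x := fun a =>
      ((EuclideanSpace.proj a : E n →L[ℝ] ℝ).hasFDerivAt).sub_const _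
    refine (HasFDerivAt.fun_sum fun k _ => HasFDerivAt.fun_sum fun a _ =>
      ((hz a).mul (hz k)).const_mul (G k a)).congr_fderiv ?_
    ext v
    simp only [innerSL_apply_apply, inner_eq_sum, hgv, hgr, hw, ContinuousLinearMap.coe_sum', Finset.sum_apply,
      ContinuousLinearMap.smul_apply, ContinuousLinearMap.add_apply, PiLp.proj_apply,
      smul_eq_mul, add_mul, mul_add, Finset.sum_mul, Finset.sum_add_distrib]
    rw [add_comm (∑ a, ∑ k, G k a * B.zc t θ k x * v a)]
    congr 1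
    · exact Finset.sum_congr rfl fun k _ => Finset.sum_congr rfl fun a _ => by ring
    · rw [Finset.sum_comm]
      exact Finset.sum_congr rfl fun k _ => Finset.sum_congr rfl fun a _ => by ring
  have hn : ∀ x, ‖fderiv ℝ Q x‖ ^ 2 = ∑ a, gr a x ^ 2 := fun x => by
    rw [(hd x).fderiv, innerSL_apply_norm, EuclideanSpace.norm_sq_eq]
    simp [hgv, Real.norm_eq_abs, sq_abs]
  have gg : ∀ a, Good (gr a) := fun a => Good.sum _ fun k _ => (g k).const_mul _
  have hcd : ContDiff ℝ 1 Q := by simp only [hQ, zc]; fun_prop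
  have gn : ExpGrowth fun x => ‖fderiv ℝ Q x‖ := by
    refine ((Good.const (n := n) 1).add (Good.sum Finset.univ fun a _ => (gg a).sq)).2.of_abs_le
      fun x => ?_
    rw [← hn, abs_of_nonneg (norm_nonneg _), abs_of_nonneg (by positivity)]
    nlinarith [sq_nonneg (‖fderiv ℝ Q x‖ - 1), norm_nonneg (fderiv ℝ Q x)]
  have hcov : ∀ v : E n, ∫ x, (⟪v, x⟫ - ∫ y, ⟪v, y⟫ ∂(B.tilt t ht.le θ).μ) ^ 2
      ∂(B.tilt t ht.le θ).μ ≤ R * ‖v‖ ^ 2 := fun v => by
    simp only [integral_tilt]
    refine le_of_eq_of_le (B.varAt_inner_eq ht.le θ v) ((hA _).trans_eq ?_)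
    rw [EuclideanSpace.norm_sq_eq]
    simp [dotProduct, Real.norm_eq_abs, sq_abs, pow_two]
  have hP := (B.tilt t ht.le θ).poincare_cov ht
    (by simpa using B.strong_tilt B.strong_zero t ht.le θ) hR hcov hcd gQ.2 gn
  simp only [integral_tilt, hn] at hP
  rw [B.avg_sum _ ht.le θ fun a _ => (gg a).sq] at hP
  have hgb : ∑ a, B.avg t θ (fun x => gr a x ^ 2) ≤ R * (4 * S) := by
    calc _ = ∑ a, w a ⬝ᵥ (B.covM t θ *ᵥ w a) :=
          Finset.sum_congr rfl fun a _ => B.avg_lin_sq ht.le θ (w a)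
      _ ≤ ∑ a, R * (w a ⬝ᵥ w a) := Finset.sum_le_sum fun a _ => hA _
      _ = R * ∑ a, ∑ k, (G k a + G a k) ^ 2 := by
          rw [← Finset.mul_sum]; simp [dotProduct, hw, pow_two]
      _ ≤ R * ∑ a, ∑ k, (2 * G k a ^ 2 + 2 * G a k ^ 2) := by
          gcongr with a _ k _
          nlinarith [sq_nonneg (G k a - G a k)]
      _ = R * (4 * S) := by
          simp only [Finset.sum_add_distrib, ← Finset.mul_sum, hS]
          rw [Finset.sum_comm (f := fun a k => G k a ^ 2)]
          ring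
  have h1 := B.avg_cs ht.le θ gy (gQ.sub (Good.const qb))
  rw [← hSeq2] at h1
  rw [show B.avg t θ (fun x => y x ^ 2) = u ⬝ᵥ (B.covM t θ *ᵥ u) from B.avg_lin_sq ht.le θ u] at h1
  have h2 : B.avg t θ (fun x => (Q x - qb) ^ 2) ≤ √(R / t) * (R * (4 * S)) :=
    hP.trans (mul_le_mul_of_nonneg_left hgb (sqrt_nonneg _))
  have h3 := h1.trans (mul_le_mul_of_nonneg_left h2 (B.quad_nonneg ht.le θ u))
  change S ≤ _
  rcases (show 0 ≤ S from Finset.sum_nonneg fun k _ => Finset.sum_nonneg fun a _ =>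
    sq_nonneg _).eq_or_lt with h | h
  · rw [← h]; have := B.quad_nonneg ht.le θ u; positivity
  · refine le_of_mul_le_mul_right ?_ h
    calc S * S = S ^ 2 := (pow_two S).symm
      _ ≤ _ := h3
      _ = _ := by ring

end Base

/-- diagonalisation of a symmetric matrix -/
theorem exists_diag (A : Mat n) (hA : ∀ a b, A a b = A b a) :
    ∃ (U : Mat n) (l : Fin n → ℝ), U * Uᵀ = 1 ∧ Uᵀ * U = 1 ∧ conjU U A = diagonal l := by
  have h : A.IsHermitian := by ext a b; simp [hA a b]
  set U : Mat n := (h.eigenvectorUnitary : Mat n)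
  have e : star U = Uᵀ := by
    rw [Matrix.star_eq_conjTranspose, Matrix.conjTranspose_eq_transpose_of_trivial]
  refine ⟨U, h.eigenvalues, ?_, ?_, ?_⟩
  · rw [← e]; exact Unitary.coe_mul_star_self h.eigenvectorUnitary
  · rw [← e]; exact Unitary.coe_star_mul_self h.eigenvectorUnitary
  · have h2 := h.conjStarAlgAut_star_eigenvectorUnitary
    rw [Unitary.conjStarAlgAut_star_apply] at h2
    rw [conjU, ← e, h2]; rfl

theorem conjU_diag_apply (U A : Mat n) (i : Fin n) :
    conjU U A i i = (fun a => U a i) ⬝ᵥ (A *ᵥ fun a => U a i) := by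
  simp only [conjU, Matrix.mul_apply, Matrix.transpose_apply, dotProduct, Matrix.mulVec,
    Finset.sum_mul, Finset.mul_sum]
  rw [Finset.sum_comm]
  simp only [mul_assoc]

theorem quad_le_of_diag {U A : Mat n} {l : Fin n → ℝ} (hU : U * Uᵀ = 1)
    (hA : conjU U A = diagonal l) {R : ℝ} (hl : ∀ i, l i ≤ R) (w : Fin n → ℝ) :
    w ⬝ᵥ (A *ᵥ w) ≤ R * (w ⬝ᵥ w) := by
  set v := Uᵀ *ᵥ w with hv
  have hw : U *ᵥ v = w := by rw [hv, Matrix.mulVec_mulVec, hU, Matrix.one_mulVec]
  have hdot : ∀ y, (U *ᵥ v) ⬝ᵥ y = v ⬝ᵥ (Uᵀ *ᵥ y) := fun y => by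
    rw [dotProduct_comm, Matrix.dotProduct_mulVec, Matrix.mulVec_transpose, dotProduct_comm]
  have e1 : w ⬝ᵥ (A *ᵥ w) = v ⬝ᵥ (diagonal l *ᵥ v) := by
    rw [← hA, conjU, ← hw, hdot, Matrix.mulVec_mulVec, Matrix.mulVec_mulVec, Matrix.mul_assoc]
  have e2 : w ⬝ᵥ w = v ⬝ᵥ v := by
    nth_rewrite 1 [← hw]
    rw [hdot]
  rw [e1, e2]
  simp only [dotProduct, Matrix.mulVec_diagonal, Finset.mul_sum]
  exact Finset.sum_le_sum fun i _ => by nlinarith [hl i, mul_self_nonneg (v i)]

end Vale.Agent.P245.Local
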