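import Vale.Agent.P245.Local.Chain
import Vale.Agent.P245.Local.Smoothing

/-!
# P245: the window lemma

`norm_window`: the localisation parameter has `‖θ‖² ≤ 16 T n` with probability at least `3 / 4`.
`good_of_cov`: at `T ≤ c n^{-1/3}`, a point with bounded covariance and `‖g‖² ≤ 16 T n` is good.
-/

open MeasureTheory Real Set Filter
open scoped RealInnerProductSpace ENNReal Topology

noncomputable section

namespace Vale.Agent.P245.Local

variable {n : ℕ}

/-! ### moments -/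

theorem integral_gam_exp_sq {c : ℝ} (hc : c < 1 / 2) :
    ∫ z : E n, exp (c * ‖z‖ ^ 2) ∂gam n = (1 / (1 - 2 * c)) ^ ((n : ℝ) / 2) := by
  rw [integral_gam]
  have h1 : ∀ z : E n, gdens z * exp (c * ‖z‖ ^ 2) =
      (√(2 * π) ^ n)⁻¹ * exp (-(1 / 2 - c) * ‖z‖ ^ 2) := fun z => by
    rw [gdens, mul_assoc, ← exp_add]; ring_nf
  simp only [h1, integral_const_mul]
  rw [GaussianFourier.integral_rexp_neg_mul_sq_norm (V := E n) (b := 1 / 2 - c) (by linarith),
    finrank_euclideanSpace_fin]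
  have hc' : 0 < 1 - 2 * c := by linarith
  have e : √(2 * π) ^ n = (2 * π) ^ ((n : ℝ) / 2) := by
    rw [sqrt_eq_rpow, ← rpow_natCast, ← rpow_mul (by positivity)]
    congr 1; ring
  rw [e, ← inv_rpow (by positivity), ← mul_rpow (by positivity)
    (div_nonneg pi_pos.le (by linarith))]
  congr 1
  field_simp

theorem gam_second_moment (hn : 1 ≤ n) :
    Integrable (fun z : E n => ‖z‖ ^ 2) (gam n) ∧ ∫ z : E n, ‖z‖ ^ 2 ∂gam n ≤ 5 / 4 * n := by
  have hn' : (1 : ℝ) ≤ n := by exact_mod_cast hn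
  set c : ℝ := 1 / (16 * n) with hc
  have hc0 : 0 < c := by positivity
  have hc16 : c ≤ 1 / 16 := by rw [hc, div_le_div_iff₀ (by positivity) (by norm_num)]; linarith
  have he : Integrable (fun z : E n => exp (c * ‖z‖ ^ 2)) (gam n) := by
    simpa using integrable_gam_exp (n := n) (show c < 1 / 2 by linarith) 0
  have hpt : ∀ z : E n, c * ‖z‖ ^ 2 ≤ exp (c * ‖z‖ ^ 2) - 1 := fun z => by
    linarith [add_one_le_exp (c * ‖z‖ ^ 2)]
  have hi : Integrable (fun z : E n => ‖z‖ ^ 2) (gam n) := by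
    refine (he.const_mul c⁻¹).mono' (by fun_prop) (.of_forall fun z => ?_)
    rw [norm_eq_abs, abs_of_nonneg (sq_nonneg _), inv_mul_eq_div, le_div_iff₀ hc0]
    linarith [hpt z]
  refine ⟨hi, ?_⟩
  have h2 := integral_mono (hi.const_mul c) (he.sub (integrable_const 1)) hpt
  rw [integral_const_mul, integral_sub' he (integrable_const 1), integral_const, probReal_univ,
    one_smul, integral_gam_exp_sq (by linarith)] at h2
  have hd : 0 < 1 - 2 * c := by linarith
  have hy : (n : ℝ) * c / (1 - 2 * c) ≤ 1 / 14 := by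
    rw [div_le_iff₀ hd, hc]
    have : (n : ℝ) * (1 / (16 * n)) = 1 / 16 := by field_simp
    rw [this]; linarith
  have hb : (1 / (1 - 2 * c)) ^ ((n : ℝ) / 2) ≤ exp (1 / 14) := by
    rw [rpow_def_of_pos (by positivity)]
    refine exp_le_exp.2 (le_trans ?_ hy)
    have := Real.log_le_sub_one_of_pos (show (0 : ℝ) < 1 / (1 - 2 * c) by positivity)
    have e : (1 / (1 - 2 * c) - 1) * ((n : ℝ) / 2) = n * c / (1 - 2 * c) := by field_simp; ring
    rw [← e]
    exact mul_le_mul_of_nonneg_right this (by positivity)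
  have he14 : exp (1 / 14 : ℝ) ≤ 1 + 5 / 64 := by
    refine (Real.exp_bound_div_one_sub_of_interval (by norm_num) (by norm_num)).trans ?_
    norm_num
  have h3 : c * ∫ z : E n, ‖z‖ ^ 2 ∂gam n ≤ 5 / 64 := by linarith
  rw [hc, div_mul_eq_mul_div, one_mul, div_le_iff₀ (by positivity)] at h3
  linarith

namespace Base

variable (B : Base n)

theorem integrable_exp_inner_sq (hS : B.Subg) {θ : E n} (hθ : ‖θ‖ = 1) :
    Integrable (fun x => exp (⟪x, θ⟫ ^ 2)) B.μ ∧ ∫ x, exp (⟪x, θ⟫ ^ 2) ∂B.μ ≤ 2 := by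
  have hi : Integrable (fun x => exp (⟪x, θ⟫ ^ 2)) B.μ := by
    refine ⟨(by fun_prop : Continuous fun x : E n => exp (⟪x, θ⟫ ^ 2)).aestronglyMeasurable, ?_⟩
    simp only [HasFiniteIntegral, Real.enorm_of_nonneg (exp_pos _).le]
    exact lt_of_le_of_lt (hS θ hθ) ENNReal.ofNat_lt_top
  refine ⟨hi, ?_⟩
  have h := hS θ hθ
  rw [← ofReal_integral_eq_lintegral_ofReal hi (.of_forall fun x => (exp_pos _).le)] at h
  exact (ENNReal.ofReal_le_ofReal_iff (by norm_num)).1 (h.trans_eq (ENNReal.ofReal_ofNat 2).symm)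

theorem second_moment (hS : B.Subg) : ∫ x, ‖x‖ ^ 2 ∂B.μ ≤ 3 / 4 * n := by
  have h1 : ∀ i : Fin n, Integrable (fun x : E n => x i ^ 2) B.μ ∧
      ∫ x, x i ^ 2 ∂B.μ ≤ 3 / 4 := by
    intro i
    set θ : E n := EuclideanSpace.single i 1 with hθ
    have hx : ∀ x : E n, ⟪x, θ⟫ = x i := fun x => by simp [hθ, EuclideanSpace.inner_single_right]
    obtain ⟨hi, hle⟩ := B.integrable_exp_inner_sq hS (θ := θ) (by simp [hθ])
    have hi2 : Integrable (fun x => ⟪x, θ⟫ ^ 2) B.μ :=
      B.integrable_of_growth (by fun_prop)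
        ((expGrowth_inner θ).sq.of_abs_le fun x => by rw [real_inner_comm])
    have hpt : ∀ x : E n, 7 / 4 * ⟪x, θ⟫ ^ 2 + (1 - 9 / 32) ≤ exp (⟪x, θ⟫ ^ 2) := fun x => by
      have h := Real.quadratic_le_exp_of_nonneg (sq_nonneg ⟪x, θ⟫)
      nlinarith [sq_nonneg (⟪x, θ⟫ ^ 2 - 3 / 4)]
    have h2 := integral_mono ((hi2.const_mul (7 / 4)).add (integrable_const _)) hi hpt
    rw [integral_add' (hi2.const_mul _) (integrable_const _), integral_const_mul, integral_const,
      probReal_univ, one_smul] at h2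
    simp only [hx] at hi2 h2 hle
    exact ⟨hi2, by linarith⟩
  simp only [EuclideanSpace.real_norm_sq_eq]
  rw [integral_finsetSum _ fun i _ => (h1 i).1]
  refine (Finset.sum_le_card_nsmul _ _ _ fun i _ => (h1 i).2).trans_eq ?_
  rw [Finset.card_univ, Fintype.card_fin, nsmul_eq_mul]; ring

/-- Markov's inequality for the norm of the localisation parameter. -/
theorem norm_window (hn : 1 ≤ n) (hS : B.Subg) {T : ℝ} (hT : 0 < T) (hT1 : T ≤ 1) :
    B.qmeas T {θ | 16 * T * n < ‖θ‖ ^ 2} ≤ 1 / 4 := by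
  have hn' : (0 : ℝ) < n := by exact_mod_cast hn
  set F : E n → ℝ≥0∞ := fun θ => ENNReal.ofReal (‖θ‖ ^ 2) with hF
  have hFm : Measurable F := by fun_prop
  obtain ⟨hgi, hg⟩ := gam_second_moment (n := n) hn
  have hxi : Integrable (fun x => ‖x‖ ^ 2) B.μ :=
    B.integrable_of_growth (by fun_prop) expGrowth_norm.sq
  have hint : ∫⁻ θ, F θ ∂B.qmeas T ≤ ENNReal.ofReal (4 * T * n) := by
    rw [qmeas, lintegral_map hFm (measurable_locMap T)]
    have hi1 : Integrable (fun p : E n × E n => 2 * T ^ 2 * ‖p.1‖ ^ 2) (B.μ.prod (gam n)) :=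
      (hxi.const_mul _).comp_fst (gam n)
    have hi2 : Integrable (fun p : E n × E n => 2 * T * ‖p.2‖ ^ 2) (B.μ.prod (gam n)) :=
      (hgi.const_mul _).comp_snd B.μ
    refine (lintegral_mono (g := fun p : E n × E n =>
      ENNReal.ofReal (2 * T ^ 2 * ‖p.1‖ ^ 2 + 2 * T * ‖p.2‖ ^ 2)) fun p => ?_).trans ?_
    · refine ENNReal.ofReal_le_ofReal ?_
      have h := locMap_sub (n := n) hT.le p.1 0 p.2 0
      simpa [locMap] using h
    rw [← ofReal_integral_eq_lintegral_ofReal (f := fun p : E n × E n =>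
        2 * T ^ 2 * ‖p.1‖ ^ 2 + 2 * T * ‖p.2‖ ^ 2) (hi1.add hi2)
      (.of_forall fun p => by positivity)]
    refine ENNReal.ofReal_le_ofReal ?_
    rw [integral_add hi1 hi2, integral_prod _ hi1, integral_prod _ hi2]
    simp only [integral_const, probReal_univ, one_smul, integral_const_mul]
    have h1 := B.second_moment hS
    have hTT : T ^ 2 ≤ T := by nlinarith
    have h0 : 0 ≤ ∫ x, ‖x‖ ^ 2 ∂B.μ := integral_nonneg fun x => sq_nonneg _
    nlinarith [mul_le_mul_of_nonneg_left hg (by positivity : (0:ℝ) ≤ 2 * T),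
      mul_le_mul hTT h1 h0 hT.le]
  have hk : ENNReal.ofReal (16 * T * n) ≠ 0 := (ENNReal.ofReal_pos.2 (by positivity)).ne'
  refine le_trans (measure_mono (t := {θ | ENNReal.ofReal (16 * T * n) ≤ F θ})
    fun θ (hθ : _ < _) => ENNReal.ofReal_le_ofReal hθ.le) ?_
  refine (meas_ge_le_lintegral_div hFm.aemeasurable hk ENNReal.ofReal_ne_top).trans ?_
  refine (ENNReal.div_le_div_right hint _).trans_eq ?_
  rw [← ENNReal.ofReal_div_of_pos (by positivity), show 4 * T * n / (16 * T * n) = (1 / 4 : ℝ) by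
    field_simp; norm_num, ENNReal.ofReal_div_of_pos (by norm_num)]
  simp

/-! ### the Bregman divergence -/

theorem exp_breg {T : ℝ} (hT : 0 ≤ T) (g u : E n) :
    exp (B.breg T g u) = B.avg T g fun x => exp (⟪u, x⟫ - ⟪B.mean T g, u⟫) := by
  have e : (fun x => exp (⟪u, x⟫ - ⟪B.mean T g, u⟫)) =
      fun x => exp (-⟪B.mean T g, u⟫) * exp ⟪u, x⟫ := funext fun x => by rw [← exp_add]; ring_nf
  have e2 : B.num T g (fun x => exp ⟪u, x⟫) = B.Z T (g + u) := by
    simp only [num, Z, W, ← exp_add, inner_add_left]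
    congr 1; funext x; ring_nf
  rw [e, avg_const_mul, avg, e2, breg, sub_eq_add_neg _ ⟪B.mean T g, u⟫, exp_add, exp_sub, Lam,
    Lam, exp_log (B.Z_pos hT _), exp_log (B.Z_pos hT _)]
  ring

theorem breg_nonneg {T : ℝ} (hT : 0 ≤ T) (g u : E n) : 0 ≤ B.breg T g u := by
  have h1 : (1 : ℝ) ≤ exp (B.breg T g u) := by
    rw [B.exp_breg hT, ← B.integral_tilt T hT g]
    set B' := B.tilt T hT g
    set c := ⟪B.mean T g, u⟫ with hc
    have hil : Integrable (fun x => ⟪u, x⟫) B'.μ :=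
      B'.integrable_of_growth (by fun_prop) (expGrowth_inner u)
    have hie : Integrable (fun x => exp (⟪u, x⟫ - c)) B'.μ :=
      B'.integrable_of_growth (by fun_prop)
        (((expGrowth_exp_inner u).const_mul (exp (-c))).of_abs_le fun x => by
          rw [← exp_add]; ring_nf; rfl)
    have h2 := integral_mono ((hil.sub (integrable_const c)).add (integrable_const 1)) hie
      fun x => by
        simpa using add_one_le_exp (⟪u, x⟫ - c)
    rw [integral_add' (hil.sub (integrable_const c)) (integrable_const 1),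
      integral_sub' hil (integrable_const c), integral_const, integral_const, probReal_univ,
      one_smul, one_smul, B.integral_tilt T hT g, ← B.inner_mean hT g u, ← hc] at h2
    linarith
  exact Real.one_le_exp_iff.1 h1

theorem Lam_le (hS : B.Subg) {T : ℝ} (hT : 0 ≤ T) (θ : E n) :
    B.Lam T θ ≤ ‖θ‖ ^ 2 / 4 + 1 := by
  rw [Lam, Real.log_le_iff_le_exp (B.Z_pos hT θ)]
  rcases eq_or_ne θ 0 with rfl | hθ
  · refine (integral_mono (B.integrable_W hT 0) (integrable_const 1) fun x => ?_).trans ?_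
    · simp only [W, inner_zero_left, zero_sub]
      exact exp_le_one_iff.2 (neg_nonpos.2 (by positivity))
    · simp
  set v : E n := ‖θ‖⁻¹ • θ with hv
  have hv1 : ‖v‖ = 1 := by simp [hv, norm_smul, hθ]
  obtain ⟨hi, hle⟩ := B.integrable_exp_inner_sq hS hv1
  calc B.Z T θ ≤ ∫ x, exp (‖θ‖ ^ 2 / 4) * exp (⟪x, v⟫ ^ 2) ∂B.μ := by
        refine integral_mono (B.integrable_W hT θ) (hi.const_mul _) fun x => ?_
        rw [← exp_add, W]
        refine exp_le_exp.2 ?_
        have e : ⟪θ, x⟫ = ‖θ‖ * ⟪x, v⟫ := by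
          rw [hv, real_inner_smul_right, real_inner_comm θ x, mul_inv_cancel_left₀ (by simpa using hθ)]
        have : 0 ≤ T / 2 * ‖x‖ ^ 2 := by positivity
        nlinarith [sq_nonneg (‖θ‖ / 2 - ⟪x, v⟫)]
    _ ≤ exp (‖θ‖ ^ 2 / 4) * exp 1 := by
        rw [integral_const_mul]
        exact mul_le_mul_of_nonneg_left (hle.trans (by linarith [exp_one_gt_d9])) (exp_pos _).le
    _ = _ := (exp_add _ _).symm

theorem le_Lam (hS : B.Subg) (hC : B.Centred) {T : ℝ} (hT : 0 ≤ T) (g : E n) :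
    -(3 / 8) * (T * n) ≤ B.Lam T g := by
  rw [Lam, Real.le_log_iff_exp_le (B.Z_pos hT g)]
  have hl : Integrable (fun x => ⟪g, x⟫) B.μ :=
    B.integrable_of_growth (by fun_prop) (expGrowth_inner g)
  have hq : Integrable (fun x => T / 2 * ‖x‖ ^ 2) B.μ :=
    (B.integrable_of_growth (by fun_prop) expGrowth_norm.sq).const_mul _
  have hj : exp (∫ x, (⟪g, x⟫ - T / 2 * ‖x‖ ^ 2) ∂B.μ) ≤
      ∫ x, exp (⟪g, x⟫ - T / 2 * ‖x‖ ^ 2) ∂B.μ :=
    convexOn_exp.map_integral_le continuous_exp.continuousOn isClosed_univ (by simp)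
      (hl.sub hq) (B.integrable_W hT g)
  refine le_trans (exp_le_exp.2 ?_) hj
  rw [integral_sub hl hq, integral_const_mul, hC g]
  nlinarith [B.second_moment hS]

theorem breg_zero (T : ℝ) (g : E n) : B.breg T g 0 = 0 := by simp [breg]

theorem convexOn_breg {T : ℝ} (hT : 0 < T) (g : E n) : ConvexOn ℝ univ (B.breg T g) := by
  have hc := B.continuous_Lam hT.le
  have hcont : Continuous (B.breg T g) := by
    unfold breg; fun_prop
  refine convexOn_of_mid hcont fun x y => ?_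
  have h := log_part_mid (μ := B.μ) hT (g + x) (g + y)
  rw [show (2 : ℝ)⁻¹ • (g + x + (g + y)) = g + (2 : ℝ)⁻¹ • (x + y) by module] at h
  simp only [breg, Lam, Z, part] at h ⊢
  rw [inner_smul_right, inner_add_right]
  linarith

theorem breg_large (hS : B.Subg) (hC : B.Centred) {T m : ℝ} (hT : 0 < T) {g : E n}
    (hg : ‖g‖ ^ 2 ≤ 16 * T * n) (hm : T * n ≤ m) (hm1 : 1 ≤ m) (u : E n) :
    B.breg T g u ≤ 11 * m + ‖u‖ ^ 2 / 2 := by
  have h0 := B.breg_nonneg hT.le g (-u)
  have hsum : B.breg T g u + B.breg T g (-u) =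
      B.Lam T (g + u) + B.Lam T (g - u) - 2 * B.Lam T g := by
    simp only [breg, inner_neg_right, sub_eq_add_neg]; ring
  have h1 := B.Lam_le hS hT.le (g + u)
  have h2 := B.Lam_le hS hT.le (g - u)
  have h3 := B.le_Lam hS hC hT.le g
  have hp := parallelogram_law_with_norm ℝ g u
  nlinarith

end Base

/-! ### Borell's lemma for the tilted measures -/

/-- Prékopa–Leindler for three sets. -/
theorem Base.pl_sets (B : Base n) {A C D : Set (E n)} (hA : MeasurableSet A) (hC : MeasurableSet C)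
    (hD : MeasurableSet D) (h : ∀ x ∈ A, ∀ y ∈ C, (2 : ℝ)⁻¹ • (x + y) ∈ D) :
    B.μ A * B.μ C ≤ B.μ D ^ 2 := by
  have hm : Measurable fun x => ENNReal.ofReal (B.rho x) := by fun_prop
  simp only [Base.μ, withDensity_apply _ hA, withDensity_apply _ hC, withDensity_apply _ hD,
    ← lintegral_indicator hA, ← lintegral_indicator hC, ← lintegral_indicator hD]
  refine pl_E (hm.indicator hA) (hm.indicator hC) (hm.indicator hD) fun x y => ?_
  by_cases hx : x ∈ A
  swap; · simp [hx]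
  by_cases hy : y ∈ C
  swap; · simp [hy]
  rw [indicator_of_mem hx, indicator_of_mem hy, indicator_of_mem (h x hx y hy),
    ← ENNReal.ofReal_mul (B.rho_pos x).le, ← ENNReal.ofReal_pow (B.rho_pos _).le, Base.rho,
    Base.rho, Base.rho, ← exp_add, ← exp_nat_mul]
  refine ENNReal.ofReal_le_ofReal (exp_le_exp.2 ?_)
  have := B.convex.2 (mem_univ x) (mem_univ y) (by norm_num : (0:ℝ) ≤ 2⁻¹)
    (by norm_num : (0:ℝ) ≤ 2⁻¹) (by norm_num)
  simp only [smul_eq_mul, ← smul_add] at this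
  push_cast
  linarith

/-- An exponential moment of a linear function with small variance. -/
theorem Base.borell_exp (B : Base n) (u : E n) (c : ℝ) {r : ℝ} (hr : 0 < r)
    (hvar : 4 * ∫ x, (⟪u, x⟫ - c) ^ 2 ∂B.μ ≤ r ^ 2) :
    ∫⁻ x, ENNReal.ofReal (exp (|⟪u, x⟫ - c| / r / 10)) ∂B.μ ≤ 3 := by
  set Y : E n → ℝ := fun x => |⟪u, x⟫ - c| / r with hY
  have hYc : Continuous Y := by simp only [hY]; fun_prop
  have hY0 : ∀ x, 0 ≤ Y x := fun x => by simp only [hY]; positivity
  set S : ℕ → Set (E n) := fun k => {x | (k : ℝ) < Y x} with hS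
  have hSm : ∀ k, MeasurableSet (S k) := fun k => measurableSet_lt measurable_const hYc.measurable
  set p : ℕ → ℝ := fun k => B.μ.real (S k) with hp
  have hp0 : ∀ k, 0 ≤ p k := fun k => measureReal_nonneg
  have hsq : Integrable (fun x => (⟪u, x⟫ - c) ^ 2) B.μ :=
    B.integrable_of_growth (by fun_prop) ((expGrowth_inner u).sub (expGrowth_const c)).sq
  have hp1 : p 1 ≤ 1 / 4 := by
    have h1 : ∀ x, (S 1).indicator (fun _ => r ^ 2) x ≤ (⟪u, x⟫ - c) ^ 2 := fun x => by
      by_cases hx : x ∈ S 1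
      · rw [indicator_of_mem hx, ← sq_abs (⟪u, x⟫ - c)]
        have : 1 < |⟪u, x⟫ - c| / r := by simpa [hS, hY] using hx
        rw [one_lt_div hr] at this
        exact pow_le_pow_left₀ hr.le this.le 2
      · rw [indicator_of_notMem hx]; exact sq_nonneg _
    have h2 := integral_mono ((integrable_const _).indicator (hSm 1)) hsq h1
    rw [integral_indicator (hSm 1), setIntegral_const, smul_eq_mul] at h2
    simp only [hp]
    nlinarith [pow_pos hr 2]
  -- one step of Borell's lemma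
  have hstep : ∀ k, p (2 * k + 1) * (3 / 4) ≤ p k ^ 2 := by
    intro k
    have hmid : ∀ x ∈ S (2 * k + 1), ∀ y ∈ (S 1)ᶜ, (2 : ℝ)⁻¹ • (x + y) ∈ S k := by
      intro x hx y hy
      simp only [hS, Set.mem_compl_iff, Set.mem_ofPred_eq, not_lt, Nat.cast_one, hY] at hx hy ⊢
      push_cast at hx
      rw [lt_div_iff₀ hr] at hx ⊢
      rw [div_le_one hr] at hy
      have hsub : |⟪u, x⟫ - c| ≤
          2 * |⟪u, (2 : ℝ)⁻¹ • (x + y)⟫ - c| + |⟪u, y⟫ - c| := by
        rw [real_inner_smul_right, inner_add_right]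
        have h := abs_sub (⟪u, x⟫ - c + (⟪u, y⟫ - c)) (⟪u, y⟫ - c)
        rw [add_sub_cancel_right, show ⟪u, x⟫ - c + (⟪u, y⟫ - c) =
          2 * ((2 : ℝ)⁻¹ * (⟪u, x⟫ + ⟪u, y⟫) - c) by ring, abs_mul, abs_two] at h
        exact h
      linarith
    have h := ENNReal.toReal_mono (by finiteness)
      (B.pl_sets (hSm _) (hSm 1).compl (hSm k) hmid)
    rw [ENNReal.toReal_mul, ENNReal.toReal_pow] at h
    have hcompl : (B.μ (S 1)ᶜ).toReal = 1 - p 1 := probReal_compl_eq_one_sub (hSm 1)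
    rw [hcompl] at h
    have hk := hp0 (2 * k + 1)
    simp only [hp, measureReal_def] at h hp1 hk ⊢
    nlinarith
  -- levels `k_j = 2^(j+1) - 1`
  set L : ℕ → ℕ := fun j => 2 ^ (j + 1) - 1 with hL
  have hLsucc : ∀ j, L (j + 1) = 2 * L j + 1 := fun j => by
    simp only [hL, pow_succ]
    have := Nat.one_le_two_pow (n := j)
    omega
  have hpj : ∀ j, p (L j) ≤ 3 / 4 * (1 / 3) ^ 2 ^ j := by
    intro j
    induction j with
    | zero =>
      simp only [hL, zero_add, pow_one, pow_zero]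
      norm_num
      exact hp1.trans (by norm_num)
    | succ j ih =>
      rw [hLsucc, pow_succ 2 j, pow_mul]
      have h1 := hstep (L j)
      have h2 := pow_le_pow_left₀ (hp0 _) ih 2
      rw [mul_pow] at h2
      nlinarith
  have hterm : ∀ j, exp ((L (j + 1) : ℝ) / 10) * p (L j) ≤ 3 / 4 * (5 / 9) ^ (j + 1) := by
    intro j
    have h1 : exp ((L (j + 1) : ℝ) / 10) ≤ exp (2 / 5) ^ 2 ^ j := by
      rw [← exp_nat_mul]
      refine exp_le_exp.2 ?_
      have : (L (j + 1) : ℝ) ≤ 4 * (2 ^ j : ℕ) := by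
        exact_mod_cast (by simp only [hL, pow_succ]; omega : L (j + 1) ≤ 4 * 2 ^ j)
      push_cast at this ⊢
      linarith
    have he : exp (2 / 5 : ℝ) * (1 / 3) ≤ 5 / 9 := by
      have := Real.exp_bound_div_one_sub_of_interval (x := (2 / 5 : ℝ)) (by norm_num) (by norm_num)
      linarith [show (1 : ℝ) / (1 - 2 / 5) = 5 / 3 by norm_num]
    calc exp ((L (j + 1) : ℝ) / 10) * p (L j)
        ≤ exp (2 / 5) ^ 2 ^ j * (3 / 4 * (1 / 3) ^ 2 ^ j) :=
          mul_le_mul h1 (hpj j) (hp0 _) (by positivity)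
      _ = 3 / 4 * (exp (2 / 5) * (1 / 3)) ^ 2 ^ j := by rw [mul_pow]; ring
      _ ≤ 3 / 4 * (5 / 9) ^ 2 ^ j := by gcongr
      _ ≤ 3 / 4 * (5 / 9) ^ (j + 1) :=
          mul_le_mul_of_nonneg_left (pow_le_pow_of_le_one (by norm_num) (by norm_num)
            Nat.lt_two_pow_self) (by norm_num)
  have hpt : ∀ x, ENNReal.ofReal (exp (Y x / 10)) ≤ ENNReal.ofReal (exp (1 / 10)) +
      ∑' j, (S (L j)).indicator (fun _ => ENNReal.ofReal (exp ((L (j + 1) : ℝ) / 10))) x := by
    intro x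
    rcases le_or_gt (Y x) 1 with hy | hy
    · exact le_add_right (ENNReal.ofReal_le_ofReal (exp_le_exp.2 (by linarith)))
    have hex : ∃ j, Y x ≤ L (j + 1) := by
      refine ⟨⌈Y x⌉₊, (Nat.le_ceil _).trans (Nat.cast_le.2 ?_)⟩
      simp only [hL, pow_succ]
      have := Nat.lt_two_pow_self (n := ⌈Y x⌉₊)
      omega
    classical
    set j := Nat.find hex with hj
    have hmem : x ∈ S (L j) := by
      rcases Nat.eq_zero_or_pos j with h0 | h0
      · simpa [hS, hL, h0] using hy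
      · obtain ⟨i, hi⟩ := Nat.exists_eq_succ_of_ne_zero h0.ne'
        have := Nat.find_min hex (show i < Nat.find hex by rw [← hj, hi]; exact i.lt_succ_self)
        rw [hi]
        exact not_le.1 this
    refine le_trans ?_ (le_add_left (ENNReal.le_tsum j))
    rw [indicator_of_mem hmem]
    exact ENNReal.ofReal_le_ofReal (exp_le_exp.2 (by linarith [Nat.find_spec hex]))
  refine (lintegral_mono hpt).trans ?_
  rw [lintegral_add_left measurable_const, lintegral_const, measure_univ, mul_one,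
    lintegral_tsum fun j => (measurable_const.indicator (hSm _)).aemeasurable]
  have hsum : ∀ j, ∫⁻ x, (S (L j)).indicator
      (fun _ => ENNReal.ofReal (exp ((L (j + 1) : ℝ) / 10))) x ∂B.μ ≤
      ENNReal.ofReal (3 / 4 * (5 / 9) ^ (j + 1)) := fun j => by
    rw [lintegral_indicator_const (hSm _), ← ofReal_measureReal (μ := B.μ) (s := S (L j)),
      ← ENNReal.ofReal_mul (exp_pos _).le]
    exact ENNReal.ofReal_le_ofReal (hterm j)
  refine (add_le_add le_rfl (ENNReal.tsum_le_tsum hsum)).trans ?_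
  have hgeo : HasSum (fun j : ℕ => 3 / 4 * (5 / 9 : ℝ) ^ (j + 1)) (15 / 16) := by
    have h := (hasSum_geometric_of_lt_one (show (0 : ℝ) ≤ 5 / 9 by norm_num)
      (by norm_num)).mul_left (3 / 4 * (5 / 9 : ℝ))
    have e : (fun j : ℕ => 3 / 4 * (5 / 9 : ℝ) ^ (j + 1)) =
        fun j => 3 / 4 * (5 / 9) * (5 / 9) ^ j := funext fun j => by rw [pow_succ]; ring
    rw [e, show (15 / 16 : ℝ) = 3 / 4 * (5 / 9) * (1 - 5 / 9)⁻¹ by norm_num]
    exact h
  rw [← ENNReal.ofReal_tsum_of_nonneg (fun j => by positivity) hgeo.summable, hgeo.tsum_eq,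
    ← ENNReal.ofReal_add (exp_pos _).le (by norm_num), ← ENNReal.ofReal_ofNat 3]
  refine ENNReal.ofReal_le_ofReal ?_
  have := Real.exp_bound_div_one_sub_of_interval (x := (1 / 10 : ℝ)) (by norm_num) (by norm_num)
  norm_num at this ⊢
  linarith

/-- Near the mean, the Bregman divergence is quadratic when the covariance is bounded. -/
theorem Base.breg_small (B : Base n) {T R : ℝ} (hT : 0 ≤ T) (hR : 0 < R) {g : E n}
    (hcov : B.CovLe T g R) {u : E n} (hu : 40 * √R * ‖u‖ ≤ 1) :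
    B.breg T g u ≤ 9600 * R * ‖u‖ ^ 2 := by
  rcases eq_or_ne u 0 with rfl | hu0
  · simp [B.breg_zero]
  set r : ℝ := 2 * √R * ‖u‖ with hr_def
  have hr : 0 < r := by positivity
  have hr2 : r ^ 2 = 4 * R * ‖u‖ ^ 2 := by
    rw [hr_def, mul_pow, mul_pow, sq_sqrt hR.le]; ring
  set B' := B.tilt T hT g with hB'
  set c := ⟪B.mean T g, u⟫ with hc
  have hvar : 4 * ∫ x, (⟪u, x⟫ - c) ^ 2 ∂B'.μ ≤ r ^ 2 := by
    have h : B.avg T g (fun x => (⟪u, x⟫ - c) ^ 2) ≤ R * ‖u‖ ^ 2 := by
      rw [hc, B.inner_mean hT]; exact hcov u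
    rw [B.integral_tilt T hT g, hr2]
    linarith
  have hl := B'.borell_exp u c hr hvar
  set Y : E n → ℝ := fun x => |⟪u, x⟫ - c| / r with hY
  have hYi : Integrable (fun x => exp (Y x / 10)) B'.μ := by
    refine ⟨(by fun_prop : Continuous fun x => exp (Y x / 10)).aestronglyMeasurable, ?_⟩
    simp only [HasFiniteIntegral, Real.enorm_of_nonneg (exp_pos _).le]
    exact lt_of_le_of_lt hl ENNReal.ofNat_lt_top
  have hY3 : ∫ x, exp (Y x / 10) ∂B'.μ ≤ 3 := by
    rw [← ofReal_integral_eq_lintegral_ofReal hYi (.of_forall fun x => (exp_pos _).le)] at hl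
    exact (ENNReal.ofReal_le_ofReal_iff (by norm_num)).1
      (hl.trans_eq (ENNReal.ofReal_ofNat 3).symm)
  have hli : Integrable (fun x => ⟪u, x⟫) B'.μ :=
    B'.integrable_of_growth (by fun_prop) (expGrowth_inner u)
  have hei : Integrable (fun x => exp (⟪u, x⟫ - c)) B'.μ :=
    B'.integrable_of_growth (by fun_prop)
      (((expGrowth_exp_inner u).const_mul (exp (-c))).of_abs_le fun x => by
        rw [← exp_add]; ring_nf; rfl)
  have hpt : ∀ x, exp (⟪u, x⟫ - c) - (⟪u, x⟫ - c) - 1 ≤ 800 * r ^ 2 * exp (Y x / 10) := by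
    intro x
    set v := ⟪u, x⟫ - c with hv
    have habs : |v| = r * Y x := by
      rw [hY]; field_simp; rw [hv]
    have h1 : exp v - v - 1 ≤ v ^ 2 * exp |v| := by
      rcases le_or_gt |v| 1 with h | h
      · have := (abs_le.1 (Real.abs_exp_sub_one_sub_id_le h)).2
        nlinarith [one_le_exp (abs_nonneg v), sq_nonneg v]
      · have hv2 : 1 ≤ v ^ 2 := by nlinarith [sq_abs v]
        have he : 1 ≤ exp |v| := one_le_exp (abs_nonneg v)
        rcases le_or_gt v 0 with h0 | h0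
        · rw [abs_of_nonpos h0] at h
          nlinarith [exp_le_one_iff.2 h0]
        · rw [abs_of_pos h0] at h ⊢
          nlinarith [exp_pos v]
    refine h1.trans ?_
    have hY0 : 0 ≤ Y x := by rw [hY]; positivity
    have h2 := Real.quadratic_le_exp_of_nonneg (show 0 ≤ Y x / 20 by positivity)
    have h3 : exp |v| ≤ exp (Y x / 20) := by
      rw [habs]
      exact exp_le_exp.2 (by nlinarith [show r ≤ 1 / 20 by rw [hr_def]; linarith])
    rw [← sq_abs v, habs, mul_pow, show Y x / 10 = Y x / 20 + Y x / 20 by ring, exp_add]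
    rw [habs] at h3
    calc r ^ 2 * Y x ^ 2 * exp (r * Y x) ≤ r ^ 2 * (800 * exp (Y x / 20)) * exp (Y x / 20) :=
          mul_le_mul (mul_le_mul_of_nonneg_left (by nlinarith) (sq_nonneg r)) h3 (exp_pos _).le
            (by positivity)
      _ = _ := by ring
  have h2 := integral_mono ((hei.sub (hli.sub (integrable_const c))).sub (integrable_const 1))
    (hYi.const_mul (800 * r ^ 2)) hpt
  rw [integral_sub' (hei.sub (hli.sub (integrable_const c))) (integrable_const 1),
    integral_sub' hei (hli.sub (integrable_const c)), integral_sub' hli (integrable_const c),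
    integral_const_mul, integral_const, integral_const, probReal_univ, one_smul, one_smul] at h2
  rw [B.integral_tilt T hT g, B.integral_tilt T hT g, ← B.inner_mean hT g u, ← hc,
    ← B.exp_breg hT g u, sub_self, sub_zero] at h2
  have := add_one_le_exp (B.breg T g u)
  nlinarith [mul_le_mul_of_nonneg_left hY3 (show (0 : ℝ) ≤ 800 * r ^ 2 by positivity)]

/-- At time `T ≤ c n^{-1/3}`, bounded covariance and a norm window make a point good. -/
theorem good_of_cov {ε R : ℝ} (hε : 0 < ε) (hR : 0 < R) : ∃ c : ℝ, 0 < c ∧ ∀ n : ℕ, 1 ≤ n →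
    ∀ B : Base n, B.Subg → B.Centred → ∀ T : ℝ, 0 < T → T ≤ c / (n : ℝ) ^ ((1 : ℝ) / 3) →
    ∀ g : E n, B.CovLe T g R → ‖g‖ ^ 2 ≤ 16 * T * n → g ∈ B.Good T (ε / T) := by
  set u0 : ℝ := 1 / (40 * √R) with hu0
  have hu0p : 0 < u0 := by positivity
  refine ⟨min (min 1 (ε / 12)) (min (ε * u0 / 12) (ε / (9600 * R))), by positivity, ?_⟩
  set c : ℝ := min (min 1 (ε / 12)) (min (ε * u0 / 12) (ε / (9600 * R))) with hc
  have hc1 : c ≤ 1 := (min_le_left _ _).trans (min_le_left _ _)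
  have hc2 : c ≤ ε / 12 := (min_le_left _ _).trans (min_le_right _ _)
  have hc3 : c ≤ ε * u0 / 12 := (min_le_right _ _).trans (min_le_left _ _)
  have hc4 : c ≤ ε / (9600 * R) := (min_le_right _ _).trans (min_le_right _ _)
  intro n hn B hS hC T hT hTc g hcov hg u
  have hn1 : (1 : ℝ) ≤ n := by exact_mod_cast hn
  have hn0 : (0 : ℝ) < n := by linarith
  set k := (n : ℝ) ^ ((1 : ℝ) / 3) with hk
  have hk1 : 1 ≤ k := one_le_rpow hn1 (by norm_num)
  have hk3 : k ^ 3 = n := by
    rw [hk, ← rpow_natCast, ← rpow_mul hn0.le]; norm_num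
  have hTk : T * k ≤ c := (le_div_iff₀ (by linarith)).1 hTc
  have hc0 : 0 < c := by positivity
  have hTc' : T ≤ c := le_trans (by nlinarith) hTk
  set m : ℝ := max (T * n) 1 with hm
  have hm1 : 1 ≤ m := le_max_right _ _
  have hTm : T * √m ≤ c := by
    rw [← sqrt_sq hT.le, ← sqrt_mul (sq_nonneg T), sqrt_le_iff]
    refine ⟨hc0.le, ?_⟩
    have h3 : T ^ 3 * n ≤ c ^ 2 := by
      rw [← hk3, ← mul_pow]
      exact (pow_le_pow_left₀ (by positivity) hTk 3).trans
        (pow_le_pow_of_le_one hc0.le hc1 (by norm_num))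
    have h2 : T ^ 2 ≤ c ^ 2 := pow_le_pow_left₀ hT.le hTc' 2
    rw [hm, mul_max_of_nonneg _ _ (sq_nonneg T), max_le_iff]
    exact ⟨by linarith [show T ^ 2 * (T * n) = T ^ 3 * n by ring], by linarith⟩
  have hl : ∀ v, B.breg T g v ≤ 11 * m + ‖v‖ ^ 2 / 2 :=
    B.breg_large hS hC hT hg (le_max_left _ _) hm1
  rcases le_or_gt ‖u‖ u0 with h | h
  · refine (B.breg_small hT.le hR hcov ?_).trans (mul_le_mul_of_nonneg_right ?_ (sq_nonneg _))
    · rw [hu0, le_div_iff₀ (by positivity)] at h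
      linarith
    · rw [le_div_iff₀ hT]
      have := (le_div_iff₀ (by positivity)).1 (hTc'.trans hc4)
      linarith
  rcases le_or_gt m (‖u‖ ^ 2) with hbig | hbig
  · refine (hl u).trans ?_
    have : 12 ≤ ε / T := (le_div_iff₀ hT).2 (by linarith)
    nlinarith
  -- intermediate range: convexity
  have hu : 0 < ‖u‖ := hu0p.trans h
  set s : ℝ := ‖u‖ / √m with hs
  have hsm : 0 < √m := sqrt_pos.2 (by linarith)
  have hs1 : s ≤ 1 := (div_le_one hsm).2 ((le_sqrt hu.le (by linarith)).2 hbig.le)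
  set v : E n := (√m / ‖u‖) • u with hv
  have hvn : ‖v‖ ^ 2 = m := by
    rw [hv, norm_smul, norm_eq_abs, abs_of_pos (by positivity), div_mul_cancel₀ _ hu.ne',
      sq_sqrt (by linarith)]
  have hconv := (B.convexOn_breg hT g).2 (mem_univ (0 : E n)) (mem_univ v)
    (show 0 ≤ 1 - s by linarith) (show 0 ≤ s by positivity) (by ring)
  have e : (1 - s) • (0 : E n) + s • v = u := by
    rw [smul_zero, zero_add, hv, hs, smul_smul]
    field_simp
    simp
  rw [e, B.breg_zero, smul_zero, zero_add, smul_eq_mul] at hconv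
  refine hconv.trans ((mul_le_mul_of_nonneg_left (hl v) (by positivity)).trans ?_)
  rw [hvn, div_mul_eq_mul_div ε T (‖u‖ ^ 2),
    le_div_iff₀ hT]
  have e2 : s * m = ‖u‖ * √m := by
    rw [hs, div_mul_eq_mul_div, div_eq_iff hsm.ne', mul_assoc, mul_self_sqrt (by linarith)]
  have : 12 * c ≤ ε * ‖u‖ := by nlinarith
  have h5 : ‖u‖ * (12 * (T * √m)) ≤ ‖u‖ * (ε * ‖u‖) :=
    mul_le_mul_of_nonneg_left (by linarith) hu.le
  nlinarith

end Vale.Agent.P245.Local
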